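import Vale.Agent.P283B.LM.St
import Vale.Agent.P283B.LS.BriA

/-!
# P283B, block LM: general linear coordinates on a finite chart (leaf SBER)
-/

set_option linter.unusedSectionVars false

open Set Function
open Vale.Agent.P297Z

noncomputable section

namespace Vale.Agent.P283B.Lm

open P287D P287D.Cb Wp Ls Bi

namespace Sb

variable {F L : Type} [Field F] [Algebra ℂ F] [Field L] [Algebra ℂ L] {ι κ σ : Type} {n : ℕ}
  [Fintype ι] [Fintype κ] [Fintype σ] {y : ι → F} {z : κ → F} {T P : Pl F}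

theorem co_eq (hF : FF F (Fintype.card ι)) (h : AlgebraicIndependent ℂ y) (e : κ ≃ ι) :
    Co y (y ∘ e) :=
  ⟨h.comp _ e.injective, by rw [e.surjective.range_comp],
    (kq_congr hF (Fintype.card_congr e) e fun _ => rfl).symm⟩

theorem co_trans {x : σ → F} (h : Co y z) (k : Co z x) : Co y x :=
  ⟨k.ind, k.spn.trans h.spn, k.kq.trans h.kq⟩

theorem co_of {y z : Fin n → F} (hF : FF F n) (hy : AlgebraicIndependent ℂ y)
    (hz : AlgebraicIndependent ℂ z)
    (e : Submodule.span ℂ (range z) = Submodule.span ℂ (range y)) : Co y z := by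
  obtain ⟨D, hD⟩ := fr_of hF hy
  choose a ha using fun j => (Submodule.mem_span_range_iff_exists_fun ℂ).1
    (e ▸ Submodule.subset_span (mem_range_self j) : z j ∈ Submodule.span ℂ (range y))
  have d : P285N.Brep.jac D z = algebraMap ℂ F (Matrix.of fun i j => a j i).det := by
    rw [RingHom.map_det, P285N.Brep.jac]
    congr 1
    ext i j
    simp [← ha j, map_sum, hD.dual, Algebra.smul_def]
  refine ⟨hz, e, ?_⟩
  rw [kq_fin hF, kq_fin hF, kap_chg hD ((jac_ne_iff hD z).2 hz), d, dv_const, add_zero]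

theorem co_icl (h : Co y z) : Icl z = Icl y :=
  congrArg (fun A : Subalgebra ℂ F => (integralClosure A F).restrictScalars ℂ) h.adj

theorem co_ge (h : Co y z) : Ge z T P ↔ Ge y T P := by rw [Ge, Ge, h.fi, co_icl h]

theorem co_cnt (h : Co y z) {c : ℕ} (k : Cnt c y T) : Cnt c z T := by
  intro Ω _ _ w τ₀ P S hw g hP hS
  refine k Ω w τ₀ P S hw ((co_ge h).1 g) hP fun τ hτ => ⟨fun i => ?_, co_icl h ▸ (hS τ hτ).2⟩
  obtain ⟨a, e⟩ := (Submodule.mem_span_range_iff_exists_fun ℂ).1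
    (h.spn ▸ Submodule.subset_span (mem_range_self i) : y i ∈ Submodule.span ℂ (range z))
  simp only [← e, map_sum, map_smul, (hS τ hτ).1]

theorem co_ep {z : ι → L} {z' : κ → L} {φ : L →ₐ[ℂ] F} {J : Finset F} {ε a : ℝ}
    (e : Fintype.card κ = Fintype.card ι) (h : Co z z') (k : Co (im φ z) (im φ z'))
    (E : Ep ε z φ T J a) : Ep ε z' φ T J a :=
  ⟨h.rf E.rf, e ▸ E.ff, k.fi.2 E.fi, E.a0, co_icl k ▸ E.jm,
    fun P v g l => k.psi ▸ E.lo P v ((co_ge k).1 g) l,
    fun P v g l q => k.psi ▸ E.ef P v ((co_ge k).1 g) l (h.kq ▸ q)⟩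

theorem lies {z : ι → L} (φ : L →ₐ[ℂ] F) (hz : Rf z) (hF : FF F (Fintype.card ι)) (P : Pl F) :
    ∃ v, Lies (φ : L →+* F) P v := by
  let _ : Algebra L F := (φ : L →+* F).toAlgebra
  have : IsScalarTower ℂ L F := .of_algebraMap_eq fun c => (φ.commutes c).symm
  have := Pb.fin_of_ff (rf_ff hz rfl) hF
  exact (hF.ok φ P).resolve_left (Pb.not_trv P)

/-- general coordinates on an open set `G` of places -/
theorem ber (hB : BERT) {y : Fin (n + 1) → F} (hF : FF F (n + 1)) (hy : AlgebraicIndependent ℂ y)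
    {J s₁ s : Finset F} {c : ℝ} {G : Pl F → Prop}
    (hG : ∀ P P', G P → CLe (mx s₁) P P' → G P') (h0 : ∀ P, G P → 0 ≤ psi y J c P)
    (hs : (s : Set F) = range y) :
    ∃ z : Fin (n + 1) → F, Co y z ∧ ∀ P, G P → ∑ i, (dv (z i) + mx s) P ≤ psi y J c P := by
  classical
  obtain ⟨f, f0, e⟩ := kq_cn hF (Fintype.card_fin _) hy
  obtain ⟨s₀, -, b⟩ := exists_big hF
  have l : ∀ G P, ld (n + 1) (-dv f - c • mx J + G) P = psi y J c P - G P := fun G P => by
    simp only [ld, dsc, psi, e, Pi.add_apply, Pi.sub_apply, Pi.neg_apply, Pi.one_apply]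
    ring
  suffices H : ∀ S : Finset (Fin (n + 1)), ∃ z : Fin (n + 1) → F, Co y z ∧
      ∀ P, G P → (∑ i ∈ S, (dv (z i) + mx s)) P ≤ psi y J c P by
    simpa only [Finset.sum_apply] using H Finset.univ
  intro S
  induction S using Finset.induction_on with
  | empty => exact ⟨y, ⟨hy, rfl, rfl⟩, h0⟩
  | insert k S hk ih =>
    obtain ⟨z, h, H⟩ := ih
    obtain ⟨Q, hQ⟩ := h.step hF hs k
    obtain ⟨g, g1, g0, g2, -, g3⟩ := hB n F hF (mx s₀) (mx s₁)
      (-dv f - c • mx J + ∑ i ∈ S, (dv (z i) + mx s)) s {Q} (smp_mx _) b (smp_mx _)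
      (add_mem (sub_mem (neg_mem (dv_mem_Car _)) (Submodule.smul_mem _ _ (mx_mem_Car _)))
        (sum_mem fun i _ => add_mem (dv_mem_Car _) (mx_mem_Car _)))
      ⟨y 0, Finset.mem_coe.1 (hs ▸ ⟨0, rfl⟩), hy.ne_zero 0⟩ (finite_singleton _)
    refine ⟨_, hQ g g1 g0 (g2 Q rfl), fun P a => ?_⟩
    obtain ⟨P', p1, p2⟩ := g3 1 P zero_le_one le_rfl fun P' p =>
      l _ _ ▸ sub_nonneg.2 (H P' (hG P P' a p))
    rw [add_assoc, l, l, sub_self, min_eq_right (sub_nonneg.2 (H P' (hG P P' a p1))), one_smul,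
      sub_nonneg, add_comm] at p2
    rwa [Finset.sum_insert hk, update_self, Finset.sum_congr rfl fun i hi => by
      rw [update_of_ne (ne_of_mem_of_not_mem hi hk)]]

end Sb

/-- **SBER** -/
theorem sber : SBER := fun hG hB h3 n c ε ε0 => by
  classical
  obtain ⟨τ, τ0, H⟩ := h3 n c ε ε0
  refine ⟨τ, τ0, fun L M _ _ _ _ z φ T J a E hc hT => ?_⟩
  have hM : FF M (n + 1) := Fintype.card_fin (n + 1) ▸ E.ff
  have hy : AlgebraicIndependent ℂ (im φ z) := E.rf.ind.map' φ.injective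
  obtain ⟨-, -, s₁, -, -, -, hs⟩ := hG L M _ z φ E.rf E.ff
  obtain ⟨y, C, hb⟩ := Sb.ber hB hM hy (J := J) (c := a) (s₁ := s₁) (G := Ge (im φ z) T)
    (s := Finset.univ.image (im φ z))
    (fun P P' g l => ⟨((hs P P' g.1).1 l).1, fun b m k => g.2 b m (((hs P P' g.1).1 l).2 b m k)⟩)
    (fun P g => by
      obtain ⟨v, l⟩ := Sb.lies φ E.rf E.ff P
      exact (mul_pos ε0 (Int.cast_pos.2 l.e_pos)).le.trans (E.lo P v g l)) (by simp)
  have sp : ∀ x : Fin (n + 1) → L, Submodule.span ℂ (range (im φ x)) =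
      (Submodule.span ℂ (range x)).map φ.toLinearMap := fun x => by
    rw [Submodule.map_span, ← range_comp]
    rfl
  obtain ⟨x, rfl⟩ : ∃ x, im φ x = y := by
    choose x _ hx using fun i => Submodule.mem_map.1
      (sp z ▸ C.spn ▸ Submodule.subset_span (mem_range_self i) :
        y i ∈ (Submodule.span ℂ (range z)).map φ.toLinearMap)
    exact ⟨x, funext hx⟩
  have C₀ : Co z x := Sb.co_of (rf_ff E.rf (Fintype.card_fin _)) E.rf.ind (.of_comp φ C.ind)
    (Submodule.map_injective_of_injective φ.injective ((sp x).symm.trans (C.spn.trans (sp z))))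
  let e := (finSuccEquiv n).symm
  have C₁ : Co (im φ z) (im φ (x ∘ e)) := Sb.co_trans C (Sb.co_eq E.ff C.ind e)
  have le : ∀ (P : Pl M) i, -P.ord (φ (x i)) ≤ P.mz (Finset.univ.image (im φ z)) := fun P i =>
    P.le_mz_of_span (by
      rw [Finset.coe_image, Finset.coe_univ, image_univ, ← C.spn]
      exact Submodule.subset_span ⟨i, rfl⟩) (C.ind.ne_zero i)
  have := H L M (x ∘ e) φ T J a
    (Sb.co_ep (Fintype.card_congr e) (Sb.co_trans C₀ (rf_co (C₀.rf E.rf) e)) C₁ E)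
    (Sb.co_cnt C₁ hc) (by rwa [ce_iff C₁.ind, C₁.spn, ← ce_iff hy]) fun P j g => by
      have k := hb P ((Sb.co_ge C₁).1 g)
      have k' : (-P.ord (φ (x (e j))) : ℝ) ≤ mx (Finset.univ.image (im φ z)) P := by
        rw [mx]; exact_mod_cast le P (e j)
      simp only [Pi.add_apply, Finset.sum_add_distrib, Finset.sum_const, Finset.card_univ,
        Fintype.card_fin, nsmul_eq_mul, dv, Nat.cast_add, Nat.cast_one] at k
      have := mul_le_mul_of_nonneg_left k' (show (0 : ℝ) ≤ n + 1 by positivity)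
      rw [C₁.psi, show ∑ i, (P.ord (φ ((x ∘ e) i)) : ℝ) = _ from
        e.sum_comp fun i => (P.ord (φ (x i)) : ℝ), comp_apply]
      linarith
  rw [C₁.psi] at this
  obtain ⟨_, hg, -, e1⟩ := Pb.mz_att T (s := Finset.univ.image (im φ z))
    ⟨φ (z 0), by simp, hy.ne_zero 0⟩
  obtain ⟨i, -, rfl⟩ := Finset.mem_image.1 hg
  refine ⟨i, le_trans (mul_le_mul_of_nonneg_left ?_ τ0.le) this⟩
  have := le T (e none)
  exact_mod_cast (by omega : T.ord (im φ z i) ≤ T.ord (φ (x (e none))))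

end Vale.Agent.P283B.Lm
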