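import Vale.Agent.P283B.LM.St
import Vale.Agent.P283B.LS.Berg
import Vale.Agent.P287D.Va.Alg
import Vale.Agent.P287D.Va.Dsc

/-!
# P283B, block LM: the leaf `SBERG`
-/

set_option linter.unusedVariables false
set_option linter.unusedSectionVars false

open Set MvPolynomial
open Vale.Agent.P297Z

noncomputable section

namespace Vale.Agent.P283B.Lm.Be

open P287D P287D.Cb Wp Ls Ls.Be

variable {L M E : Type} [Field L] [Algebra ℂ L] [Field M] [Algebra ℂ M] [Field E] [Algebra ℂ E]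
  {ι σ : Type} {s : ℕ}

theorem icl_mem {y : ι → M} {P : Pl M} (h : Fi y P) {a : M} (k : a ∈ Icl y) : a ∈ P.ring := by
  obtain ⟨p, m, r⟩ : IsIntegral (Algebra.adjoin ℂ (range y)) a := k
  have : IsIntegral P.ring a := ⟨p.map ((algebraMap _ M).codRestrict _ fun b =>
    adj_mem (forall_mem_range.2 h) b.2), m.map _, by rw [Polynomial.eval₂_map]; exact r⟩
  obtain ⟨a, rfl⟩ := IsIntegrallyClosed.isIntegral_iff.1 this
  exact a.2

theorem mx_np {y : ι → M} {J : Finset M} (h : ∀ f ∈ J, f ∈ Icl y) {P : Pl M} (f : Fi y P) :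
    mx J P ≤ 0 := by
  by_cases k : ∃ g ∈ J, g ≠ 0
  · obtain ⟨g, hg, -, e⟩ := Pb.mz_att P k
    rw [mx_apply, e]
    exact Int.cast_nonpos.2 (neg_nonpos.2 (Pl.ord_nonneg_of_mem _ (icl_mem f (h g hg))))
  · rw [mx_apply, Pb.mz_eq_zero P fun g hg => by_contra fun g0 => k ⟨g, hg, g0⟩, Int.cast_zero]

/-- the pull backs of the divisors which do not contain the point -/
def Cn (ψ : Fin s → M →ₐ[ℂ] E) (B : BD M) (T : Pl M) : AddSubmonoid (BD E) where
  carrier := {G | ∃ G₀, 0 ≤ G₀ ∧ G₀ T = 0 ∧ (∃ m : ℝ, 0 ≤ m ∧ G₀ - m • B ∈ Prn M) ∧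
    G = ∑ j, pb (ψ j : M →+* E) G₀}
  add_mem' := by
    rintro _ _ ⟨a, a0, a1, ⟨m, m0, a2⟩, rfl⟩ ⟨b, b0, b1, ⟨k, k0, b2⟩, rfl⟩
    refine ⟨a + b, add_nonneg a0 b0, by rw [Pi.add_apply, a1, b1, add_zero],
      ⟨m + k, add_nonneg m0 k0, ?_⟩, by simp only [pb_add, Finset.sum_add_distrib]⟩
    rw [show a + b - (m + k) • B = a - m • B + (b - k • B) by module]
    exact add_mem a2 b2
  zero_mem' := ⟨0, le_rfl, rfl, ⟨0, le_rfl, by simp⟩, by simp only [pb_zero, Finset.sum_const_zero]⟩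

theorem zr_iff {ψ : Fin s → M →ₐ[ℂ] E} (ok : ∀ j, Ok (ψ j : M →+* E)) {B : BD M} {T : Pl M}
    (B0 : 0 ≤ B) (B1 : B T = 0) (w : Pl E) : (∀ G ∈ Cn ψ B T, G w = 0) ↔
      ∀ j P, Lies (ψ j : M →+* E) w P → CLe B T P := by
  constructor
  · refine fun h j u l G r g => by_contra fun y => ?_
    have := h _ ⟨G, r.1, le_antisymm (not_lt.1 y) (r.1 T), ⟨1, zero_le_one, by
      simpa using r.2⟩, rfl⟩
    rw [Finset.sum_apply, Finset.sum_eq_zero_iff_of_nonneg fun j _ => pb_nonneg _ r.1 w] at this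
    have := this j (Finset.mem_univ _)
    rw [l.pb] at this
    exact (mul_pos (Int.cast_pos.2 l.e_pos) g).ne' this
  · rintro h _ ⟨G, g0, g1, ⟨m, m0, g2⟩, rfl⟩
    rw [Finset.sum_apply]
    refine Finset.sum_eq_zero fun j _ => (ok j w).elim (·.pb G) fun ⟨u, l⟩ => ?_
    have m1 : 0 < m + 1 := by linarith
    have := (h j u l).zero (G := (m + 1)⁻¹ • (G + B))
      ⟨smul_nonneg (inv_pos.2 m1).le (add_nonneg g0 B0), by
      rw [show (m + 1)⁻¹ • (G + B) - B = (m + 1)⁻¹ • (G - m • B) + ((m + 1)⁻¹ * (m + 1) - 1) • B by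
        module, inv_mul_cancel₀ m1.ne', sub_self, zero_smul, add_zero]
      exact Submodule.smul_mem _ _ g2⟩ (by simp [g1, B1])
    rw [Pi.smul_apply, smul_eq_mul, mul_eq_zero, or_iff_right (inv_pos.2 m1).ne', Pi.add_apply]
      at this
    have a : 0 ≤ G u := g0 u
    have b : 0 ≤ B u := B0 u
    rw [l.pb, show G u = 0 by linarith, mul_zero]

/-- values at a point over the generic point of the base -/
theorem val {Ω κ : Type} [Field Ω] [Algebra ℂ Ω] [Fintype κ] {z : σ → L} (hz : Rf z)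
    {A : Subalgebra ℂ M} {φ : L →ₐ[ℂ] M} (m : ∀ b, φ (z b) ∈ A) (ξ : A →ₐ[ℂ] Ω) (ρ : L →ₐ[ℂ] Ω)
    (h : ∀ b, ξ ⟨_, m b⟩ = ρ (z b)) {a : κ → A} {e : κ → L} (k : ∑ l, a l * φ (e l) = 0) :
    ∑ l, ξ (a l) * ρ (e l) = 0 := by
  classical
  have pm : ∀ p : MvPolynomial σ ℂ, ∃ b : A, (b : M) = φ (aeval z p) ∧ ξ b = ρ (aeval z p) :=
    fun p => ⟨aeval (fun b => (⟨_, m b⟩ : A)) p,
      (comp_aeval_apply _ A.val p).trans (comp_aeval_apply z φ p).symm,
      by rw [comp_aeval_apply, comp_aeval_apply, funext h]⟩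
  have fr : ∀ f : L, ∃ p q : MvPolynomial σ ℂ, aeval z q ≠ 0 ∧ f * aeval z q = aeval z p :=
    fun f => by
      obtain ⟨p, q, rfl⟩ := (IntermediateField.mem_adjoin_range_iff _ _ f).1
        (hz.gen ▸ IntermediateField.mem_top)
      by_cases q0 : aeval z q = 0
      · exact ⟨0, 1, by simp, by simp [q0]⟩
      · exact ⟨p, q, q0, div_mul_cancel₀ _ q0⟩
  choose p q q0 pq using fun l => fr (e l)
  have e1 : ∀ l, e l * ∏ i, aeval z (q i) = aeval z (p l * ∏ i ∈ Finset.univ.erase l, q i) :=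
    fun l => by
      rw [← Finset.mul_prod_erase _ _ (Finset.mem_univ l), ← mul_assoc, pq, map_mul, map_prod]
  choose b b1 b2 using fun l => pm (p l * ∏ i ∈ Finset.univ.erase l, q i)
  have e2 : ∑ l, a l * b l = 0 := Subtype.ext (by
    have := congrArg (· * φ (∏ i, aeval z (q i))) k
    simp only [Finset.sum_mul, mul_assoc, ← map_mul, e1, ← b1, zero_mul] at this
    simpa using this)
  have := congrArg ξ e2
  simp only [map_sum, map_mul ξ, b2, ← e1, map_mul ρ, ← mul_assoc, ← Finset.sum_mul, map_zero]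
    at this
  exact (mul_eq_zero.1 this).resolve_right
    ((map_ne_zero ρ).2 (Finset.prod_ne_zero_iff.2 fun i _ => q0 i))

end Vale.Agent.P283B.Lm.Be

namespace Vale.Agent.P283B.Lm

open P287D P287D.Cb Wp Ls Be

/-- **SBERG** -/
theorem sberg : SBERG := by
  classical
  intro ot di ge ha L₀ L M σ ι _ _ _ _ _ _ _ _ z₀ z φ₀ φ T J c ε s k v hz e ep ε0 s0 fv H Ω _ _ w ρ
    ξ na hρ hx c0
  have e0 : ∀ b, φ.comp φ₀ (z₀ b) = im φ z (.inl b) := fun b => congrArg φ (e b)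
  have hL := Ls.Be.ff ep.rf
  obtain ⟨-, -, S, S1, Sz, Si, cl⟩ := ge L M _ z φ ep.rf ep.ff
  have dw : ∀ P : Pl M, ∃ v, Lies (φ : L →+* M) P v := fun P =>
    (ep.ff.ok φ P).resolve_left fun t => by
      let _ : Algebra L M := φ.toRingHom.toAlgebra
      have : IsScalarTower ℂ L M := .of_algebraMap_eq fun c => (φ.commutes c).symm
      have := Pb.fin_of_ff hL ep.ff
      exact Pb.not_trv P t
  have ha := ha L M _ z φ ep.rf ep.ff T
  have ef := ep.ef
  have lo : ∀ P, Ge (im φ z) T P → 0 < psi (im φ z) J c P := fun P g =>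
    let ⟨v, l⟩ := dw P
    (mul_pos ε0 (Int.cast_pos.2 l.e_pos)).trans_le (ep.lo P v g l)
  have yi : AlgebraicIndependent ℂ (im φ z) := ep.rf.ind.map' φ.injective
  have hM := ep.ff
  have jm := ep.jm
  have fT := ep.fi
  have c1 := ep.a0
  change ∀ P : Pl M, _ → _ → _ < (k + 1 : ℝ) * P.ord (φ.comp φ₀ v.t) at H
  change ∀ i, im φ z i ∈ S at Sz
  replace hx : ∀ b (a : Icl (im φ z)), a = im φ z (.inl b) → ξ a = ρ (z₀ b) := fun b a h =>
    (congrArg ξ (Subtype.ext h)).trans (hx b)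
  generalize φ.comp φ₀ = Φ at *
  generalize im φ z = y at *
  obtain ⟨E, _, _, φ', ψ, Y, B, δ, hE, hY, cm', hψ, hδ, d1, d3, d2, d4⟩ :=
    di L₀ M σ ι s z₀ y Φ s0 hz yi hM e0
  have cm : ∀ j, (ψ j : M →+* E).comp (Φ : L₀ →+* M) = φ' := fun j => RingHom.ext (cm' j)
  obtain ⟨b0⟩ : Nonempty σ := Fintype.card_pos_iff.1 (Nat.pos_of_ne_zero fun k =>
    no_pl (k ▸ Ls.Be.ff hz) v)
  obtain ⟨n, hn⟩ := Nat.exists_eq_succ_of_ne_zero
    (Fintype.card_pos_iff.2 ⟨(.inl b0 : σ ⊕ ι × Fin s)⟩).ne'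
  rw [hn] at hE
  obtain ⟨f₀, -, kf⟩ := kq_cn hE hn hY
  obtain ⟨m, hm⟩ : ∃ m : ℤ, kq z₀ v = m := kap_int _ v
  have ok := fun j => hE.ok (ψ j)
  set Γ : BD E := -dv f₀ - c • ∑ j, pb (ψ j : M →+* E) (mx J) with hΓ
  have ds : ∀ u, dsc (n + 1) Γ u = kq Y u + c * ∑ j, pb (ψ j : M →+* E) (mx J) u := fun u => by
    simp only [dsc, hΓ, kf, Pi.sub_apply, Pi.add_apply, Pi.neg_apply, Pi.smul_apply,
      Finset.sum_apply, smul_eq_mul]
    ring
  have sm : ∀ u, ∑ j, pb (ψ j : M →+* E) (psi y J c) u = ∑ j, pb (ψ j : M →+* E) (kq y + 1) u +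
      c * ∑ j, pb (ψ j : M →+* E) (mx J) u := fun u => by
    simp only [psi, pb_add _ (kq y + 1), pb_smul, Pi.add_apply, Pi.smul_apply, smul_eq_mul,
      Finset.sum_add_distrib, Finset.mul_sum]
  have B0 := mx_nonneg S1
  have B1 : mx S T = 0 := le_antisymm (mx_np Si fT) (B0 T)
  set H₀ : BD E := ∑ j, pb (ψ j : M →+* E) (mx S) with hH
  have zr : ∀ u, (∀ G ∈ Cn ψ (mx S) T, G u = 0) ↔
      ∀ j P, Lies (ψ j : M →+* E) u P → Ge y T P := fun u => by
    simp only [zr_iff ok B0 B1, cl T _ fT]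
  have fi : ∀ u, (∀ j P, Lies (ψ j : M →+* E) u P → Ge y T P) → ∀ j i, ψ j (y i) ∈ u.ring :=
    fun u h j i => (ok j u).elim (· _) fun ⟨P, l⟩ => (l _).1 ((h j P l).1 i)
  have fY : ∀ u, (∀ j P, Lies (ψ j : M →+* E) u P → Ge y T P) → Fi Y u := by
    rintro u h (b | ⟨i, j⟩)
    · exact (show ψ ⟨0, s0⟩ (y (.inl b)) = Y (.inl b) from hψ _ _) ▸ fi u h _ _
    · exact (show ψ j (y (.inr i)) = Y (.inr (i, j)) from hψ _ _) ▸ fi u h _ _
  have sp : ∀ J : Finset M, Smp (∑ j, pb (ψ j : M →+* E) (mx J)) := fun J =>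
    Finset.sum_induction _ Smp (fun _ _ => Smp.add) Smp.zero fun j _ => (ok j).smp (smp_mx J)
  have nf : Nef (c • ∑ j, pb (ψ j : M →+* E) (mx J)) := Smp.nef (Smp.smul (sp J) c1)
  have pr : H₀ - Γ - (H₀ + c • ∑ j, pb (ψ j : M →+* E) (mx J)) ∈ Prn E := by
    convert dv_mem_Prn f₀ using 1
    rw [hΓ]
    abel
  have bg : Big H₀ := by
    refine (big_iff_fld (.of_nonneg (Finset.sum_nonneg fun j _ => pb_nonneg _ B0))).2
      (eq_top_iff.2 fun x _ => ?_)
    have ym : ∀ j i, ψ j (y i) ∈ fld H₀ := fun j i => fld_mono (Finset.single_le_sum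
      (f := fun j => pb (ψ j : M →+* E) (mx S)) (fun j _ => pb_nonneg _ B0) (Finset.mem_univ j))
      ((ok j).mem_fld (eff_mx S) (rts_le_fld S (div_one (y i) ▸ div_mem_rts (Sz i) S1)))
    have := hE.fin (hY.comp _ (Fintype.equivFinOfCardEq hn).symm.injective)
    refine (cld_fld _).of_le (IntermediateField.adjoin_le_iff.2 ?_)
      (Algebra.IsAlgebraic.isAlgebraic (R := IntermediateField.adjoin ℂ
        (range (Y ∘ (Fintype.equivFinOfCardEq hn).symm))) x)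
    rw [(Equiv.surjective _).range_comp]
    rintro _ ⟨b | ⟨i, j⟩, rfl⟩
    · exact (show ψ ⟨0, s0⟩ (y (.inl b)) = Y (.inl b) from hψ _ _) ▸ ym _ _
    · exact (show ψ j (y (.inr i)) = Y (.inr (i, j)) from hψ _ _) ▸ ym _ _
  have s1 : (0 : ℝ) < s := Nat.cast_pos.2 s0
  obtain ⟨r, g, a, g1, g2, g3⟩ := ot n E hE L₀ σ z₀ φ' Γ H₀ (Cn ψ (mx S) T) v (k - m) hz
    (sp S).nef (by
      rintro _ ⟨G, g0, -, ⟨m, m0, g2⟩, rfl⟩
      refine ⟨Finset.sum_nonneg fun j _ => pb_nonneg _ g0, m, m0, ?_⟩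
      rw [hH, Finset.smul_sum, ← Finset.sum_sub_distrib]
      exact sum_mem fun j _ => by simpa only [pb_sub, pb_smul] using (ok j).prn g2)
    ⟨H₀, ⟨_, B0, B1, ⟨1, zero_le_one, by simp⟩, rfl⟩, ((sp S).nef.add nf).congr pr,
      (bg.add_nef nf).congr pr⟩
    (fun u h b => cm' ⟨0, s0⟩ _ ▸ e0 b ▸ fi u ((zr u).1 h) _ _) fv fun u h => by
      have f := (zr u).1 h
      have d := d1 u
      refine ⟨fun t => ?_, fun l => ?_⟩
      · by_cases tr : ∀ j, Trv (ψ j : M →+* E) u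
        · rw [ld, ds, Finset.sum_eq_zero fun j _ => (tr j).pb _]
          linarith [kq_nonneg hE hn (fY u f)]
        obtain ⟨j, tr⟩ := not_forall.1 tr
        obtain ⟨P, l⟩ := (ok j u).resolve_left tr
        have p : 0 < ∑ j, pb (ψ j : M →+* E) (psi y J c) u := Finset.sum_pos' (fun j _ =>
          (ok j u).elim (fun t => (t.pb _).ge) fun ⟨P, l⟩ => l.pb _ ▸
            (mul_pos (Int.cast_pos.2 l.e_pos) (lo P (f j P l))).le) ⟨j, Finset.mem_univ _,
          l.pb _ ▸ mul_pos (Int.cast_pos.2 l.e_pos) (lo P (f j P l))⟩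
        rw [t.pb] at d
        rw [ld, ds]
        linarith [sm u]
      · have : ∀ j, s * (pb (φ' : L₀ →+* E) (kq z₀ + 1) u - pb (ψ j : M →+* E) (psi y J c) u) <
            (k + 1) * u.ord (φ' v.t) := fun j => by
          obtain ⟨P, p⟩ := (ok j u).resolve_left fun t => l.not_trv (cm j ▸ t.comp _)
          have q : Lies (Φ : L₀ →+* M) P v := p.of_comp (cm j ▸ l)
          have e0 : (0 : ℝ) < u.ord (ψ j P.t) := Int.cast_pos.2 p.e_pos
          have o : (u.ord (φ' v.t) : ℝ) = u.ord (ψ j P.t) * P.ord (Φ v.t) := by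
            exact_mod_cast (congrArg u.ord (cm' j v.t)).symm.trans (p.ord _)
          rw [← cm j, (ok j).pb_comp, p.pb, p.pb]
          exact lt_of_eq_of_lt (by simp only [RingHom.coe_coe]; ring)
            ((mul_lt_mul_of_pos_left (H P (f j P p) q) e0).trans_eq (by rw [o]; ring))
        have t := Finset.sum_lt_sum_of_nonempty (s := Finset.univ)
          ⟨⟨0, s0⟩, Finset.mem_univ _⟩ fun j _ => this j
        rw [← Finset.mul_sum, Finset.sum_sub_distrib, sm, Finset.sum_const, Finset.sum_const,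
          Finset.card_fin, nsmul_eq_mul, nsmul_eq_mul] at t
        have t := lt_of_mul_lt_mul_left t s1.le
        rw [l.pb, Pi.add_apply, hm, Pi.one_apply] at t d
        rw [ld, ds]
        simp only [RingHom.coe_coe] at t d
        push_cast
        linarith
  have gB : ∀ l, g l ∈ B := fun l => d3 _ fun u tr =>
    (g1 l u ((zr u).2 fun j P l => (l.not_trv (tr j)).elim)).imp_right fun h => by
      rw [ds, Finset.sum_eq_zero fun j _ => (tr j).pb _] at h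
      linarith
  obtain ⟨f, hf⟩ : ∃ f : Fin r → M, ∀ l, δ ⟨g l, gB l⟩ = f l := ⟨_, fun _ => rfl⟩
  have low : ∀ l P, Ge y T P → ¬ Trv (Φ : L₀ →+* M) P → f l ≠ 0 →
      s * (pb (Φ : L₀ →+* M) (kq z₀ + 1) P - psi y J c P) - pb (Φ : L₀ →+* M) (kq z₀ + 1) P <
        P.ord (f l) := fun l P f1 nt g0 => by
    obtain ⟨u, l1, l2, l3⟩ := d2 P nt
    obtain ⟨v', q⟩ := (hM.ok Φ P).resolve_left nt
    have e1 : (0 : ℤ) < P.ord (Φ v'.t) := q.e_pos
    have o : ∀ j, u.ord (φ' v'.t) = u.ord (ψ j P.t) * P.ord (Φ v'.t) := fun j =>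
      (congrArg u.ord (cm' j v'.t)).symm.trans ((l1 j).ord _)
    have eq : ∀ j, u.ord (ψ j P.t) = u.ord (ψ ⟨0, s0⟩ P.t) := fun j =>
      mul_right_cancel₀ e1.ne' ((o j).symm.trans (o _))
    have e0 : (0 : ℝ) < u.ord (ψ ⟨0, s0⟩ P.t) := Int.cast_pos.2 (l1 _).e_pos
    have h := (g1 l u ((zr u).2 fun j Q l => (l1 j).uniq l ▸ f1)).resolve_left fun k => g0 (by
      rw [← hf, show (⟨g l, gB l⟩ : B) = 0 from Subtype.ext k, map_zero])
    have h2 := sm u
    have h3 : (u.ord (g l) : ℝ) ≤ u.ord (ψ ⟨0, s0⟩ P.t) * P.ord (f l) := by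
      exact_mod_cast hf l ▸ l3 ⟨g l, gB l⟩ (hf l ▸ g0) _
    rw [Finset.sum_congr rfl fun j _ => ((l1 j).pb _).trans (congrArg (fun a : ℤ => (a : ℝ) * _)
      (eq j)), Finset.sum_const, Finset.card_fin, nsmul_eq_mul] at h2
    rw [← cm ⟨0, s0⟩, (ok _).pb_comp, (l1 ⟨0, s0⟩).pb (pb _ _)] at l2
    rw [ds] at h
    simp only [RingHom.coe_coe] at l2
    refine lt_of_mul_lt_mul_left ?_ e0.le
    linarith
  choose b b1 b2 b3 b4 using fun l => ha (f l) fT fun P v' f1 l1 k0 => by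
    have p := ef P v' f1 l1 k0
    by_cases f0 : f l = 0
    · exact f0 ▸ zero_mem _
    by_cases tr : Trv (Φ : L₀ →+* M) P
    · refine hf l ▸ d4 P tr _ fun j u a1 a2 a3 a4 => ?_
      refine (g1 l u ((zr _).2 fun i Q l => ?_)).elim (fun h => by simp [h]) fun h => ?_
      · by_cases ij : i = j
        · exact a1.uniq (ij ▸ l) ▸ f1
        · exact (l.not_trv (a4 i ij)).elim
      rw [ds, Finset.sum_eq_single j (fun i _ ij => (a4 i ij).pb _) (by simp), a1.pb, a3] at h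
      simp only [RingHom.coe_coe, a2, Int.cast_one, one_mul] at h
      simp only [psi, Pi.add_apply, Pi.smul_apply, Pi.one_apply, smul_eq_mul] at p
      have : (-1 : ℤ) < u.ord (g l) := by
        exact_mod_cast (by linarith : (-1 : ℝ) < u.ord (g l))
      exact mem_ord (x := g l) (by omega)
    have h := low l P f1 tr f0
    obtain ⟨v₀, q⟩ := (hM.ok Φ P).resolve_left tr
    have a1 := kq_nonneg (Ls.Be.ff hz) rfl (y := z₀) (P := v₀) fun b =>
      (q _).2 (show Φ (z₀ b) ∈ _ from e0 b ▸ f1.1 _)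
    have a2 : (1 : ℝ) ≤ P.ord (Φ v₀.t) := by exact_mod_cast q.e_pos
    have a3 : 1 ≤ pb (Φ : L₀ →+* M) (kq z₀ + 1) P := by
      rw [q.pb, Pi.add_apply, Pi.one_apply]
      exact one_le_mul_of_one_le_of_one_le a2 (by linarith)
    have a4 : (1 : ℝ) ≤ s := by exact_mod_cast s0
    have : (-1 : ℤ) < P.ord (f l) := by
      exact_mod_cast (by nlinarith : (-1 : ℝ) < P.ord (f l))
    exact mem_ord (by omega)
  have t0 := Pb.t_ne v
  have am : ∀ l, a l * v.t ^ m ∈ v.ring := fun l => by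
    by_cases a0 : a l = 0
    · rw [a0, zero_mul]
      exact zero_mem _
    have := (g2 l).resolve_left a0
    rw [hm, ← Int.cast_neg, Int.cast_le] at this
    rw [← Pl.ord_nonneg_iff _ (mul_ne_zero a0 (zpow_ne_zero m t0)),
      Pl.ord_mul _ a0 (zpow_ne_zero m t0), Pl.ord_zpow, v.ord_t]
    omega
  choose pm pd using fun x : L₀ => hδ ⟨0, s0⟩ (Φ x)
  have id1 : Φ (v.t ^ k) = ∑ l, f l * Φ (a l * v.t ^ m) := by
    have := congrArg (· * φ' v.t ^ m) g3
    rw [← zpow_add₀ ((map_ne_zero φ').2 t0), sub_add_cancel, zpow_natCast, Finset.sum_mul] at this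
    rw [← pd, show (⟨_, pm (v.t ^ k)⟩ : B) = ∑ l, ⟨g l, gB l⟩ * ⟨_, pm (a l * v.t ^ m)⟩ from
      Subtype.ext (by simp [cm', this, mul_assoc])]
    simp only [map_sum, map_mul δ, hf, pd]
  let β : Icl y := ∏ l, ⟨b l, b1 l⟩
  have βe : (β : M) = ∏ l, b l := by simp [β]
  have βf : ∀ l, (β : M) * f l ∈ Icl y := fun l => by
    rw [βe, ← Finset.prod_erase_mul _ _ (Finset.mem_univ l), mul_assoc]
    exact mul_mem (prod_mem fun i _ => b1 i) (b4 l)
  have β1 : w (ξ β) = 1 := by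
    simp only [β, map_prod]
    exact Finset.prod_eq_one fun l _ => le_antisymm (c0 _).1 (not_lt.1 fun h =>
      ((c0 _).2 h).elim (fun h => b2 l (congrArg Subtype.val h)) (b3 l).not_gt)
  have id2 := val hz (fun b => e0 b ▸ mem_icl y _) ξ ρ (fun b => hx b _ (e0 b))
    (a := fun o : Option (Fin r) => o.elim (-β) fun l => ⟨_, βf l⟩)
    (e := fun o => o.elim (v.t ^ k) fun l => a l * v.t ^ m) (by
      simp only [Fintype.sum_option, Option.elim, id1, Finset.mul_sum, mul_assoc,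
        NegMemClass.coe_neg, neg_mul, Finset.sum_neg_distrib, neg_add_cancel])
  simp only [Fintype.sum_option, Option.elim, map_neg, neg_mul, neg_add_eq_zero] at id2
  obtain ⟨l, hl⟩ : ∃ l, w (ρ v.t) ^ k ≤ w (ξ ⟨_, βf l⟩) := by
    by_contra! z
    have := Mono.na_sum_lt na Finset.univ (fun l => ξ ⟨_, βf l⟩ * ρ (a l * v.t ^ m))
      (pow_pos (w.pos ((map_ne_zero ρ).2 t0)) k) fun l _ => by
        rw [map_mul]
        exact (mul_le_of_le_one_right (w.nonneg _) ((hρ _).1 (am l))).trans_lt (z l)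
    rw [← id2, map_mul, β1, one_mul, map_pow, map_pow] at this
    exact this.false
  refine ⟨⟨_, βf l⟩, fun P f1 nt g0 => ?_, hl⟩
  obtain ⟨x1, x2⟩ := mul_ne_zero_iff.1 (show (β : M) * f l ≠ 0 from fun h => g0 (Subtype.ext h))
  refine (low l P f1 nt x2).le.trans (Int.cast_le.2 ?_)
  change _ ≤ P.ord ((β : M) * f l)
  rw [Pl.ord_mul _ x1 x2]
  exact le_add_of_nonneg_left (Pl.ord_nonneg_of_mem _ (icl_mem f1.1 β.2))

end Vale.Agent.P283B.Lm
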