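import Vale.Agent.P283B.LM.Berg
import Vale.Agent.P283B.LS.Bri
import Vale.Agent.P283B.LS.RealA

/-!
# P283B, block LM: from places of a finite chart to the tower of discs (leaf BRI)
-/

set_option linter.unusedVariables false
set_option linter.unusedSectionVars false

open Set Function MvPolynomial
open Vale.Agent.P297Z

noncomputable section

namespace Vale.Agent.P283B.Lm.Bj

open P287D P287D.Cb Wp Ls Mono Mb Bi Lm.Be

variable {L M Ω ι κ : Type} [Field L] [Algebra ℂ L] [Field M] [Algebra ℂ M] [Field Ω] [Algebra ℂ Ω]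
  {n c m : ℕ} {w : AbsoluteValue Ω ℝ} {φ : L →ₐ[ℂ] M} {T P : Pl M} {R : Pl L} {J : Finset M}
  {a ε : ℝ}

/-- an embedding extends to a finite extension, with a given place -/
theorem ext_emb [IsAlgClosed Ω] (hw : IsNonarchimedean w) (hL : FF L m) (hM : FF M m)
    {τ : L →ₐ[ℂ] Ω} (h : Pw w (τ : L →+* Ω) R) (l : Lies (φ : L →+* M) P R) :
    ∃ τ' : M →ₐ[ℂ] Ω, (∀ f, τ' (φ f) = τ f) ∧ Pw w (τ' : M →+* Ω) P := by
  let _ := (φ : L →+* M).toAlgebra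
  let _ := (τ : L →+* Ω).toAlgebra
  have : IsScalarTower ℂ L M := .of_algebraMap_eq fun a => (φ.commutes a).symm
  have := Pb.fin_of_ff hL hM
  obtain ⟨k, k0, hk⟩ := h.log
  have e0 : (0 : ℝ) < P.ord (φ R.t) := Int.cast_pos.2 l.e_pos
  have p := div_pos k0 e0
  obtain ⟨ψ, hψ⟩ := Re.emb (K := L) (v := Re.pw (av P) av_na p) hw (Re.pw_na av_na p) fun f => by
    rw [Re.pw_apply]
    change av P (φ f) ^ _ = w (τ f)
    by_cases f0 : f = 0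
    · simp [f0, p.ne']
    rw [av_of ((map_ne_zero φ).2 f0), ← Real.exp_mul,
      ← Real.exp_log (w.pos ((map_ne_zero τ).2 f0)), show Real.log (w (τ f)) = _ from hk f,
      show P.ord (φ f) = P.ord (φ R.t) * _ from l.ord f]
    congr 1
    push_cast
    field_simp
  refine ⟨⟨ψ, fun a => (congrArg ψ (φ.commutes a).symm).trans ((ψ.commutes _).trans
    (τ.commutes a))⟩, ψ.commutes, fun f => ?_⟩
  change _ ↔ w (ψ f) ≤ 1
  rw [hψ, Re.pw_apply]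
  by_cases f0 : f = 0
  · simp [f0, p.ne', zero_mem]
  rw [av_of f0, ← Real.exp_mul, Real.exp_le_one_iff, neg_mul, neg_nonpos,
    mul_nonneg_iff_of_pos_right p, ← Pl.ord_nonneg_iff _ f0, Int.cast_nonneg_iff]

theorem icl_eq (y : ι → M) (e : κ ≃ ι) : Icl (y ∘ e) = Icl y :=
  congrArg (fun s => (integralClosure (Algebra.adjoin ℂ s) M).restrictScalars ℂ)
    (e.surjective.range_comp y)

theorem ge_eq (y : ι → M) (e : κ ≃ ι) : Ge (y ∘ e) T P ↔ Ge y T P := by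
  rw [Ge, Ge, icl_eq]
  exact and_congr_left' (e.surjective.forall (p := fun i => y i ∈ P.ring)).symm

theorem tr {y : ι → M} {z : κ → M} (h : Icl y = Icl z) {ξ : Icl z →ₐ[ℂ] Ω} (k : Ct0 w T ξ) :
    ∃ ζ : Icl y →ₐ[ℂ] Ω, Ct0 w T ζ ∧ ∀ a : Icl y, ζ a = ξ ⟨a, h.le a.2⟩ := by
  unfold Ct0 at k ⊢
  revert h ξ
  generalize Icl y = A
  rintro rfl ξ k
  exact ⟨ξ, k, fun _ => rfl⟩

theorem aev (y : ι → M) (p : MvPolynomial ι ℂ) : ∃ b : Icl y, (b : M) = aeval y p ∧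
    ∀ ξ : Icl y →ₐ[ℂ] Ω, ξ b = aeval (fun i => ξ ⟨_, mem_icl y i⟩) p :=
  ⟨aeval (fun i => (⟨y i, mem_icl y i⟩ : Icl y)) p, comp_aeval_apply _ (Icl y).val p,
    fun ξ => comp_aeval_apply _ ξ p⟩

variable [Fintype ι] [Fintype κ]

theorem psi_eq (hM : FF M (Fintype.card ι)) (y : ι → M) (e : κ ≃ ι) :
    psi (y ∘ e) J a = psi y J a := by
  rw [psi, psi, kq_congr hM (Fintype.card_congr e) e (y := y ∘ e) fun _ => rfl]

theorem ep_eq {z : ι → L} (h : Ep ε z φ T J a) (e : κ ≃ ι) : Ep ε (z ∘ e) φ T J a := by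
  have C := rf_co h.rf e
  have k := psi_eq (J := J) (a := a) h.ff (im φ z) e
  exact ⟨C.rf h.rf, Fintype.card_congr e ▸ h.ff, fun i => h.fi _, h.a0,
    fun f hf => (icl_eq (im φ z) e).ge (h.jm f hf),
    fun P v g l => (h.lo P v ((ge_eq (im φ z) e).1 g) l).trans_eq (congrFun k P).symm,
    fun P v g l b => (congrFun k P).trans_le (h.ef P v ((ge_eq (im φ z) e).1 g) l (C.kq ▸ b))⟩

/-- the sheet `ξ` is the place `P` -/
structure Rm (w : AbsoluteValue Ω ℝ) {A : Subalgebra ℂ M} (ξ : A →ₐ[ℂ] Ω) (τ : M →ₐ[ℂ] Ω)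
    (P : Pl M) : Prop where
  ex : ∀ a : A, τ a = ξ a
  pw : Pw w (τ : M →+* Ω) P

open Classical in
/-- the function `β` at the sheet `ξ` -/
def Pm (w : AbsoluteValue Ω ℝ) {A : Subalgebra ℂ M} (β : BD M) (ξ : A →ₐ[ℂ] Ω) : ℝ :=
  if h : ∃ q : (M →ₐ[ℂ] Ω) × Pl M, Rm w ξ q.1 q.2 then
    vl w (h.choose.1 h.choose.2.t) * β h.choose.2 else 0

theorem Rm.pm {A : Subalgebra ℂ M} {ξ : A →ₐ[ℂ] Ω} {τ : M →ₐ[ℂ] Ω} (h : Rm w ξ τ P)
    (fr : ∀ f, ∃ a b : A, f = (a : M) / b) (β : BD M) : Pm w β ξ = vl w (τ P.t) * β P := by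
  have k : ∃ q : (M →ₐ[ℂ] Ω) × Pl M, Rm w ξ q.1 q.2 := ⟨(τ, P), h⟩
  have a := k.choose_spec
  have e1 : k.choose.1 = τ := AlgHom.ext fun f => by
    obtain ⟨b, d, rfl⟩ := fr f
    rw [map_div₀, map_div₀, a.ex, a.ex, h.ex, h.ex]
  have e2 : k.choose.2 = P := Pb.pl_ext (ValuationSubring.ext _ _ fun f =>
    (a.pw f).trans (by rw [e1]; exact (h.pw f).symm))
  rw [Pm, dif_pos k, e1, e2]

theorem Rm.ge {y : ι → M} {ξ : Icl y →ₐ[ℂ] Ω} {τ : M →ₐ[ℂ] Ω} (h : Rm w ξ τ P)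
    (k : Ct0 w T ξ) : Ge y T P :=
  ⟨fun i => (h.pw _).2 ((congrArg w (h.ex ⟨_, mem_icl y i⟩)).trans_le (k _).1), fun a ha p =>
    ((k ⟨a, ha⟩).2 ((congrArg w (h.ex ⟨a, ha⟩)).symm.trans_lt
      (h.pw.lt (mx_iff.2 (.inr p))))).resolve_left fun e => by
        simp [show a = 0 from congrArg Subtype.val e] at p⟩

theorem ct0 {y : ι → M} {τ : M →ₐ[ℂ] Ω} (h : Pw w (τ : M →+* Ω) P) (g : Ge y T P) :
    Ct0 w T (τ.comp (Icl y).val) := fun a =>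
  ⟨(h _).1 (icl_mem g.1 a.2), fun k =>
    (mx_iff.1 (h.mx k)).imp Subtype.ext (g.2 a a.2)⟩

variable {E : Subfield Ω} {t : Ω} {u : Fin n → Ω} {T₀ : L} {y : Fin n → L}
  {U : Set (Icl (im φ (oo T₀ y)))} [IsAlgClosed Ω] (S : Su w E t u T₀ y)
  (ep : Ep ε (oo T₀ y) φ T J a)
  (fr : ∀ f : M, ∃ a ∈ Icl (im φ (oo T₀ y)), ∃ p : MvPolynomial _ ℂ, p ≠ 0 ∧
    f = a / aeval (im φ (oo T₀ y)) p)

include S ep fr

theorem frac (f : M) : ∃ a b : Icl (im φ (oo T₀ y)), f = (a : M) / b := by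
  obtain ⟨a, ha, p, -, rfl⟩ := fr f
  obtain ⟨b, hb, -⟩ := aev (Ω := M) (im φ (oo T₀ y)) p
  exact ⟨⟨a, ha⟩, b, by rw [hb]⟩

/-- a triangular sheet is a place -/
theorem rm (ξ : Sh w t (im φ (oo T₀ y)) T) {γ : Fin n → Ω}
    (ht : Tri E u ((sd w t _ T U).co ξ) γ) : ∃ τ P R, Rm w ξ.1 τ P ∧
      Rl w t T₀ y ((sd w t _ T U).co ξ) (τ.comp φ) R ∧ Lies (φ : L →+* M) P R := by
  obtain ⟨τ₀, R, h⟩ := S.rl ht
  have e : ∀ o, ξ.1 ⟨_, mem_icl _ o⟩ = τ₀ (oo T₀ y o) := by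
    rintro (_ | j)
    exacts [ξ.2.1.trans h.t.symm, (h.x j).symm]
  have inj : Injective ξ.1 := (injective_iff_map_eq_zero _).2 fun b hb => by_contra fun b0 => by
    obtain ⟨d, hd, p, p0, k⟩ := fr (b : M)⁻¹
    obtain ⟨g, g1, g2⟩ := aev (Ω := Ω) (im φ (oo T₀ y)) p
    have b1 : (b : M) ≠ 0 := fun z => b0 (Subtype.ext z)
    have g0 : (g : M) ≠ 0 := fun z => b1 (by rwa [← g1, z, div_zero, inv_eq_zero] at k)
    have k' : g = b * ⟨d, hd⟩ := Subtype.ext (by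
      rw [← g1, eq_div_iff g0, inv_mul_eq_iff_eq_mul₀ b1] at k
      exact k)
    have := g2 ξ.1
    rw [k', map_mul, hb, zero_mul, funext e, ← comp_aeval_apply, eq_comm, map_eq_zero] at this
    exact p0 (algebraicIndependent_iff.1 S.rf.ind p this)
  have : IsFractionRing (Icl (im φ (oo T₀ y))) M := .of_field _ _ (frac S ep fr)
  let τ : M →ₐ[ℂ] Ω := IsFractionRing.liftAlgHom inj
  have ex : ∀ b : Icl (im φ (oo T₀ y)), τ b = ξ.1 b := fun b => IsFractionRing.lift_algebraMap inj b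
  obtain rfl : τ₀ = τ.comp φ := rf_ext S.rf fun o => (e o).symm.trans (ex _).symm
  let _ := (φ : L →+* M).toAlgebra
  have : IsScalarTower ℂ L M := .of_algebraMap_eq fun a => (φ.commutes a).symm
  have := Pb.fin_of_ff (rf_ff S.rf rfl) ep.ff
  obtain ⟨P, hP⟩ := exists_up (ψ := (τ : M →+* Ω)) S.se.vs.na (P := R) h.pw
  exact ⟨τ, P, R, ⟨ex, hP⟩, h, hP.lies h.pw⟩

omit ep fr in
theorem gap {x : Fin n → Ω} {τ : L →ₐ[ℂ] Ω} (h : Rl w t T₀ y x τ R) {g : ℝ} (g0 : 0 < g)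
    (H : ∀ p, p ≠ 0 → ∃ z : ℤ, vl w (Ls.ev t x p) = z * g) : g ≤ vl w (τ R.t) := by
  obtain ⟨k0, k⟩ := vl_of h.pw
  obtain ⟨b, d, e⟩ := rf_div S.rf R.t
  obtain ⟨b0, d0⟩ := div_ne_zero_iff.1 (e ▸ R.t_ne)
  have ne : ∀ b, aeval (oo T₀ y) b ≠ 0 → optionEquivRight ℂ (Fin n) b ≠ 0 := fun b h z =>
    h (by rw [(map_eq_zero_iff _ (AlgEquiv.injective _)).1 z, map_zero])
  obtain ⟨z₁, e₁⟩ := H _ (ne b b0)
  obtain ⟨z₂, e₂⟩ := H _ (ne d d0)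
  rw [ev_opt, ← h.aev] at e₁ e₂
  have e₃ : vl w (τ R.t) = (z₁ - z₂ : ℤ) * g := by
    have := congrArg (fun i : ℤ => vl w (τ R.t) * i) (congrArg R.ord e)
    simp only [R.ord_t, Pl.ord_div _ b0 d0, Int.cast_sub, mul_sub, Int.cast_one, mul_one] at this
    rw [this, Int.cast_sub, sub_mul, ← e₁, ← e₂]
    exact congrArg₂ _ (k _).symm (k _).symm
  have e₄ : (1 : ℝ) ≤ (z₁ - z₂ : ℤ) := by
    exact_mod_cast (Int.cast_pos (R := ℝ)).1 ((mul_pos_iff_of_pos_right g0).1 (e₃ ▸ k0))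
  exact e₃ ▸ le_mul_of_one_le_left g0.le e₄

/-- the hypothesis of the extension theorem -/
theorem key (hR : REAL) {β : BD M} (h2 : ∀ P j, Ge (im φ (oo T₀ y)) T P →
      ∑ i, (P.ord (φ (oo T₀ y i)) : ℝ) - (n + 1) * P.ord (φ (oo T₀ y j)) ≤ β P)
    {η γ : Fin n → Ω} {τ : L →ₐ[ℂ] Ω} {v : Pl (Lc c T₀ y)} {A δ μ : ℝ} (p : Pt w E u η γ)
    (h : Rl w t T₀ y η τ R) (l : Lies ((Lc c T₀ y).val : Lc c T₀ y →+* L) R v)
    (hμ : vl w (τ v.t) = μ) (a1 : μ * A - aa w t c η ≤ δ)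
    (H : ∀ (ξ : Sh w t (im φ (oo T₀ y)) T) γ', Pt w E u ((sd w t _ T U).co ξ) γ' →
      (∀ j : Fin n, c ≤ j.1 → (sd w t _ T U).co ξ j = η j) → μ * A - Pm w β ξ.1 ≤ δ)
    (gP : Ge (im φ (oo T₀ y)) T P) (lP : Lies (φ.comp (Lc c T₀ y).val : Lc c T₀ y →+* M) P v) :
    μ * (P.ord (φ v.t) * A - β P) ≤ δ * P.ord (φ v.t) := by
  have hv := h.pw.of l
  have e0 : (0 : ℝ) < P.ord (φ v.t) := Int.cast_pos.2 lP.e_pos
  by_cases oP : ∀ j : Fin n, ¬ c ≤ j.1 → 0 < P.ord (φ (y j))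
  · obtain ⟨R', l'⟩ := (ep.ff.ok φ P).resolve_left fun k => lP.not_trv fun f => k _
    have l₀ := l'.of_comp (φ := ((Lc c T₀ y).val : Lc c T₀ y →+* L)) lP
    obtain ⟨τ', γ', b1, b2, b3, b4⟩ := hR n Ω w E t u S.se L y T₀ c γ τ R' S.rf
      (funext h.x ▸ p.tri) h.t fun f hf => ((l₀ ⟨f, lc_eq.ge hf⟩).symm.trans (hv _))
    obtain ⟨σ, d1, d2⟩ := ext_emb S.se.vs.na (rf_ff S.rf rfl) ep.ff b4 l'
    have e1 : τ'.comp (Lc c T₀ y).val = τ.comp (Lc c T₀ y).val := rf_ext (rf_zc S.rf) (by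
      rintro (_ | ⟨j, k⟩)
      exacts [b1.trans h.t.symm, b2 j k])
    have e2 : vl w (σ P.t) * P.ord (φ v.t) = μ := ((vl_of d2).2 _).symm.trans
      ((congrArg (vl w) ((d1 _).trans (AlgHom.congr_fun e1 v.t))).trans hμ)
    have o : ∀ j, w (σ (φ (y j))) < 1 := fun j => by
      by_cases k : c ≤ j.1
      · rw [d1, b2 j k, h.x]
        exact p.op j
      · exact d2.lt (mx_iff.2 (.inr (oP j k)))
    have e3 := H ⟨σ.comp (Icl _).val, (d1 _).trans b1, o, ct0 d2 gP⟩ γ'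
      ⟨(congrArg (Tri E u · γ') (funext fun j => d1 (y j))).mpr b3, o⟩
      fun j k => (d1 _).trans ((b2 j k).trans (h.x j))
    rw [Rm.pm ⟨fun _ => rfl, d2⟩ (frac S ep fr)] at e3
    have := mul_le_mul_of_nonneg_right e3 e0.le
    rw [sub_mul, mul_right_comm (vl w _), e2] at this
    linarith
  push Not at oP
  obtain ⟨j, -, hj⟩ := oP
  obtain ⟨m0, m⟩ := vl_of hv
  replace m0 : 0 < μ := m0.trans_eq hμ
  have nn : ∀ i, (0 : ℝ) ≤ P.ord (φ (oo T₀ y i)) := fun i =>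
    Int.cast_nonneg_iff.2 (Pl.ord_nonneg_of_mem _ (gP.1 i))
  have f1 := h2 P (some j) gP
  have f2 : ∀ f : Lc c T₀ y, P.ord (φ v.t) * vl w (τ f) = μ * P.ord (φ f) := fun f => by
    have a : P.ord (φ f) = P.ord (φ v.t) * v.ord f := lP.ord f
    have b : vl w (τ f) = vl w (τ v.t) * v.ord f := m f
    rw [a, b, hμ]
    push_cast
    ring
  have f3 : P.ord (φ v.t) * aa w t c η ≤ μ * ∑ i, (P.ord (φ (oo T₀ y i)) : ℝ) := by
    rw [aa, Fintype.sum_option, mul_add, mul_add, Finset.mul_sum, Finset.mul_sum, ← h.t]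
    refine add_le_add (f2 (zc c T₀ y none)).le ((Finset.sum_le_sum fun i hi => ?_).trans
      (Finset.sum_le_univ_sum_of_nonneg fun i => mul_nonneg m0.le (nn (some i))))
    rw [← h.x]
    exact (f2 (zc c T₀ y (some ⟨i, (Finset.mem_filter.1 hi).2⟩))).le
  rw [← le_antisymm (nn (some j)) (Int.cast_nonpos.2 hj), mul_zero, sub_zero] at f1
  have f5 := mul_le_mul_of_nonneg_left f1 m0.le
  have f6 := mul_le_mul_of_nonneg_left a1 e0.le
  linarith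

theorem bg (hG : BERG) (hR : REAL) (ε0 : 0 < ε) (h2 : ∀ P j, Ge (im φ (oo T₀ y)) T P →
      ∑ i, (P.ord (φ (oo T₀ y i)) : ℝ) - (n + 1) * P.ord (φ (oo T₀ y j)) ≤
        psi (im φ (oo T₀ y)) J a P) :
    Bg w E t u (sd w t _ T U) (fun ξ => Pm w (psi (im φ (oo T₀ y)) J a) ξ.1) ε := by
  have fc := frac S ep fr
  refine ⟨fun ξ γ p => ?_, fun ξ γ p => ?_, fun ξ γ j p => ?_, fun ξ γ g p g0 H => ?_,
    fun c s η γ δ s0 p δ0 a1 H ξ e => ?_⟩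
  iterate 4
    obtain ⟨τ, P, R, h, r, l⟩ := rm S ep fr ξ p.tri
    obtain ⟨k0, k⟩ := vl_of h.pw
    have ge := h.ge ξ.2.2.2
    have lo := mul_le_mul_of_nonneg_left (ep.lo P R ge l) k0.le
    simp only [RingHom.coe_coe] at k0 k lo
    rw [h.pm fc]
    rotate_left
  rotate_left
  · exact le_trans (mul_nonneg k0.le (mul_nonneg ε0.le (Int.cast_pos.2 l.e_pos).le)) lo
  · rw [← S.lev0 p.tri r, AlgHom.comp_apply, k (φ _), mul_assoc]
    refine mul_le_mul_of_nonneg_left (le_trans (add_le_of_nonpos_right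
      (mul_nonpos_of_nonneg_of_nonpos ep.a0 (mx_np ep.jm ge.1))) (le_of_eq ?_)) k0.le
    exact hur (rf_ff S.rf rfl) ep.ff φ.commutes l
      (S.rf.ind.comp _ (Fintype.equivFin _).symm.injective)
  · have := mul_le_mul_of_nonneg_left (h2 P (some j) ge) k0.le
    rw [Fintype.sum_option, mul_sub, mul_add, Finset.mul_sum, mul_left_comm] at this
    simp only [← k, show ∀ o, τ (φ (oo T₀ y o)) = _ from r.oo] at this
    exact this
  · rw [mul_left_comm, ← k] at lo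
    exact (mul_le_mul_of_nonneg_left (gap S r g0 H) ε0.le).trans lo
  obtain ⟨τ, R, h⟩ := S.rl p.tri
  obtain ⟨v, l⟩ := S.lies (c := c) h
  have hc := c.2.le
  have hv := h.pw.of l
  obtain ⟨μ, hμ⟩ : ∃ μ, vl w (τ v.t) = μ := ⟨_, rfl⟩
  have m0 : 0 < μ := (vl_of hv).1.trans_eq hμ
  have ea : aa w t c γ = μ * (kq (zc c T₀ y) + 1 : BD _) v := by
    rw [← S.lev hc p.tri h, l.pb, ← mul_assoc, ← hμ]
    exact congrArg (· * _) ((vl_of h.pw).2 _).symm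
  rw [ea] at a1 H
  have I : Icl (im φ (oo T₀ y ∘ sp hc)) = _ := icl_eq (im φ (oo T₀ y)) (sp hc)
  have ps : psi (im φ (oo T₀ y ∘ sp hc)) J a = _ := psi_eq ep.ff (im φ (oo T₀ y)) (sp hc)
  obtain ⟨ζ, cζ, hζ⟩ := tr I ξ.2.2.2
  obtain ⟨g, g1, g2⟩ := hG _ L M _ _ (zc c T₀ y) (oo T₀ y ∘ sp hc) (Lc c T₀ y).val φ T J a ε s
    ⌊s * δ / μ⌋₊ v (rf_zc S.rf) (fun _ => rfl) (ep_eq ep _) ε0 s0
    (fun b => (l _).2 (ce_fi (S.ce h p.op) _)) (fun P gP lP => by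
      have e4 := mul_lt_mul_of_pos_right ((div_lt_iff₀ m0).1 (Nat.lt_floor_add_one (s * δ / μ)))
        (show (0 : ℝ) < P.ord (φ v.t) from Int.cast_pos.2 lP.e_pos)
      have e5 := mul_le_mul_of_nonneg_left (key S ep fr hR h2 p h l hμ a1 H
        ((ge_eq (im φ (oo T₀ y)) (sp hc)).1 gP) lP) (Nat.cast_nonneg (α := ℝ) s)
      rw [lP.pb, ps]
      refine lt_of_mul_lt_mul_left ?_ m0.le
      change μ * (s * (P.ord (φ v.t) * _ - _)) < μ * (_ * P.ord (φ v.t))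
      linarith) Ω w (τ.comp (Lc c T₀ y).val) ζ S.se.vs.na hv (fun b => (hζ _).trans (by
      rcases b with _ | ⟨j, k⟩
      exacts [ξ.2.1.trans h.t.symm, (e j k).trans (h.x j).symm])) cζ
  rw [hζ] at g2
  refine ⟨⟨g, I.le g.2⟩, fun ξ' γ' p' => ?_, le_trans ?_ g2⟩
  · obtain ⟨τ', P, R', h', r, l'⟩ := rm S ep fr ξ' p'.tri
    obtain ⟨q0, q⟩ := vl_of h'.pw
    refine (congrArg w (h'.ex _)).ge.trans ?_
    change w (τ' g) ≤ _
    by_cases z : g = 0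
    · rw [z, ZeroMemClass.coe_zero, map_zero, map_zero]
      exact (Real.exp_pos _).le
    have := mul_le_mul_of_nonneg_left (g1 P ((ge_eq (im φ (oo T₀ y)) (sp hc)).2 (h'.ge ξ'.2.2.2))
      (fun k => S.nt r fun f => (l' _).2 (k f)) z) q0.le
    have e1 : vl w (τ' P.t) *
        pb (φ.comp (Lc c T₀ y).val : Lc c T₀ y →+* M) (kq (zc c T₀ y) + 1) P = aa w t c γ' := by
      rw [← S.lev hc p'.tri r, show (φ.comp (Lc c T₀ y).val : Lc c T₀ y →+* M) =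
        (φ : L →+* M).comp (Lc c T₀ y).val from rfl, (ep.ff.ok φ).pb_comp, l'.pb, ← mul_assoc]
      exact congrArg (· * _) (q _).symm
    rw [← q, ps] at this
    rw [← Real.log_le_iff_le_exp (w.pos ((map_ne_zero τ').2 fun k => z (Subtype.ext k))), ← e1]
    beta_reduce
    rw [h'.pm fc]
    simp only [vl, RingHom.coe_coe] at this ⊢
    linarith
  · have e1 := (le_div_iff₀ m0).1 (Nat.floor_le (div_nonneg (mul_nonneg s.cast_nonneg δ0) m0.le))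
    have e2 : 0 ≤ vl w (η c) := neg_nonneg.2 (Real.log_nonpos (w.nonneg _) (p.op c).le)
    rw [← Real.exp_log (w.pos ((map_ne_zero (τ.comp (Lc c T₀ y).val)).2 v.t_ne)),
      ← Real.exp_nat_mul, Real.exp_le_exp]
    change _ ≤ _ * Real.log (w (τ v.t))
    rw [← neg_neg (Real.log _), ← vl, hμ]
    linarith

end Vale.Agent.P283B.Lm.Bj

namespace Vale.Agent.P283B.Lm

open P287D Ls Bi Bj

theorem bri : BRI := fun hT hG hC hN hR n c ε ε0 => by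
  obtain ⟨τ, τ0, H⟩ := hT n c ε ε0
  refine ⟨τ, τ0, fun L M _ _ _ _ z φ T J a ep cn ce h => ?_⟩
  obtain ⟨T₀, y, rfl⟩ : ∃ T₀ y, z = oo T₀ y :=
    ⟨z none, fun j => z (some j), funext (by rintro (_ | j) <;> rfl)⟩
  obtain ⟨R, l⟩ := (ep.ff.ok φ T).resolve_left fun k => (ce none).ne' (k.ord _)
  obtain ⟨w, E, u, γ, S, ht, hw⟩ := exists_su ep.rf ((l.ord_pos_iff _).1 (ce none))
  obtain ⟨σ, d1, d2⟩ := ext_emb (τ := IsScalarTower.toAlgHom ℂ L _) S.se.vs.na (rf_ff ep.rf rfl)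
    ep.ff hw l
  obtain ⟨U, hU⟩ := hC n c _ w E _ u S.se L M _ φ T ep.rf ep.ff ce cn
  have fr := (hN L M _ _ φ ep.rf ep.ff).2.1
  have o : ∀ j, w (σ (φ (y j))) < 1 := fun j => d2.lt (Cb.mx_iff.2 (.inr (ce (some j))))
  have := H _ w E _ u S.se _ _ _ _ hU (bg S ep fr hG hR ε0 h)
    ⟨σ.comp (Icl _).val, d1 _, o, ct0 d2 ⟨ep.fi, fun _ _ k => k⟩⟩ γ
    ⟨(congrArg (Mono.Tri E u · γ) (funext fun j => d1 (y j))).mpr ht, o⟩
  obtain ⟨k0, k⟩ := vl_of d2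
  rw [Rm.pm ⟨fun _ => rfl, d2⟩ (frac S ep fr), ← show σ (φ T₀) = algebraMap L _ T₀ from d1 T₀,
    show vl w (σ (φ T₀)) = _ from k _, mul_left_comm] at this
  exact le_of_mul_le_mul_left this k0

end Vale.Agent.P283B.Lm
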