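import Vale.Agent.P283B.LM.St
import Vale.Agent.P283B.MONO.Br
import Vale.Agent.P283B.LS.BriA

/-!
# P283B, block LM: the sheets over the points of the open polydisc
-/

set_option linter.unusedVariables false
set_option linter.unusedSectionVars false

open Set Polynomial
open Vale.Agent.P287D Vale.Agent.P287D.Cb

noncomputable section

namespace Vale.Agent.P283B.Lm

open Mb Ls

namespace Cs

section alg

variable {R B Ω : Type} [CommRing R] [CommRing B] [Field Ω] [Algebra R B] [Algebra.IsIntegral R B]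

theorem extend [IsDomain B] [IsAlgClosed Ω] (ρ : R →+* Ω) (h : Function.Injective (algebraMap R B)) :
    ∃ ξ : B →+* Ω, ∀ r, ξ (algebraMap R B r) = ρ r := by
  have := RingHom.ker_isPrime ρ
  obtain ⟨Q, q, e⟩ := Ideal.exists_ideal_over_prime_of_isIntegral_of_isDomain (S := B)
    (RingHom.ker ρ) (by rw [(RingHom.injective_iff_ker_eq_bot _).1 h]; exact bot_le)
  let _ : Algebra (R ⧸ Q.comap (algebraMap R B)) Ω :=
    (Ideal.Quotient.lift _ ρ fun a ha => by rwa [e] at ha).toAlgebra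
  have : Module.IsTorsionFree (R ⧸ Q.comap (algebraMap R B)) Ω :=
    Module.isTorsionFree_iff_algebraMap_injective.2
      (RingHom.lift_injective_of_ker_le_ideal _ _ e.ge)
  have : Module.IsTorsionFree (R ⧸ Q.comap (algebraMap R B)) (B ⧸ Q) :=
    Module.isTorsionFree_iff_algebraMap_injective.2 Ideal.algebraMap_quotient_injective
  let l : (B ⧸ Q) →ₐ[R ⧸ Q.comap (algebraMap R B)] Ω := IsAlgClosed.lift
  exact ⟨(l : _ →+* Ω).comp (Ideal.Quotient.mk Q), fun r => l.commutes (Ideal.Quotient.mk _ r)⟩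

end alg

section val

variable {ι B Ω : Type} [CommRing B] [Field Ω] [Algebra ℂ Ω] [Algebra (MvPolynomial ι ℂ) B]
  [Algebra.IsIntegral (MvPolynomial ι ℂ) B] {w : AbsoluteValue Ω ℝ}

theorem pt (hw : IsNonarchimedean w) (c1 : ∀ c, w (algebraMap ℂ Ω c) ≤ 1) {x : ι → Ω}
    (hx : ∀ i, w (x i) < 1) {ξ : B →+* Ω}
    (h : ∀ r, ξ (algebraMap _ B r) = MvPolynomial.aeval (R := ℂ) x r) :
    ∃ π : B →+* ℂ, (∀ r, π (algebraMap _ B r) = MvPolynomial.aeval (R := ℂ) (0 : ι → ℂ) r) ∧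
      ∀ b, w (ξ b) ≤ 1 ∧ w (ξ b - algebraMap ℂ Ω (π b)) < 1 := by
  let V := vr hw (RingHom.id Ω)
  have rs : ∀ a : V, IsLocalRing.residue V a = 0 ↔ w a < 1 := fun a => by
    rw [IsLocalRing.residue_eq_zero_iff, ← ValuationSubring.coe_mem_nonunits_iff,
      ValuationSubring.mem_nonunits_iff_or]
    change _ ∨ ¬ w _ ≤ 1 ↔ _
    by_cases a0 : (a : Ω) = 0
    · simp [a0]
    · simp [a0, one_lt_inv₀ (w.pos a0)]
  let j : ℂ →+* V := (algebraMap ℂ Ω).codRestrict V c1
  let e : MvPolynomial ι ℂ →+* V := MvPolynomial.eval₂Hom j fun i => ⟨x i, (hx i).le⟩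
  have he : (algebraMap V Ω).comp e = ξ.comp (algebraMap _ B) :=
    MvPolynomial.ringHom_ext (fun c => by simp [e, h]; rfl) fun i => by simp [e, h]
  have m : ∀ b, ξ b ∈ V := fun b => by
    obtain ⟨a, ha⟩ := IsIntegrallyClosed.algebraMap_eq_of_integral
      ((Algebra.IsIntegral.isIntegral (R := MvPolynomial ι ℂ) b).map_of_comp_eq e ξ he)
    exact ha ▸ a.2
  let g := (IsLocalRing.residue V).comp (ξ.codRestrict V m)
  let _ : Algebra ℂ (IsLocalRing.ResidueField V) := ((IsLocalRing.residue V).comp j).toAlgebra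
  have hg : (algebraMap ℂ _).comp (MvPolynomial.aeval (R := ℂ) (0 : ι → ℂ) : _ →+* ℂ) =
      g.comp (algebraMap (MvPolynomial ι ℂ) B) := by
    refine MvPolynomial.ringHom_ext (fun c => ?_) fun i => ?_
    · refine (congrArg (algebraMap ℂ _) (MvPolynomial.aeval_C _ c)).trans
        (congrArg (IsLocalRing.residue V) (Subtype.ext ?_))
      exact ((h _).trans (MvPolynomial.aeval_C _ c)).symm
    · refine (congrArg (algebraMap ℂ _) (MvPolynomial.aeval_X _ i)).trans
        ((map_zero _).trans ((rs _).2 ?_).symm)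
      exact ((congrArg w ((h _).trans (MvPolynomial.aeval_X _ i))).trans_lt (hx i))
  choose c hc using fun b => ((Algebra.IsIntegral.isIntegral (R := MvPolynomial ι ℂ) b).map_of_comp_eq
    _ g hg).mem_range_algebraMap_of_minpoly_splits (K := ℂ) (IsAlgClosed.splits _)
  have i := (algebraMap ℂ (IsLocalRing.ResidueField V)).injective
  refine ⟨⟨⟨⟨c, i (by simp [hc])⟩, fun a b => i (by simp [hc])⟩, i (by simp [hc]),
    fun a b => i (by simp [hc])⟩, fun r => i ((hc _).trans (RingHom.congr_fun hg r).symm),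
    fun b => ⟨m b, (rs (⟨ξ b, m b⟩ - j (c b))).1 ?_⟩⟩
  rw [map_sub, sub_eq_zero]
  exact (hc b).symm

theorem lt_iff (hw : IsNonarchimedean w) (c1 : ∀ c, w (algebraMap ℂ Ω c) ≤ 1) {a : Ω} {c : ℂ}
    (h : w (a - algebraMap ℂ Ω c) < 1) : w a < 1 ↔ c = 0 := by
  refine ⟨fun k => by_contra fun c0 => ?_, fun k => by simpa [k] using h⟩
  have e := (hw a (-(a - algebraMap ℂ Ω c))).trans_lt (max_lt k (by rwa [w.map_neg]))
  have := mul_lt_one_of_nonneg_of_lt_one_left (w.nonneg _) e (c1 c⁻¹)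
  rw [neg_sub, add_sub_cancel, ← map_mul, ← map_mul, mul_inv_cancel₀ c0, map_one, map_one] at this
  exact this.false

end val

section chi

variable {R L M : Type} [CommRing R] [IsDomain R] [IsIntegrallyClosed R] [Field L] [CharZero L]
  [Field M] [Algebra R L] [IsFractionRing R L] [Algebra L M] [Algebra R M] [IsScalarTower R L M]
  [FiniteDimensional L M]

/-- the conjugate of an integral element -/
def cj (σ : M →ₐ[L] AlgebraicClosure M) {H : M} (h : IsIntegral R H) :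
    integralClosure R (AlgebraicClosure M) := ⟨σ H, h.map (σ.restrictScalars R)⟩

theorem chi {H : M} (h : IsIntegral R H) : ∃ χ : R[X],
    χ.map (algebraMap R (integralClosure R (AlgebraicClosure M))) =
      ∏ σ : M →ₐ[L] AlgebraicClosure M, (X - C (cj σ h)) := by
  let N := AlgebraicClosure M
  let f := (Algebra.lmul L M H).charpoly
  have e : f.map (algebraMap L N) = (∏ σ : M →ₐ[L] N, (X - C (cj σ h))).map (algebraMap _ N) := by
    refine eq_of_infinite_eval_eq _ _ (infinite_of_injective_forall_mem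
      (algebraMap L N).injective fun a => ?_)
    have := Algebra.norm_eq_prod_embeddings L N (algebraMap L M a - H)
    rw [Algebra.norm_apply] at this
    rw [mem_ofPred, eval_map_algebraMap, aeval_algebraMap_apply_eq_algebraMap_eval,
      LinearMap.eval_charpoly, ← (Algebra.lmul L M).commutes, ← map_sub]
    refine this.trans ?_
    simp only [Polynomial.map_prod, eval_prod, map_sub, AlgHom.commutes, Polynomial.map_sub, map_X,
      map_C, eval_sub, eval_X, eval_C]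
    rfl
  obtain ⟨χ, hχ⟩ : f ∈ lifts (algebraMap R L) := (lifts_iff_coeff_lifts _).2 fun i =>
    IsIntegrallyClosed.algebraMap_eq_of_integral ((isIntegral_algebraMap_iff
      (algebraMap L N).injective).1 (by
        rw [← coeff_map, e, coeff_map]; exact Subtype.prop (p := fun x => IsIntegral R x) _))
  refine ⟨χ, map_injective (algebraMap _ N) Subtype.val_injective ?_⟩
  rw [← e, ← show χ.map _ = f from hχ, map_map, map_map, ← IsScalarTower.algebraMap_eq,
    ← IsScalarTower.algebraMap_eq]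

end chi

section icl

variable {ι L M Ω : Type} [Finite ι] [Field L] [Algebra ℂ L] [Field M] [Algebra ℂ M] [Field Ω]
  [Algebra ℂ Ω] [Algebra (MvPolynomial ι ℂ) L] [IsFractionRing (MvPolynomial ι ℂ) L] [Algebra L M]
  [Algebra (MvPolynomial ι ℂ) M] [IsScalarTower (MvPolynomial ι ℂ) L M] [FiniteDimensional L M]
  {y : ι → M} (hy : ∀ r, algebraMap (MvPolynomial ι ℂ) M r = MvPolynomial.aeval (R := ℂ) y r)

include hy

theorem int_of (a : Icl y) : IsIntegral (MvPolynomial ι ℂ) (a : M) := by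
  let S := Algebra.adjoin ℂ (range y)
  have m : ∀ r, MvPolynomial.aeval (R := ℂ) y r ∈ S := fun r =>
    (Algebra.adjoin_range_eq_range_aeval ℂ y).ge ⟨r, rfl⟩
  let _ : Algebra (MvPolynomial ι ℂ) S :=
    ((MvPolynomial.aeval (R := ℂ) y : _ →+* M).codRestrict S m).toAlgebra
  have : IsScalarTower (MvPolynomial ι ℂ) S M := .of_algebraMap_eq hy
  have : Algebra.IsIntegral (MvPolynomial ι ℂ) S := Algebra.isIntegral_of_surjective fun b =>
    let ⟨r, e⟩ := (Algebra.adjoin_range_eq_range_aeval ℂ y).le b.2; ⟨r, Subtype.ext e⟩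
  exact isIntegral_trans (A := S) _ a.2

/-- the conjugate of the chart ring -/
def em (σ : M →ₐ[L] AlgebraicClosure M) :
    Icl y →+* integralClosure (MvPolynomial ι ℂ) (AlgebraicClosure M) :=
  ((σ : M →+* _).comp ((Icl y).val : Icl y →+* M)).codRestrict _ fun a => (cj σ (int_of hy a)).2

theorem em_ev (σ : M →ₐ[L] AlgebraicClosure M) (r : MvPolynomial ι ℂ) :
    em hy σ (MvPolynomial.aeval (R := ℂ) (fun i => (⟨y i, mem_icl y i⟩ : Icl y)) r) =
      algebraMap _ _ r := by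
  refine Subtype.ext (.trans (congrArg σ ?_) ((σ.restrictScalars (MvPolynomial ι ℂ)).commutes r))
  rw [hy]
  exact AlgHom.congr_fun (MvPolynomial.comp_aeval _ (Icl y).val) r

variable {x : ι → Ω} {ξ : integralClosure (MvPolynomial ι ℂ) (AlgebraicClosure M) →+* Ω}
  (h : ∀ r, ξ (algebraMap _ _ r) = MvPolynomial.aeval (R := ℂ) x r)

/-- the sheets -/
def hm (σ : M →ₐ[L] AlgebraicClosure M) : Icl y →ₐ[ℂ] Ω :=
  ⟨ξ.comp (em hy σ), fun c => by
    have := em_ev hy σ (MvPolynomial.C c)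
    rw [MvPolynomial.aeval_C] at this
    exact (congrArg ξ this).trans ((h _).trans (MvPolynomial.aeval_C _ c))⟩

theorem hm_y (σ : M →ₐ[L] AlgebraicClosure M) (i : ι) : hm hy h σ ⟨y i, mem_icl y i⟩ = x i := by
  have := em_ev hy σ (MvPolynomial.X i)
  rw [MvPolynomial.aeval_X] at this
  exact (congrArg ξ this).trans ((h _).trans (MvPolynomial.aeval_X _ i))

theorem chi' (H : Icl y) : ∃ χ : (MvPolynomial ι ℂ)[X],
    χ.eval₂ (MvPolynomial.aeval (R := ℂ) fun i => (⟨y i, mem_icl y i⟩ : Icl y) : _ →+* Icl y) H = 0 ∧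
    ∀ (Ω : Type) [Field Ω] [Algebra ℂ Ω] (x : ι → Ω) ξ h,
      χ.map (MvPolynomial.aeval (R := ℂ) x : _ →+* Ω) =
        ∏ σ : M →ₐ[L] AlgebraicClosure M, (X - C (hm (x := x) (ξ := ξ) hy h σ H)) := by
  have : CharZero L := charZero_of _
  obtain ⟨χ, e⟩ := chi (L := L) (int_of hy H)
  refine ⟨χ, ?_, fun Ω _ _ x ξ h => ?_⟩
  · let σ := IsScalarTower.toAlgHom L M (AlgebraicClosure M)
    have := congrArg (eval (em hy σ H)) e
    rw [eval_map, eval_prod, Finset.prod_eq_zero (Finset.mem_univ σ) (by simp; exact sub_self _),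
      ← RingHom.ext (em_ev hy σ) (f := (em hy σ).comp _), ← hom_eval₂] at this
    exact Subtype.ext (σ.injective ((congrArg Subtype.val this).trans (map_zero σ).symm))
  · rw [← show ξ.comp (algebraMap _ _) =
      (MvPolynomial.aeval (R := ℂ) x : MvPolynomial ι ℂ →+* Ω) from RingHom.ext h,
      ← map_map, e, Polynomial.map_prod]
    simp only [Polynomial.map_sub, map_X, map_C]
    rfl

theorem all (ρ : Icl y →ₐ[ℂ] Ω) (e : ∀ i, ρ ⟨y i, mem_icl y i⟩ = x i) :
    ∃ σ : M →ₐ[L] AlgebraicClosure M, ρ = hm hy h σ := by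
  by_contra! k
  obtain ⟨H, hH⟩ := Submodule.exists_forall_notMem_of_forall_ne_top
    (fun σ : M →ₐ[L] AlgebraicClosure M => LinearMap.eqLocus ρ.toLinearMap (hm hy h σ).toLinearMap)
    fun σ q => k σ (AlgHom.ext fun a => (q.ge Submodule.mem_top : a ∈ LinearMap.eqLocus _ _))
  obtain ⟨χ, a, b⟩ := chi' (L := L) hy H
  have c := congrArg (eval (ρ H)) (b Ω x ξ h)
  have d := congrArg (ρ : Icl y →+* Ω) a
  rw [hom_eval₂, map_zero, ← AlgHom.comp_toRingHom, MvPolynomial.comp_aeval, funext e] at d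
  rw [eval_map, show eval₂ _ (ρ H) χ = 0 from d, eval_prod, eq_comm, Finset.prod_eq_zero_iff] at c
  obtain ⟨σ, -, z⟩ := c
  exact hH σ (by simpa [sub_eq_zero] using z)

open Classical in
theorem cnt {a b : integralClosure (MvPolynomial ι ℂ) (AlgebraicClosure M) →+* ℂ}
    (ha : ∀ r, a (algebraMap _ _ r) = MvPolynomial.aeval (R := ℂ) (0 : ι → ℂ) r)
    (hb : ∀ r, b (algebraMap _ _ r) = MvPolynomial.aeval (R := ℂ) (0 : ι → ℂ) r) (e : Icl y) :
    (Finset.univ.filter fun σ : M →ₐ[L] AlgebraicClosure M => hm hy ha σ e = 0).card =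
      (Finset.univ.filter fun σ : M →ₐ[L] AlgebraicClosure M => hm hy hb σ e = 0).card := by
  obtain ⟨χ, -, k⟩ := chi' (L := L) hy e
  have r : ∀ g : (M →ₐ[L] AlgebraicClosure M) → ℂ, (∏ σ, (X - C (g σ))).roots.count 0 =
      (Finset.univ.filter fun σ => g σ = 0).card := fun g => by
    have := roots_multiset_prod_X_sub_C (Finset.univ.val.map g)
    rw [Multiset.map_map] at this
    refine (congrArg (Multiset.count 0) this).trans ((Multiset.count_map _ _ _).trans ?_)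
    simp only [eq_comm (a := (0 : ℂ))]
    rfl
  rw [← r fun σ => hm hy ha σ e, ← r fun σ => hm hy hb σ e, ← k ℂ 0 a ha, k ℂ 0 b hb]

omit h in
theorem core [IsScalarTower ℂ L M] {T : Pl M} {c : ℕ} (ce : Ce y T) (hc : Cnt c y T) :
    ∃ (e : Icl y) (U : Set (Icl y)) (k : ℕ), 0 < k ∧ k ≤ c ∧ (∀ H m, ∃ j : ℕ, H + j * e ^ m ∈ U) ∧
      ∀ (w : AbsoluteValue Ω ℝ) (x : ι → Ω) ξ h, IsNonarchimedean w →
        (∀ c, w (algebraMap ℂ Ω c) ≤ 1) → (∀ i, w (x i) < 1) →
        ∃ G : Finset (M →ₐ[L] AlgebraicClosure M), G.card = k ∧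
          (∀ σ, σ ∈ G ↔ Ct0 w T (hm (x := x) (ξ := ξ) hy h σ)) ∧
          (∀ σ ∈ G, w (hm hy h σ e) < 1) ∧ ∀ σ ∉ G, ∀ H ∈ U, w (hm hy h σ H) = 1 := by
  classical
  let N := AlgebraicClosure M
  obtain ⟨v, hv, hT, -⟩ := exists_w (Ω := N) T
  have v1 : ∀ c, v (algebraMap ℂ N c) ≤ 1 := fun c => (hT _).1 (T.con c)
  have h₀ : ∀ r, algebraMap (integralClosure (MvPolynomial ι ℂ) N) N (algebraMap _ _ r) =
      MvPolynomial.aeval (R := ℂ) (fun i => algebraMap M N (y i)) r := fun r =>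
    (congrArg (algebraMap M N) (hy r)).trans
      (AlgHom.congr_fun (MvPolynomial.comp_aeval _ (IsScalarTower.toAlgHom ℂ M N)) r)
  obtain ⟨p, hp, kp⟩ := pt hv v1 (fun i => hT.lt (mx_iff.2 (.inr (ce i)))) h₀
  let σ₀ := IsScalarTower.toAlgHom L M N
  let π := hm hy hp σ₀
  have hπ : ∀ a, π a = 0 ↔ a = 0 ∨ 0 < T.ord (a : M) := fun a => by
    rw [← ZeroMemClass.coe_eq_zero, ← mx_iff]
    exact (lt_iff hv v1 (kp (em hy σ₀ a)).2).symm.trans ⟨hT.mx, hT.lt⟩
  have eq : ∀ ρ ρ' : Icl y →ₐ[ℂ] ℂ, (∀ a, ρ a = 0 → ρ' a = 0) → ρ = ρ' := fun ρ ρ' k =>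
    AlgHom.ext fun a => by
      have := k (a - algebraMap ℂ _ (ρ a)) (by simp)
      rw [map_sub, AlgHom.commutes, sub_eq_zero] at this
      exact this.symm
  obtain ⟨e, e0, he⟩ := Module.Dual.exists_forall_mem_ne_zero_of_forall_exists
    (LinearMap.ker π.toLinearMap) (fun σ : {σ : M →ₐ[L] N // hm hy hp σ ≠ π} =>
      (hm hy hp σ.1).toLinearMap) fun σ => by
    by_contra! k
    exact σ.2 (eq π _ fun a l => k a l).symm
  have ee : ∀ {q} hq (σ : M →ₐ[L] N), hm (ξ := q) (x := 0) hy hq σ e = 0 ↔ hm hy hq σ = π :=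
    fun hq σ => ⟨fun k => by_contra fun ne => by
      obtain ⟨τ, hτ⟩ := all (L := L) hy hp _ (hm_y hy hq σ)
      exact he ⟨τ, hτ ▸ ne⟩ (hτ ▸ k), fun k => k ▸ e0⟩
  refine ⟨e, {H | ∀ σ : M →ₐ[L] N, hm hy hp σ ≠ π → hm hy hp σ H ≠ 0},
    (Finset.univ.filter fun σ : M →ₐ[L] N => hm hy hp σ e = 0).card,
    Finset.card_pos.2 ⟨σ₀, Finset.mem_filter.2 ⟨Finset.mem_univ _, e0⟩⟩, ?_, fun H m => ?_,
    fun w x ξ h hw c1 o => ?_⟩
  · let j : (M →ₐ[L] N) ↪ (M →ₐ[ℂ] N) :=
      ⟨fun σ => σ.restrictScalars ℂ, AlgHom.restrictScalars_injective ℂ⟩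
    refine (Finset.card_map j).ge.trans (hc _ v (IsScalarTower.toAlgHom ℂ M N) T _ hv
      ⟨fun i => (mx_iff.2 (.inr (ce i))).mem, fun _ _ h => h⟩ hT fun τ hτ => ?_)
    obtain ⟨σ, hσ, rfl⟩ := Finset.mem_map.1 hτ
    refine ⟨fun i => hm_y hy h₀ σ i, fun a ha => ?_⟩
    have a1 : v (σ a - algebraMap ℂ N (hm hy hp σ ⟨a, ha⟩)) < 1 := (kp (em hy σ ⟨a, ha⟩)).2
    have a2 : v (σ₀ a - algebraMap ℂ N (π ⟨a, ha⟩)) < 1 := (kp (em hy σ₀ ⟨a, ha⟩)).2
    rw [(ee hp σ).1 (Finset.mem_filter.1 hσ).2] at a1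
    have := (hv _ _).trans_lt (max_lt a1 (v.map_neg _ ▸ a2))
    rwa [neg_sub, sub_add_sub_cancel] at this
  · have : ∀ᶠ k : ℕ in Filter.cofinite, ∀ σ : M →ₐ[L] N, hm hy hp σ ≠ π →
        hm hy hp σ (H + k * e ^ m) ≠ 0 := by
      refine Filter.eventually_all.2 fun σ => Subsingleton.finite fun a ha b hb => ?_
      simp only [mem_compl_iff, mem_ofPred, not_forall, not_not, map_add, map_mul, map_natCast,
        map_pow] at ha hb
      obtain ⟨x, ha⟩ := ha
      obtain ⟨-, hb⟩ := hb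
      exact_mod_cast mul_right_cancel₀ (pow_ne_zero m (mt (ee hp σ).1 x))
        (add_left_cancel (ha.trans hb.symm))
    exact this.exists
  obtain ⟨q, hq, kq⟩ := pt hw c1 o h
  have lt : ∀ (σ : M →ₐ[L] N) a, w (hm hy h σ a) < 1 ↔ hm hy hq σ a = 0 := fun σ a =>
    lt_iff hw c1 (kq (em hy σ a)).2
  refine ⟨_, cnt hy hq hp e, fun σ => ?_, fun σ k => (lt σ e).2 (Finset.mem_filter.1 k).2,
    fun σ k H hH => le_antisymm (kq _).1 (not_lt.1 fun l => ?_)⟩
  · rw [Finset.mem_filter, and_iff_right (Finset.mem_univ _), ee]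
    exact ⟨fun k a => ⟨(kq _).1, fun l => (hπ a).1 (k ▸ (lt σ a).1 l)⟩,
      fun k => eq _ _ fun a l => (hπ a).2 ((k a).2 ((lt σ a).2 l))⟩
  · obtain ⟨τ, hτ⟩ := all (L := L) hy hp _ (hm_y hy hq σ)
    exact hH τ (fun x => k (Finset.mem_filter.2 ⟨Finset.mem_univ _, (ee hq σ).2 (hτ.trans x)⟩))
      (hτ ▸ (lt σ H).1 l)

end icl

theorem ev_eq {Ω : Type} [Field Ω] [Algebra ℂ Ω] {n : ℕ} (t : Ω) (η : Fin n → Ω) :
    (Ls.ev t η).comp (MvPolynomial.optionEquivRight ℂ (Fin n) : _ →+* Pn n) =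
      (MvPolynomial.aeval (R := ℂ) fun o : Option (Fin n) => o.elim t η :
        MvPolynomial (Option (Fin n)) ℂ →+* Ω) :=
  MvPolynomial.ringHom_ext (fun c => by simp [Ls.ev]) fun o => by cases o <;> simp [Ls.ev]

end Cs

open Cs Classical in
/-- **SCHART** -/
theorem schart : SCHART := fun ge n c Ω _ _ _ w E t u se L M _ _ _ _ z φ T hz hM ce hc => by
  let R := MvPolynomial (Option (Fin n)) ℂ
  let N := AlgebraicClosure M
  let _ : Algebra L M := (φ : L →+* M).toAlgebra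
  have : IsScalarTower ℂ L M := .of_algebraMap_eq fun c => (φ.commutes c).symm
  have := Pb.fin_of_ff (Bi.rf_ff hz rfl) hM
  let _ : Algebra R L := (MvPolynomial.aeval (R := ℂ) z : _ →+* L).toAlgebra
  let _ : Algebra R M := (MvPolynomial.aeval (R := ℂ) (im φ z) : _ →+* M).toAlgebra
  have : IsScalarTower R L M := .of_algebraMap_eq fun r =>
    (AlgHom.congr_fun (MvPolynomial.comp_aeval z φ) r).symm
  have : FaithfulSMul R L := (faithfulSMul_iff_algebraMap_injective _ _).2 hz.ind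
  have : IsFractionRing R L := .of_field _ _ (Bi.rf_div hz)
  have hy : ∀ r, algebraMap R M r = MvPolynomial.aeval (R := ℂ) (im φ z) r := fun _ => rfl
  have c1 : ∀ c, w (algebraMap ℂ Ω c) ≤ 1 := fun c => by
    by_cases z : c = 0
    · simp [z]
    · exact (se.c1 c z).le
  obtain ⟨e, U, k, g1, g2, ad, key⟩ := core (L := L) (Ω := Ω) hy ce hc
  choose ξ h using fun η : Fin n → Ω => extend (B := integralClosure R N)
    (MvPolynomial.aeval (R := ℂ) fun o : Option (Fin n) => o.elim t η : R →+* Ω) fun a b k =>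
      hz.ind ((algebraMap L N).injective ((IsScalarTower.algebraMap_apply R L N a).symm.trans
        ((congrArg Subtype.val k).trans (IsScalarTower.algebraMap_apply R L N b))))
  choose G k1 k2 k3 k4 using fun η (o : Op w η) => key w _ (ξ η) (h η) se.vs.na c1 fun i => by
    cases i
    exacts [se.t1, o _]
  let f : ∀ η o, G η o → Sh w t (im φ z) T := fun η o σ => ⟨hm hy (h η) σ.1, hm_y hy _ _ none,
    fun j => (hm_y hy (h η) σ.1 (some j)).symm ▸ o j, (k2 η o σ).1 σ.2⟩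
  have f1 : ∀ η o σ, (sd w t (im φ z) T U).co (f η o σ) = η := fun η o σ =>
    funext fun j => hm_y hy (h η) σ.1 (some j)
  have f2 : ∀ s : Sh w t (im φ z) T, ∃ σ, f _ s.2.2.1 σ = s := fun s => by
    obtain ⟨σ, a⟩ := all (L := L) hy (h fun j => s.1 ⟨_, mem_icl _ (some j)⟩) s.1 fun i => by
      cases i
      exacts [s.2.1, rfl]
    exact ⟨⟨σ, (k2 _ _ σ).2 (a ▸ s.2.2.2)⟩, Subtype.ext a.symm⟩
  refine ⟨U, (ge L M _ z φ hz hM).1, fun s => s.2.2.1, fun s a => (s.2.2.2 a).1, fun η o => ?_,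
    ⟨e, fun s => ?_, ad⟩, fun η => if o : Op w η then (G η o).attach.val.map (f η o) else 0,
    ⟨g1.trans_le g2, fun η o => ?_, fun η o s hs j _ => ?_, fun H hH => ?_⟩, fun s => ?_⟩
  · obtain ⟨σ, a⟩ := Finset.card_pos.1 (g1.trans_eq (k1 η o).symm)
    exact ⟨f η o ⟨σ, a⟩, f1 η o _⟩
  · obtain ⟨σ, a⟩ := f2 s
    exact a ▸ k3 _ _ σ σ.2
  · rw [dif_pos o, Multiset.card_map, ← Finset.card_def, Finset.card_attach, k1]
    exact g2
  · rw [dif_pos o] at hs
    obtain ⟨σ, -, rfl⟩ := Multiset.mem_map.1 hs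
    exact congrFun (f1 η o σ) j
  · obtain ⟨χ, -, b⟩ := chi' (L := L) hy H
    refine ⟨χ.map (MvPolynomial.optionEquivRight ℂ (Fin n) : _ →+* Pn n), fun η o =>
      ⟨(G η o)ᶜ.val.map fun σ => hm hy (h η) σ H, fun β hβ => ?_, ?_⟩⟩
    · obtain ⟨σ, a, rfl⟩ := Multiset.mem_map.1 hβ
      exact k4 η o σ (Finset.mem_compl.1 a) H hH
    rw [map_map, ev_eq, b Ω _ _ (h η), dif_pos o, ← Finset.prod_mul_prod_compl (G η o),
      Multiset.map_add, Multiset.prod_add, ← Finset.prod_attach (G η o)]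
    simp only [Multiset.map_map]
    rfl
  · obtain ⟨σ, a⟩ := f2 s
    change s ∈ dite _ _ _
    rw [dif_pos (show Op w ((sd w t (im φ z) T U).co s) from s.2.2.1)]
    exact Multiset.mem_map.2 ⟨σ, Finset.mem_attach _ σ, a⟩

end Vale.Agent.P283B.Lm
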