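import Vale.Agent.P283B.LM.Tw
import Vale.Agent.P283B.LS.Comp

/-!
# P283B, block LM: composition of correspondences
-/

open Set Polynomial

noncomputable section

namespace Vale.Agent.P283B.Lm

namespace Cp

open Mono Ls

variable {Ω A I : Type} [Field Ω] [CommRing A] {w : AbsoluteValue Ω ℝ} {n : ℕ} {Z : Sd Ω A I n}

theorem gn_eq (hw : IsNonarchimedean w) (S : Multiset Ω) (l : ℝ) :
    0 < (S.map fun x => X - C x).prod.gaussNorm w (Real.exp (-l)) ∧ (S.map fun x => mv w x l).sum =
      -Real.log ((S.map fun x => X - C x).prod.gaussNorm w (Real.exp (-l))) := by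
  have p := Real.exp_pos (-l)
  induction S using Multiset.induction_on with
  | empty =>
    have : gaussNorm w (Real.exp (-l)) (1 : Polynomial Ω) = 1 := by
      simpa using gaussNorm_C w (Real.exp (-l)) (1 : Ω)
    simp [this]
  | cons a S ih =>
    have q : 0 < max (Real.exp (-l)) (w a) := lt_max_of_lt_left p
    simp only [Multiset.map_cons, Multiset.prod_cons, Multiset.sum_cons, gaussNorm_mul hw p,
      gn_lin hw p]
    exact ⟨mul_pos q ih.1, by rw [ih.2, Real.log_mul q.ne' ih.1.ne', mv, max_comm, neg_add]⟩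

theorem fv_eq (hw : IsNonarchimedean w) (S : Multiset I) (H : A) {l : ℝ} (l0 : 0 ≤ l)
    {B : Multiset Ω} (b : ∀ β ∈ B, w β = 1) : fv w Z S H l = -Real.log ((((S.map fun ξ => Z.va ξ H) +
      B).map fun β => X - C β).prod.gaussNorm w (Real.exp (-l))) := by
  rw [← (gn_eq hw _ l).2, Multiset.map_add, Multiset.sum_add, Multiset.map_map,
    Multiset.sum_eq_zero (s := B.map _), add_zero]
  · rfl
  intro x hx
  obtain ⟨β, hβ, rfl⟩ := Multiset.mem_map.1 hx
  rw [mv, b β hβ, max_eq_left (Real.exp_le_one_iff.2 (neg_nonpos.2 l0)), Real.log_one, neg_zero]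

theorem fv_mono (S : Multiset I) (H : A) {l l' : ℝ} (e : l ≤ l') :
    fv w Z S H l ≤ fv w Z S H l' :=
  Multiset.sum_map_le_sum_map _ _ fun _ _ => neg_le_neg (Real.log_le_log
    (lt_max_of_lt_right (Real.exp_pos _)) (max_le_max le_rfl (Real.exp_le_exp.2 (neg_le_neg e))))

end Cp

open Mono Ls Ls.Cp in
/-- **COMP** -/
theorem comp : COMP := by
  intro n Ω _ _ _ w E t u s R I _ Z c d k Y x γ W a b A cor pt dis k0 aM bE b0 a1 b1 hk hA hU
  classical
  have hw := s.vs.na
  have oη : Op w (cut (c + 1) x) := fun j => by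
    unfold cut
    split_ifs
    exacts [pt.op j, by simp]
  have ηM : ∀ j, cut (c + 1) x j ∈ Lv E u c := fun j => by
    unfold cut
    split_ifs with h
    · have m : ∀ i, c < i → u i ∈ Lv E u c := fun i hi => sub_acl _ _ ⟨i, hi, rfl⟩
      simpa using add_mem (acl_le (lv_cl u c) (le_lv u c) (by
        rintro _ ⟨i, hi, rfl⟩
        exact m i (lt_trans h hi)) (pt.tri.cen j)) (mul_mem (le_lv u c (pt.tri.mem j)) (m j h))
    · exact zero_mem _
  generalize cut (c + 1) x = η at oη ηM hk ⊢
  have rtM : ∀ V : (Pn n)[X], ∀ ρ ∈ (V.map (ev t η)).roots, ρ ∈ Lv E u c := fun V =>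
    (lv_cl u c).roots fun i => by
      rw [coeff_map]
      refine ev_mem _ (fun q => le_lv u c ?_) ηM _
      change aeval t q ∈ E
      rw [aeval_eq_sum_range]
      exact sum_mem fun i _ => by
        rw [Algebra.smul_def]; exact mul_mem (s.cE _) (pow_mem s.tE _)
  have val : ∀ {V : (Pn n)[X]} {z}, V.Monic → z ∈ Lv E u c → z ≠ 0 →
      w ((V.map (ev t η)).eval (a + z * u c)) =
        ((V.map (ev t η)).roots.map fun ρ => max (w z) (w (ρ - a))).prod := fun {V z} m x y => by
    rw [(s.tw c).eval_roots hw aM x y (rtM V), (m.map _).leadingCoeff, map_one, one_mul]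
  have bM := le_lv u c bE
  have wb := w.pos b0
  have ξ1 : w (a + b * u c) < 1 :=
    (hw _ _).trans_lt (max_lt a1 (by rwa [map_mul, (s.tw c).one, mul_one]))
  have up : ∀ {η β}, Op w η → w β < 1 → Op w (Function.update η c β) := fun {η β} x y j => by
    rw [Function.update_apply]
    split_ifs
    exacts [y, x j]
  have cd : ∀ {V : (Pn n)[X]} (η), V.Monic → (V.map (ev t η)).roots.card = V.natDegree :=
    fun η m => by rw [← (IsAlgClosed.splits _).natDegree_eq_card_roots, m.natDegree_map]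
  have evp : ∀ y, (W.map (ev t η)).eval y = ((W.map (ev t η)).roots.map (y - ·)).prod := fun y =>
    (IsAlgClosed.splits _).eval_eq_prod_roots_of_monic (dis.1.map _) y
  have D0 : 0 < W.natDegree := k0.trans_le (hk.trans
    ((Multiset.card_le_card (Multiset.filter_le _ _)).trans_eq (cd η dis.1)))
  have p0 : 0 < w ((W.map (ev t η)).eval (a + b * u c)) := by
    rw [val dis.1 bM b0]; exact (prod_max _ _ wb le_rfl).1
  have p1 : w ((W.map (ev t η)).eval (a + b * u c)) < 1 := by
    have := (prod_close hw (W.map (ev t η)).roots (a + b * u c - ·) (fun _ => 0) (fun _ => 1)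
      fun ρ r => by
        have := (na_sub hw _ _).trans_lt (max_lt ξ1 (dis_root s oη dis r))
        exact ⟨this.le, by simp, by rwa [sub_zero]⟩).2
    simpa [← evp, cd η dis.1, D0.ne'] using this
  obtain ⟨N, M, N0, e⟩ := s.rat _ (w.pos_iff.1 p0)
  have wt := w.pos s.t0
  have M0 : 0 < M := (zpow_lt_one_iff_right_of_lt_one₀ wt s.t1).1
    (e ▸ pow_lt_one₀ p0.le p1 N0.ne')
  obtain ⟨M, rfl⟩ := Int.eq_ofNat_of_zero_le M0.le
  rw [zpow_natCast] at e
  have tM := pow_pos wt M
  choose! χ B hB hχ using cor.chi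
  obtain ⟨l, hl⟩ : ∃ l : ℂ, ∀ ρ ∈ ⋃ H ∈ A, ⋃ i : ℕ,
      {ρ | ρ ∈ ((sub c ((χ H).coeff i)).map (ev t η)).roots},
      w t ^ M ≤ w ((W.map (ev t η)).eval ρ ^ N - algebraMap ℂ Ω l * t ^ M) := by
    by_contra! h
    refine not_countable_complex (((hA.biUnion fun H _ => countable_iUnion fun i =>
      (Multiset.finite_toSet _).countable).biUnion (t := fun ρ _ =>
        {l | w ((W.map (ev t η)).eval ρ ^ N - algebraMap ℂ Ω l * t ^ M) < w t ^ M})
      fun ρ _ => Set.Subsingleton.countable fun l x l' y => by_contra fun ne => ?_).mono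
        fun l _ => let ⟨ρ, x, y⟩ := h l; mem_iUnion₂.2 ⟨ρ, x, y⟩)
    have := (na_sub hw _ _).trans_lt (max_lt x y)
    rw [sub_sub_sub_cancel_left, ← sub_mul, ← map_sub, map_mul, s.c1 _ (sub_ne_zero.2 (Ne.symm ne)),
      one_mul, map_pow] at this
    exact this.false
  have lM : w (algebraMap ℂ Ω l * t ^ M) ≤ w t ^ M := by
    rw [map_mul, map_pow]; exact mul_le_of_le_one_left tM.le (w_cst s l)
  obtain ⟨V, hV⟩ : ∃ V : (Pn n)[X], V = W ^ N - C (MvPolynomial.C (C l * X ^ M)) := ⟨_, rfl⟩
  have Ve : ∀ y, (V.map (ev t η)).eval y =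
      (W.map (ev t η)).eval y ^ N - algebraMap ℂ Ω l * t ^ M := fun y => by simp [hV, ev]
  have Vd : V.natDegree = N * W.natDegree := by rw [hV, natDegree_sub_C, dis.1.natDegree_pow]
  have dV : Dis V := ⟨hV ▸ (dis.1.pow N).sub_of_left (degree_C_le.trans_lt
      (natDegree_pos_iff_degree_pos.1 (dis.1.natDegree_pow N ▸ Nat.mul_pos N0 D0))), by
    rw [Vd, hV, Polynomial.map_sub, Polynomial.map_pow, dis.2, pow_mul']
    simp [c0, ev, (Int.natCast_pos.1 M0).ne']⟩
  have cb : ∀ η, Op w η → ((V.map (ev t η)).roots.bind fun β =>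
      Y (Function.update η c β)).card ≤ V.natDegree * d := fun η o => by
    refine (Multiset.card_bind _ _).trans_le ((Multiset.sum_map_le_sum_map _ (fun _ => d)
      fun β r => cor.card _ (up o (dis_root s o dV r))).trans_eq ?_)
    simp [cd η dV.1]
  refine ⟨V.natDegree * d, fun η => (V.map (ev t η)).roots.bind fun β =>
    Y (Function.update η c β), ⟨Vd ▸ Nat.mul_pos (Nat.mul_pos N0 D0) cor.pos, cb,
      fun η o y hy => ?_, fun H hH => (exists_nrm t c dV.1 (χ H)).imp fun χ' h η o =>
        ⟨(V.map (ev t η)).roots.bind fun β => B H (Function.update η c β), fun β hβ => ?_, ?_⟩⟩,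
    fun H hH κ x₀ κ0 g l₁ l₂ l0 l12 hx => ?_⟩
  · obtain ⟨β, r, hy⟩ := Multiset.mem_bind.1 hy
    exact fun j hj => (cor.mem _ (up o (dis_root s o dV r)) y hy j (Nat.le_of_succ_le hj)).trans
      (Function.update_of_ne (Fin.ne_of_gt hj) _ _)
  · obtain ⟨β', r, hβ⟩ := Multiset.mem_bind.1 hβ
    exact hB H hH _ (up o (dis_root s o dV r)) β hβ
  · rw [h, Multiset.map_bind, ← Multiset.bind_add, Multiset.map_bind, Multiset.prod_bind]
    exact congrArg _ (Multiset.map_congr rfl fun β r => hχ H hH _ (up o (dis_root s o dV r)))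
  have cnt : N * k ≤ ((V.map (ev t η)).roots.filter fun β => w (β - a) ≤ w b).card := by
    obtain ⟨z, hz, mn⟩ := (insert 1 (((V.map (ev t η)).roots.filter
      fun β => w b < w (β - a)).map (· - a)).toFinset).exists_min_image w (Finset.insert_nonempty _ _)
    obtain ⟨zM, bz⟩ : z ∈ Lv E u c ∧ w b < w z := by
      rcases Finset.mem_insert.1 hz with rfl | hz
      · exact ⟨one_mem _, by rwa [map_one]⟩
      · obtain ⟨β, r, rfl⟩ := Multiset.mem_map.1 (Multiset.mem_toFinset.1 hz)
        exact ⟨sub_mem (rtM V β (Multiset.mem_filter.1 r).1) aM, (Multiset.mem_filter.1 r).2⟩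
    have z0 := w.pos_iff.1 (wb.trans bz)
    have q1 := (one_lt_div wb).2 bz
    have i := (prod_max (W.map (ev t η)).roots (fun ρ => w (ρ - a)) wb bz.le).2.1
    have j := (prod_max (V.map (ev t η)).roots (fun ρ => w (ρ - a)) wb bz.le).2.2 fun β r =>
      (le_or_gt _ _).imp_right fun k => mn _ (Finset.mem_insert_of_mem (Multiset.mem_toFinset.2
        (Multiset.mem_map_of_mem _ (Multiset.mem_filter.2 ⟨r, k⟩))))
    rw [← val dis.1 bM b0, ← val dis.1 zM z0] at i
    rw [← val dV.1 bM b0, ← val dV.1 zM z0, Ve, Ve] at j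
    have i := pow_le_pow_left₀ (by positivity) ((mul_le_mul_of_nonneg_right
      (pow_le_pow_right₀ q1.le hk) p0.le).trans i) N
    rw [mul_pow, e, ← pow_mul', ← map_pow w _ N] at i
    rw [na_sub_lt hw (lM.trans_lt ((lt_mul_of_one_lt_left tM
      (one_lt_pow₀ q1 (Nat.mul_pos N0 k0).ne')).trans_le i))] at j
    have v := (na_sub hw _ _).trans (max_le ((map_pow w _ N).trans e).le lM)
    exact (pow_le_pow_iff_right₀ q1).1 (le_of_mul_le_mul_right
      ((i.trans_eq j).trans (mul_le_mul_of_nonneg_left v (by positivity))) tM)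
  have good : ∀ β ∈ (V.map (ev t η)).roots.filter fun β => w (β - a) ≤ w b, ∀ l, 0 ≤ l →
      fv w Z (Y (Function.update η c β)) H l =
        fv w Z (Y (Function.update η c (a + b * u c))) H l := fun β r l' l1 => by
    obtain ⟨r, βa⟩ := Multiset.mem_filter.1 r
    have co : ∀ i, w (((χ H).map (ev t (Function.update η c β))).coeff i) =
        w (((χ H).map (ev t (Function.update η c (a + b * u c)))).coeff i) := fun i => by
      rw [coeff_map, coeff_map, ← sub_eval, ← sub_eval, (s.tw c).eval_roots hw aM bM b0 (rtM _),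
        (IsAlgClosed.splits _).eval_eq_prod_roots, map_mul, map_multiset_prod, Multiset.map_map]
      refine congrArg _ (congrArg _ (Multiset.map_congr rfl fun ρ hρ => ?_))
      have e1 : β - ρ = (β - a) - (ρ - a) := by ring
      change w (β - ρ) = _
      rcases lt_or_ge (w b) (w (ρ - a)) with k | k
      · rw [max_eq_right k.le, e1, w.map_sub, na_sub_lt hw (βa.trans_lt k)]
      rw [max_eq_left k]
      refine le_antisymm (e1 ▸ (na_sub hw _ _).trans (max_le βa k)) (not_lt.1 fun lt => ?_)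
      have m : ∀ {y σ}, w (y - a) ≤ w b → w (y - σ) ≤ max (w b) (w (σ - a)) := fun {y σ} h => by
        rw [show y - σ = (y - a) - (σ - a) by ring]
        exact (na_sub hw _ _).trans (max_le_max h le_rfl)
      have := (prod_close hw (N • (W.map (ev t η)).roots) (ρ - ·) (β - ·)
        (fun σ => max (w b) (w (σ - a))) fun σ _ => ⟨m k, m βa, by
          rw [sub_sub_sub_cancel_right, w.map_sub]; exact lt_max_of_lt_left lt⟩).2
      simp only [Multiset.map_nsmul, Multiset.prod_nsmul] at this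
      rw [← evp, ← evp, ← val dis.1 bM b0, e,
        sub_eq_zero.1 ((Ve β).symm.trans (isRoot_of_mem_roots r).eq_zero)] at this
      exact this.not_ge (hl ρ (mem_iUnion₂.2 ⟨H, hH, mem_iUnion.2 ⟨i, hρ⟩⟩))
    have p := (Real.exp_pos (-l')).le
    have i := gn_le p (fun i => ((co i).trans (one_mul _).symm).le) zero_le_one
    have j := gn_le p (fun i => ((co i).symm.trans (one_mul _).symm).le) zero_le_one
    rw [one_mul] at i j
    rw [Cp.fv_eq hw _ H l1 (hB H (hU hH) _ (up oη (dis_root s oη dV r))),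
      Cp.fv_eq hw _ H l1 (hB H (hU hH) _ (up oη ξ1)),
      ← hχ H (hU hH) _ (up oη (dis_root s oη dV r)), ← hχ H (hU hH) _ (up oη ξ1), le_antisymm i j]
  have g := g l₁ l₂ l0 l12 hx
  have fb : ∀ l, 0 ≤ l → fv w Z ((V.map (ev t η)).roots.bind fun β => Y (Function.update η c β)) H l =
      ((V.map (ev t η)).roots.filter fun β => w (β - a) ≤ w b).card *
        fv w Z (Y (Function.update η c (a + b * u c))) H l +
      (((V.map (ev t η)).roots.filter fun β => ¬ w (β - a) ≤ w b).map
        fun β => fv w Z (Y (Function.update η c β)) H l).sum := fun l l1 => by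
    rw [fv, Multiset.map_bind, Multiset.sum_bind]
    conv_lhs => rw [← Multiset.filter_add_not (fun β => w (β - a) ≤ w b) (V.map (ev t η)).roots]
    rw [Multiset.map_add, Multiset.sum_add]
    refine congrArg₂ _ ((congrArg _ (Multiset.map_congr rfl fun β r => good β r l l1)).trans ?_) rfl
    simp
  have mo := Multiset.sum_map_le_sum_map (s := (V.map (ev t η)).roots.filter
    fun β => ¬ w (β - a) ≤ w b) _ _ fun β _ => Cp.fv_mono (w := w) (Z := Z)
      (Y (Function.update η c β)) H l12
  have D1 : (0 : ℝ) < W.natDegree := Nat.cast_pos.2 D0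
  have c1 := (Nat.cast_mul N k).ge.trans ((Nat.cast_le (α := ℝ)).2 cnt)
  have g0 : 0 ≤ κ * d * (l₂ - l₁) := mul_nonneg (by positivity) (sub_nonneg.2 l12)
  beta_reduce
  rw [fb _ l0, fb _ (l0.trans l12), Vd, show κ * k / W.natDegree * (N * W.natDegree * d : ℕ) * (l₂ - l₁) =
    N * k * (κ * d * (l₂ - l₁)) by push_cast; field_simp]
  nlinarith [mul_le_mul c1 g g0 (Nat.cast_nonneg _)]

end Vale.Agent.P283B.Lm
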