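import Vale.Agent.P283B.LM.St
import Vale.Agent.P283B.LS.DiagH

/-!
# P283B, block LM: the leaf `DIAG`
-/

/-- **DIAG** -/
theorem Vale.Agent.P283B.Lm.diag : Vale.Agent.P283B.Lm.DIAG :=
  fun L F σ ι _ _ _ _ _ _ s z y φ s0 hz hy hF e =>
    Ld.diagM L F σ ι s z y φ s0 (Bi.rf_ff hz rfl) hz.ind hy hF e
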