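import Vale.Agent.P283B.LM.Split
import Vale.Agent.P283B.LS.Unr

/-!
# P283B, block LM: the leaf `DIF`
-/

set_option linter.unusedVariables false

open Set Polynomial
open Vale.Agent.P287D Vale.Agent.P287D.Cb
open Vale.Agent.P297Z

noncomputable section

namespace Vale.Agent.P283B.Lm

open Ls

/-- **DIF** -/
theorem dif : DIF := fun L M ι _ _ _ _ _ z φ hz hM => by
  have ind : AlgebraicIndependent ℂ (im φ z) := hz.ind.map' φ.injective
  have e := (Fintype.equivFin ι).symm
  have fd := hM.fin (ind.comp _ e.injective)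
  rw [e.surjective.range_comp] at fd
  obtain ⟨α, hα⟩ := Field.exists_primitive_element (IntermediateField.adjoin ℂ (range (im φ z))) M
  have := (ind.isTranscendenceBasis_of_trdeg_le_of_finite (by simp [hM.trdeg])).isAlgebraic
  obtain ⟨⟨b, hb⟩, b0, i⟩ := (this.isAlgebraic α).exists_integral_multiple
  replace b0 : b ≠ 0 := fun e => b0 (Subtype.ext e)
  obtain ⟨θ, hθ⟩ : ∃ θ, θ = b * α := ⟨_, rfl⟩
  replace i : θ ∈ Icl (im φ z) := hθ ▸ i
  obtain ⟨F, ⟨m, r⟩, mn⟩ := (measure natDegree).wf.has_min _ (Sp.icl_iff.1 i)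
  have n0 : F.natDegree ≠ 0 := fun k => by
    rw [m.natDegree_eq_zero.1 k] at r
    simp [ey] at r
  have D0 : ey (im φ z) θ F.derivative ≠ 0 := fun k => by
    have c0 : (F.natDegree : ℂ) ≠ 0 := Nat.cast_ne_zero.2 n0
    refine mn (C (MvPolynomial.C (F.natDegree : ℂ)⁻¹) * F.derivative) ⟨?_, ?_⟩ ?_
    · refine monic_C_mul_of_mul_leadingCoeff_eq_one ?_
      rw [leadingCoeff_derivative, m.leadingCoeff, one_mul, ← map_natCast MvPolynomial.C,
        ← map_mul, inv_mul_cancel₀ c0, map_one]
    · rw [ey] at k ⊢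
      rw [eval₂_mul, k, mul_zero]
    · exact (natDegree_C_mul_le _ _).trans_lt (natDegree_derivative_lt n0)
  have g : IntermediateField.adjoin ℂ (insert θ (range (im φ z))) = ⊤ := by
    have le := IntermediateField.adjoin.mono ℂ _ _ (subset_insert θ (range (im φ z)))
    refine eq_top_iff.2 fun f _ => (IntermediateField.adjoin_simple_le_iff (K :=
      IntermediateField.extendScalars le) |>.2 ?_) (hα.ge trivial)
    rw [IntermediateField.mem_extendScalars, show α = θ / b by rw [hθ, mul_div_cancel_left₀ _ b0]]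
    exact div_mem (IntermediateField.subset_adjoin _ _ (mem_insert _ _))
      (le (IntermediateField.algebra_adjoin_le_adjoin _ _ hb))
  exact ⟨_, Algebra.adjoin_le (insert_subset i (range_subset_iff.2 (mem_icl _))) (Sl.ey_adj _ _ _),
    D0, fun P v fi l k => unr L M ι z φ θ F P v hz ⟨ind, g, m, r, D0, k, fi⟩ l⟩

end Vale.Agent.P283B.Lm
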