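import Vale.Agent.P283B.LM.St
import Vale.Agent.P283B.LS.Eta

/-!
# P283B, block LM: points which need not be closed
-/

set_option linter.unusedVariables false

open Set Polynomial
open Vale.Agent.P297Z

noncomputable section

namespace Vale.Agent.P283B.Lm

open P287D Wp Cb Mb Ls Ls.Ea

theorem ff_cl {M σ : Type} [Field M] [Algebra ℂ M] [Fintype σ] {n : ℕ} (hM : FF M n) {x : σ → M}
    (h : AlgebraicIndependent ℂ x) :
    FF (cl (IntermediateField.adjoin ℂ (range x))) (Fintype.card σ) := by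
  let A := IntermediateField.adjoin ℂ (range x)
  obtain ⟨r, -, h1⟩ := Gm.ff_sub hM (cl A)
  have hA := rf_ff (F := A) (z := fun i => ⟨x i, IntermediateField.subset_adjoin _ _ ⟨i, rfl⟩⟩)
    ⟨.of_comp A.val h, IntermediateField.lift_injective A (by
      rw [IntermediateField.lift_adjoin, IntermediateField.lift_top, ← range_comp]; rfl)⟩
  have := (faithfulSMul_iff_algebraMap_injective A (algebraicClosure A M)).2 (RingHom.injective _)
  have k := trdeg_add_eq ℂ A (A := algebraicClosure A M)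
  rw [trdeg_eq_zero (A := algebraicClosure A M), add_zero, hA.trdeg] at k
  obtain rfl : Fintype.card σ = r := by exact_mod_cast k.trans h1.trdeg
  exact h1

section up

variable {M M' ι ι' : Type} [Field M] [Algebra ℂ M] [Field M'] [Algebra ℂ M']
  {N : IntermediateField ℂ M} {ψ : M →+* M'} {j : ℂ →+* ℂ} {Z : ι → M} {y : ι' → M'} {T u : Pl M}
  {T' u' : Pl M'}

/-- the coordinates `y` on the generic fibre -/
structure Up (N : IntermediateField ℂ M) (ψ : M →+* M') (j : ℂ →+* ℂ) (Z : ι → M) (y : ι' → M') :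
    Prop where
  g : GF N ψ
  hj : ∀ c, algebraMap ℂ M' (j c) = ψ (algebraMap ℂ M c)
  gZ : ∀ B : Subalgebra ℂ M', (∀ i, y i ∈ B) → ∀ i, ψ (Z i) ∈ B

theorem Up.ic (h : Up N ψ j Z y) {f : M} (k : f ∈ Icl Z) : ψ f ∈ Icl y :=
  IsIntegral.map_of_comp_eq
    ((ψ.comp (Algebra.adjoin ℂ (range Z)).val).codRestrict (Algebra.adjoin ℂ (range y))
      fun b => (Subring.closure_le (t := (Algebra.adjoin ℂ (range y)).toSubring.comap ψ)).2
        (union_subset (range_subset_iff.2 fun c => show ψ _ ∈ Algebra.adjoin ℂ (range y) from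
          h.hj c ▸ Subalgebra.algebraMap_mem _ (j c)) (range_subset_iff.2
            (h.gZ (Algebra.adjoin ℂ (range y)) fun i => Algebra.subset_adjoin ⟨i, rfl⟩)))
        (Algebra.mem_adjoin_iff.1 b.2))
    ψ rfl k

theorem Up.ge (h : Up N ψ j Z y) (l : Lies ψ T' T) (b : Lies ψ u' u) (k : Ge y T' u') : Ge Z T u :=
  ⟨fun i => (b _).2 (h.gZ { u'.ring.toSubring with algebraMap_mem' := u'.con } k.1 i),
    fun f hf o => h.g.ord_eq l f ▸ k.2 _ (h.ic hf) ((h.g.ord_eq b f).symm ▸ o)⟩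

/-- the twisted constants -/
abbrev twc (j : ℂ →+* ℂ) (Ω : Type) [Field Ω] [Algebra ℂ Ω] : Algebra ℂ Ω :=
  ((algebraMap ℂ Ω).comp j).toAlgebra

theorem Up.cnt (h : Up N ψ j Z y) {m c : ℕ} (hM : FF M' m) (l : Lies ψ T' T) (k : Cnt c Z T) :
    Cnt c y T' := fun Ω _ _ w τ₀ u' S na e hw hS => by
  classical
  obtain ⟨u, b⟩ := h.g.below hM u'
  let r : (M' →ₐ[ℂ] Ω) → @AlgHom ℂ M Ω _ _ _ _ (twc j Ω) := fun ρ =>
    @AlgHom.mk ℂ M Ω _ _ _ _ (twc j Ω) ((ρ : M' →+* Ω).comp ψ) fun c =>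
      (congrArg ρ (h.hj c).symm).trans (ρ.commutes _)
  have i : Function.Injective r := fun ρ ρ' o => AlgHom.ext fun f =>
    (Subfield.closure_le (t := RingHom.eqLocusField (ρ : M' →+* Ω) ρ')).2
      (union_subset (range_subset_iff.2 fun a => DFunLike.congr_fun o a)
        (range_subset_iff.2 fun a => (ρ.commutes a).trans (ρ'.commutes a).symm))
      (h.g.gen ▸ Subfield.mem_top f)
  rw [← Finset.card_image_of_injective S i]
  refine @k Ω _ (twc j Ω) w (r τ₀) u _ na (h.ge l b e) (fun f => (b f).trans (hw _)) fun τ o => ?_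
  obtain ⟨ρ, o', rfl⟩ := Finset.mem_image.1 o
  exact ⟨h.gZ (ρ.equalizer τ₀) (hS ρ o').1, fun a x => (hS ρ o').2 _ (h.ic x)⟩

theorem Up.ep [Fintype ι] [Fintype ι'] {L : Type} [Field L] [Algebra ℂ L] {z : ι → L}
    {φ : L →ₐ[ℂ] M} (h : Up N ψ j (im φ z) y) {ε a : ℝ} {J : Finset M} (hE : Ep ε z φ T J a)
    (e0 : 0 ≤ ε) (l : Lies ψ T' T) (iy : AlgebraicIndependent ℂ y) (hM : FF M' (Fintype.card ι'))
    (fi : Fi y T') (kk : ∀ u' u, Lies ψ u' u → kq y u' = kq (im φ z) u) :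
    Ep ε (fun i => (⟨y i, IntermediateField.subset_adjoin _ _ ⟨i, rfl⟩⟩ :
      IntermediateField.adjoin ℂ (range y))) (IntermediateField.val _) T' (P287D.im ψ J) a ∧
    psi y (P287D.im ψ J) a T' = psi (im φ z) J a T := by
  have hz := hE.rf
  have hL := rf_ff hz
  have dn : ∀ u : Pl M, ∃ v, Lies (φ : L →+* M) u v := fun u =>
    ((hE.ff.ok φ) u).resolve_left fun t => by
      let _ : Algebra L M := φ.toRingHom.toAlgebra
      have : IsScalarTower ℂ L M := .of_algebraMap_eq fun c => (φ.commutes c).symm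
      have := Pb.fin_of_ff hL hE.ff
      exact Pb.not_trv u t
  have ps : ∀ u' u, Lies ψ u' u → psi y (P287D.im ψ J) a u' = psi (im φ z) J a u :=
    fun u' u b => by
      simp only [psi, Pi.add_apply, Pi.one_apply, Pi.smul_apply, mx, kk u' u b, b.mz, h.g.e_one b,
        one_mul]
  let F := IntermediateField.adjoin ℂ (range y)
  let z' : ι' → F := fun i => ⟨y i, IntermediateField.subset_adjoin _ _ ⟨i, rfl⟩⟩
  have hz' : Rf z' := ⟨.of_comp F.val iy, IntermediateField.lift_injective F (by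
    rw [IntermediateField.lift_adjoin, IntermediateField.lift_top, ← range_comp]; rfl)⟩
  have inF : ∀ f, ψ (φ f) ∈ F := fun f =>
    (Subfield.closure_le (t := F.toSubfield.comap (ψ.comp (φ : L →+* M)))).2
      (union_subset (range_subset_iff.2 fun c => show ψ (φ _) ∈ F from by
        rw [φ.commutes, ← h.hj]; exact F.algebraMap_mem _) (range_subset_iff.2
          (h.gZ F.toSubalgebra fun i => (z' i).2)))
      (show f ∈ IntermediateField.adjoin ℂ (range z) from hz.gen ▸ trivial)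
  have ram : ∀ u' u v' v, Lies ψ u' u → Lies (F.val : F →+* M') u' v' → Lies (φ : L →+* M) u v →
      (u'.ord (F.val v'.t) : ℝ) ≤ u.ord (φ v.t) := fun u' u v' v b b' l => by
    have k : u'.ord (ψ (φ v.t)) = u'.ord (F.val v'.t) * _ := b'.ord ⟨_, inF v.t⟩
    have k1 : 0 < u.ord (φ v.t) := l.e_pos
    have k2 : 0 < u'.ord (F.val v'.t) := b'.e_pos
    rw [h.g.ord_eq b] at k
    exact Int.cast_le.2 (k ▸ le_mul_of_one_le_right k2.le
      ((mul_pos_iff_of_pos_left k2).1 (k ▸ k1)))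
  refine ⟨⟨hz', hM, fi, hE.a0, fun f hf => ?_, fun u' v' k l' => ?_, fun u' v' k l' k0 => ?_⟩,
    ps _ _ l⟩
  · obtain ⟨b, b1, rfl⟩ := Pb.mem_im.1 hf
    exact h.ic (hE.jm b b1)
  · obtain ⟨u, b⟩ := h.g.below hM u'
    obtain ⟨v, o⟩ := dn u
    exact ((mul_le_mul_of_nonneg_left (ram u' u v' v b l' o) e0).trans
      (hE.lo u v (h.ge l b k) o)).trans_eq (ps u' u b).symm
  · obtain ⟨u, b⟩ := h.g.below hM u'
    obtain ⟨v, o⟩ := dn u
    refine (ps u' u b).trans_le (hE.ef u v (h.ge l b k) o (le_antisymm ?_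
      (kq_nonneg hL rfl fun i => (o _).2 ((h.ge l b k).1 i))))
    have k1 := kq_hur (φ := F.val) (y := z') (rf_ff hz') hM hz'.ind l'
    replace k1 : kq y u' + 1 = u'.ord (F.val v'.t) * (kq z' v' + 1) := k1
    have k2 : kq (im φ z) u + 1 = _ := kq_hur hL hE.ff hz.ind o
    have k3 : (0 : ℝ) < u.ord (φ v.t) := by exact_mod_cast o.e_pos
    rw [show kq z' v' = 0 from k0, kk u' u b, k2] at k1
    nlinarith [ram u' u v' v b l' o]

end up

/-- **SETA** -/
theorem seta : SETA := fun s2 n c ε e0 => by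
  classical
  obtain ⟨τ, t0, s2⟩ := s2 n c ε e0
  refine ⟨τ, t0, fun L M σ _ _ _ _ _ z φ T J a₀ q hE hC hx hq => ?_⟩
  have hM := hE.ff
  have lin := φ.commutes
  set Z := im φ z with hZ
  have ind : AlgebraicIndependent ℂ Z := hE.rf.ind.map' φ.injective
  let A := IntermediateField.adjoin ℂ (range fun b => Z (.inl b))
  obtain ⟨M', _, _, ψ, g⟩ := gen_ex _ M hM (cl A) (Gf.cld_cl A)
  have h1 : FF (cl A) (Fintype.card σ) := ff_cl hM (ind.comp _ Sum.inl_injective)
  have hM₁ : FF M (n + 1 + Fintype.card σ) := by simpa [add_comm] using hM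
  have hM' : FF M' (n + 1) := g.toExt.ff h1 hM₁
  obtain ⟨T', lT⟩ := g.above h1 (hor_cl (fun b => hE.fi _) hx)
  have xA : ∀ b, Z (.inl b) ∈ cl A := fun b => (algebraicClosure A M).algebraMap_mem
    ⟨_, IntermediateField.subset_adjoin _ _ ⟨b, rfl⟩⟩
  let j := g.toExt.j.comp (algebraMap ℂ (cl A))
  have hj : ∀ c, algebraMap ℂ M' (j c) = ψ (algebraMap ℂ M c) := fun c => g.toExt.j_spec _
  let x := fun b => g.toExt.j ⟨_, xA b⟩
  have hx' : ∀ b, algebraMap ℂ M' (x b) = ψ (Z (.inl b)) := fun b => g.toExt.j_spec _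
  let χ₀ := MvPolynomial.eval₂Hom j x
  have c0 : (algebraMap ℂ M').comp χ₀ = ψ.comp
      (MvPolynomial.aeval fun b => Z (.inl b) : MvPolynomial σ ℂ →ₐ[ℂ] M) := by
    ext <;> simp [χ₀, hj, hx']
  have i0 : Function.Injective χ₀ := .of_comp (f := algebraMap ℂ M') (by
    rw [← RingHom.coe_comp, c0]
    exact ψ.injective.comp (ind.comp _ Sum.inl_injective))
  have e1 : ∀ i, aeval (ψ (Z (.inr i))) ((q i).map χ₀) =
      ψ (ey (fun b => Z (.inl b)) (Z (.inr i)) (q i)) := fun i => by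
    rw [aeval_def, eval₂_map, c0, ey, hom_eval₂]
  choose a a1 a2 using fun i => simple i0 (hq i).1 ((lT _).1 (hE.fi (.inr i)))
    (by rw [e1, g.ord_eq lT]; exact (hq i).2)
  let y := fun i => ψ (Z (.inr i)) - algebraMap ℂ M' (a i)
  have iy : AlgebraicIndependent ℂ y := ind_sub (Pb.dis_alg g.toExt (v := fun i => Z (.inr i))
    (AlgebraicIndependent.algebraicClosure (IntermediateField.algebraicIndependent_adjoin_iff.2
      (AlgebraicIndependent.sumElim_iff.1 (by
        convert ind.comp _ (Equiv.sumComm _ _).injective using 1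
        funext i; rcases i with i | i <;> rfl)).2))) a
  have cT : Ce y T' := fun i => (mx_iff.1 (a1 i)).resolve_left (iy.ne_zero i)
  have kk : ∀ u' u, Lies ψ u' u → kq y u' = kq Z u := fun u' u b => by
    let e := (Fintype.equivFin σ).symm
    let E : Fin (n + 1 + Fintype.card σ) ≃ σ ⊕ Fin (n + 1) :=
      finSumFinEquiv.symm.trans ((Equiv.sumComm _ _).trans (e.sumCongr (.refl _)))
    have eE : Z ∘ E = Fin.append (fun i => Z (.inr i)) fun b => Z (.inl (e b)) := funext fun i => by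
      refine Fin.addCases (fun i => ?_) (fun i => ?_) i <;> simp [E]
    have al := alg_of_gf g
    have := rel_eq hM₁ hM' (fun c => ⟨_, hj c⟩) al.alc b (al.sp b) (fun c => ⟨_, hx' (e c)⟩)
      (eE ▸ ind.comp _ E.injective)
    rw [g.e_one b, Int.cast_one, one_mul, add_left_inj] at this
    rw [kq_fin hM', kap_sub, this, kq_eq hM₁ E, eE]
  have h : Up (cl A) ψ j Z y := ⟨g, hj, by
    rintro B h (b | i)
    · exact hx' b ▸ B.algebraMap_mem (x b)
    · simpa [y] using add_mem (h i) (B.algebraMap_mem (a i))⟩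
  obtain ⟨k1, k2⟩ := h.ep hE e0.le lT iy (by simpa using hM') (ce_fi cT) kk
  obtain ⟨i, hi⟩ := s2 _ M' _ _ T' _ a₀ k1 (h.cnt hM' lT hC) cT
  refine ⟨i, ?_⟩
  have := a2 i
  rw [e1, g.ord_eq lT] at this
  exact ((mul_le_mul_of_nonneg_left (Int.cast_le.2 this) t0.le).trans hi).trans_eq k2

end Vale.Agent.P283B.Lm
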