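import Vale.Agent.P283B.LM.Split

/-!
# P283B, block LM: the chart is an open part of a model
-/

set_option linter.unusedVariables false

open Set
open Vale.Agent.P287D Vale.Agent.P287D.Cb
open Vale.Agent.P297Z

noncomputable section

namespace Vale.Agent.P283B.Lm

open Ls Sp

/-- **GEN** -/
theorem gen : GEN := fun L M ι _ _ _ _ _ z φ hz hM => by
  classical
  have ind : AlgebraicIndependent ℂ (im φ z) := hz.ind.map' φ.injective
  have fg : (Icl (im φ z)).FG := On.fg_of_int hM (B := Algebra.adjoin ℂ (range (im φ z)))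
    (Subalgebra.fg_def.2 ⟨_, finite_range _, rfl⟩)
    (Algebra.adjoin_le (range_subset_iff.2 (mem_icl _))) fun _ h => h
  refine ⟨isNoetherianRing_of_fg fg, fun f => ?_, ?_⟩
  · have := (ind.isTranscendenceBasis_of_trdeg_le_of_finite (by simp [hM.trdeg])).isAlgebraic
    obtain ⟨⟨b, hb⟩, b0, i⟩ := (this.isAlgebraic f).exists_integral_multiple
    obtain ⟨p, rfl⟩ := (Algebra.adjoin_range_eq_range_aeval ℂ _).le hb
    exact ⟨_, i, p, fun e => b0 (Subtype.ext (by simp [e])),
      (mul_div_cancel_left₀ f fun e => b0 (Subtype.ext e)).symm⟩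
  obtain ⟨t, ht⟩ := fg
  let s := insert 1 (Finset.univ.image (im φ z) ∪ t)
  have s1 : 1 ∈ s := Finset.mem_insert_self _ _
  have sy : ∀ i, φ (z i) ∈ s := fun i => by simp [s]
  have si : ∀ f ∈ s, f ∈ Icl (im φ z) := fun f hf => by
    simp only [s, Finset.mem_insert, Finset.mem_union, Finset.mem_image] at hf
    rcases hf with rfl | ⟨i, -, rfl⟩ | h
    exacts [one_mem _, mem_icl _ i, ht ▸ Algebra.subset_adjoin h]
  have e : On.Bf s 1 = Icl (im φ z) := le_antisymm
    (Algebra.adjoin_le (by rintro _ ⟨f, hf, rfl⟩; simpa using si f hf))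
    (ht.ge.trans (Algebra.adjoin_le fun f hf => by
      simpa using On.mem_Bf (f := 1) (show f ∈ s by simp [s, Finset.mem_coe.1 hf])))
  have af : ∀ b, b ∈ On.Af (mx s) 1 ↔ b ∈ Icl (im φ z) := fun b =>
    ⟨fun h => isIntegral_trans (R := Algebra.adjoin ℂ (range (im φ z)))
      (A := integralClosure (Algebra.adjoin ℂ (range (im φ z))) M) b
        (show IsIntegral (Icl (im φ z)) b from e ▸ On.int_Af hM s1 one_ne_zero b h),
      fun h => On.Bf_le one_ne_zero (e ▸ h)⟩
  have ch : ∀ P, On.Ch (mx s) 1 P ↔ Fi (im φ z) P := fun P =>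
    ⟨fun h i => h.mem _ ((af _).2 (mem_icl _ i)),
      fun h => On.ch_of s1 one_ne_zero fun g hg => by simpa using icl_ring h (si g hg)⟩
  refine ⟨s, s1, sy, si, fun T P h => ?_⟩
  simp only [On.cle_iff hM (carQ_mx s) ((ch T).2 h), ch, af, Ge]

end Vale.Agent.P283B.Lm
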