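import Vale.Agent.P283B.LM.St
import Vale.Agent.P283B.LS.DiagH

/-!
# P283B, block LM: functions without poles on the prime divisors through a point (leaf HART)
-/

set_option linter.unusedVariables false
set_option linter.unusedSectionVars false

open Set MvPolynomial
open Vale.Agent.P297Z Vale.Agent.P287D Vale.Agent.P287D.Cb

noncomputable section

namespace Vale.Agent.P283B.Lm

open Wp Ls Bi Ld

namespace Ha

variable {K L ι : Type} [Field K] [Algebra ℂ K] [Field L] [Algebra ℂ L] {y : ι → K} {P : Pl K}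

theorem icl_mem (h : Fi y P) {a : K} (k : a ∈ Icl y) : a ∈ P.ring := by
  obtain ⟨p, m, r⟩ := k
  let ψ : Algebra.adjoin ℂ (range y) →+* P.ring := (Subalgebra.val _).toRingHom.codRestrict _
    fun b => adj_mem (forall_mem_range.2 h) b.2
  obtain ⟨b, e⟩ := IsIntegrallyClosed.isIntegral_iff.1
    (⟨p.map ψ, m.map _, by rw [Polynomial.eval₂_map]; exact r⟩ : IsIntegral P.ring a)
  exact e ▸ b.2

variable [Fintype ι]

/-- a denominator -/
theorem den (hK : FF K (Fintype.card ι)) (hy : AlgebraicIndependent ℂ y) (g : K) :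
    ∃ p : MvPolynomial ι ℂ, p ≠ 0 ∧ aeval y p * g ∈ Icl y := by
  have fi := hK.fin (hy.comp _ (Fintype.equivFin ι).symm.injective)
  rw [(Equiv.surjective _).range_comp] at fi
  obtain ⟨⟨d, hd⟩, d0, k⟩ := (IntermediateField.isAlgebraic_adjoin_iff.1
    (Algebra.IsAlgebraic.isAlgebraic (R := IntermediateField.adjoin ℂ (range y))
      g)).exists_integral_multiple
  obtain ⟨p, rfl⟩ := (Algebra.adjoin_range_eq_range_aeval ℂ y).le hd
  exact ⟨p, fun e => d0 (Subtype.ext (by simp [e])), k⟩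

/-- prime divisors of the affine space -/
theorem kq_sp (h : Rf y) (s : Sp P (range y)) : kq y P = 0 := by
  have hK := rf_ff h rfl
  obtain ⟨n, hn⟩ := Nat.exists_eq_add_one_of_ne_zero fun z => no_pl (z ▸ hK) P
  let a := (Fintype.equivFinOfCardEq hn).symm
  obtain ⟨D, hD⟩ := fr_of (hn ▸ hK) (h.ind.comp _ a.injective)
  rw [kq_eq (hn ▸ hK) a]
  refine Gm.kap_zero (hn ▸ hK) hD (a.surjective.range_comp _ ▸ s) s.1 ?_
    fun x => h.gen ▸ IntermediateField.mem_top
  rintro j _ ⟨i, rfl⟩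
  rw [show y i = (y ∘ a) (a.symm i) by simp, hD.dual]
  split_ifs
  exacts [one_mem _, zero_mem _]

theorem lies_q {z : ι → L} {φ : L →ₐ[ℂ] K} (hz : Rf z) (hK : FF K (Fintype.card ι))
    {q : MvPolynomial ι ℂ} (hq : Prime q) (h : Pq (im φ z) q P) :
    ∃ v, Lies (φ : L →+* K) P v ∧ Pq z q v ∧ kq z v = 0 := by
  let _ : Algebra L K := (φ : L →+* K).toAlgebra
  have : IsScalarTower ℂ L K := .of_algebraMap_eq fun c => (φ.commutes c).symm
  have := Pb.fin_of_ff (rf_ff hz rfl) hK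
  obtain ⟨v, l⟩ := (hK.ok φ P).resolve_left (Pb.not_trv P)
  have k : Pq z q v := ⟨fun i => (l _).2 (h.1 i), fun p => by
    rw [← lies_mx l, ← h.2, RingHom.coe_coe, comp_aeval_apply]⟩
  exact ⟨v, l, k, kq_sp hz (sp_q (rf_ff hz rfl) rfl k.1 hq fun p => (k.2 p).1)⟩

end Ha

open Ha in
theorem hart : HART := fun L M ι _ _ _ _ _ z φ hz hM T g fT h => by
  classical
  have hy : AlgebraicIndependent ℂ (im φ z) := hz.ind.map' (f := φ) φ.injective
  obtain ⟨p, p0, hp⟩ := den hM hy g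
  let B := {P | ∃ q, Prime q ∧ Pq (im φ z) q P ∧ g ∉ P.ring}
  have fB : B.Finite := ((UniqueFactorizationMonoid.factors p).finite_toSet.biUnion fun q hq =>
    fin_q hM rfl hy (UniqueFactorizationMonoid.prime_of_factor q hq)).subset (by
      rintro P ⟨q, hq, a, b⟩
      obtain ⟨q', m, e⟩ := UniqueFactorizationMonoid.exists_mem_factors_of_dvd p0 hq.irreducible
        ((a.2 p).1 (by_contra fun n => b (by
          have := mul_mem (inv_mem_of n) (icl_mem a.1 hp)
          rwa [inv_mul_cancel_left₀ fun k => p0 (hy (k.trans (map_zero _).symm))] at this)))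
      exact mem_biUnion m ⟨a.1, fun r => (a.2 r).trans e.dvd_iff_dvd_left⟩)
  have : ∀ P ∈ B, ∃ a ∈ Icl (im φ z), a ≠ 0 ∧ T.ord a = 0 ∧ a * g ∈ P.ring := by
    rintro P ⟨q, hq, a, b⟩
    obtain ⟨v, l, -, k⟩ := lies_q hz hM hq a
    obtain ⟨c, c1, c2, c3⟩ : ∃ c ∈ Icl (im φ z), 0 < P.ord c ∧ ¬ 0 < T.ord c := by
      by_contra! n
      exact b (h P v ⟨a.1, n⟩ l k)
    have c0 : c ≠ 0 := by
      rintro rfl
      simp at c2
    have g0 : g ≠ 0 := fun e => b (e ▸ zero_mem _)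
    have := Pl.ord_nonneg_of_mem _ (icl_mem fT c1)
    refine ⟨c ^ (-P.ord g).toNat, pow_mem c1 _, pow_ne_zero _ c0, by
      rw [Pl.ord_pow, show T.ord c = 0 by omega, mul_zero], ?_⟩
    rw [← Pl.ord_nonneg_iff _ (mul_ne_zero (pow_ne_zero _ c0) g0),
      Pl.ord_mul _ (pow_ne_zero _ c0) g0, Pl.ord_pow]
    nlinarith [Int.self_le_toNat (-P.ord g), Int.natCast_nonneg (-P.ord g).toNat]
  choose! a a1 a2 a3 a4 using this
  have m : ∀ s : Finset (Pl M), s ⊆ fB.toFinset → ∏ P ∈ s, a P ∈ Icl (im φ z) := fun s k =>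
    prod_mem fun P hP => a1 P (fB.mem_toFinset.1 (k hP))
  refine ⟨_, m _ subset_rfl, Finset.prod_ne_zero_iff.2 fun P hP => a2 P (fB.mem_toFinset.1 hP),
    ?_, int_of hM rfl hy (fun i => Algebra.subset_adjoin (mem_range_self i))
      fun q hq _ P hP => ?_⟩
  · rw [Pl.ord_prod _ _ fun P hP => a2 P (fB.mem_toFinset.1 hP)]
    exact Finset.sum_eq_zero fun P hP => a3 P (fB.mem_toFinset.1 hP)
  by_cases k : g ∈ P.ring
  · exact mul_mem (icl_mem hP.1 (m _ subset_rfl)) k
  · have : P ∈ B := ⟨q, hq, hP, k⟩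
    rw [← Finset.prod_erase_mul _ _ (fB.mem_toFinset.2 this), mul_assoc]
    exact mul_mem (icl_mem hP.1 (m _ (Finset.erase_subset _ _))) (a4 P this)

end Vale.Agent.P283B.Lm
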