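import Vale.Agent.P283B.LM.St
import Vale.Agent.P283B.LS.Sl1
import Vale.Agent.P283B.LS.Spw

/-!
# P283B, block LM: an ideal on the base which approximates the discriminant (leaf SJN)
-/

set_option linter.unusedSectionVars false

open Set
open Vale.Agent.P297Z

noncomputable section

namespace Vale.Agent.P283B.Lm

open P287D P287D.Cb Wp Ls Ls.Sl

namespace Jn

variable {K L M ι : Type} [Field K] [Algebra ℂ K] [Field L] [Algebra ℂ L] [Field M] [Algebra ℂ M]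
  [Fintype ι] {n : ℕ}

theorem sub_mul {P : Pl K} {r : ℝ} {a f : K} (ha : a ∈ P.ring) (hf : f ∈ P.sub r) :
    a * f ∈ P.sub r := or_iff_not_imp_left.2 fun h => by
  obtain ⟨a0, f0⟩ := mul_ne_zero_iff.1 h
  have := hf.resolve_left f0
  have : (0 : ℝ) ≤ P.ord a := by exact_mod_cast Pl.ord_nonneg_of_mem _ ha
  rw [Pl.ord_mul _ a0 f0, Int.cast_add]
  linarith

/-- the functions of order at least `-β` at the places of `U` -/
def Iw (A : Subalgebra ℂ M) (j : M →+* K) (U : Pl K → Prop)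
    (h : ∀ w, U w → ∀ a ∈ A, j a ∈ w.ring) (β : BD K) : Ideal A where
  carrier := {a | ∀ w, U w → j a ∈ w.sub (β w)}
  add_mem' a b w o := by simpa using add_mem (a w o) (b w o)
  zero_mem' w _ := by simp
  smul_mem' c a b w o := by simpa using sub_mul (h w o c c.2) (b w o)

theorem gens (A : Subalgebra ℂ M) (h : IsNoetherianRing A) (I : Ideal A) : ∃ J : Finset M,
    (∀ f ∈ J, ∃ a ∈ I, f = a) ∧ ∀ a ∈ I, (a : M) ≠ 0 → Nz J ∧
      ∀ Q : Pl M, (∀ a ∈ A, a ∈ Q.ring) → 0 ≤ Q.ord a + mx J Q := by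
  classical
  obtain ⟨S, rfl⟩ := IsNoetherian.noetherian I
  refine ⟨S.image Subtype.val, fun f hf => ?_, fun a ha a0 => ⟨by_contra fun z => a0 ?_, fun Q hQ => ?_⟩⟩
  · obtain ⟨a, ha, rfl⟩ := Finset.mem_image.1 hf
    exact ⟨a, Submodule.subset_span ha, rfl⟩
  · rw [Submodule.span_eq_bot.2 fun b hb => Subtype.ext (by_contra fun b0 =>
      z ⟨b, Finset.mem_image_of_mem _ hb, b0⟩)] at ha
    exact congrArg Subtype.val ha
  · have : Submodule.span A (S : Set A) ≤ Iw A (RingHom.id M) (· = Q) (fun w e => by rwa [e])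
        (mx (S.image Subtype.val)) := Submodule.span_le.2 fun b hb (w : Pl M) _ =>
      Pl.span_le_sub w (S.image Subtype.val) (Submodule.subset_span
        (Finset.mem_coe.2 (Finset.mem_image_of_mem _ hb)))
    exact (this ha Q rfl).resolve_left a0

theorem icl_mem {y : ι → M} {P : Pl M} (h : Fi y P) (a : M) (k : a ∈ Icl y) : a ∈ P.ring :=
  int_mem (fun b => adj_mem (range_subset_iff.2 h) b.2) k

theorem kq_im {z : ι → L} {φ : L →ₐ[ℂ] M} (hz : Rf z) (hM : FF M (Fintype.card ι)) {Q : Pl M}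
    {v : Pl L} (l : Lies (φ : L →+* M) Q v) :
    kq (im φ z) Q + 1 = Q.ord (φ v.t) * (kq z v + 1) := by
  let _ : Algebra L M := (φ : L →+* M).toAlgebra
  have : IsScalarTower ℂ L M := .of_algebraMap_eq fun c => (φ.commutes c).symm
  exact Sp.kq_up (Sp.rf_ff hz) hM rfl hz.ind l

theorem alg {z : ι → L} (φ : L →ₐ[ℂ] M) (ψ : M →ₐ[ℂ] K) (hz : Rf z) (hM : FF M (Fintype.card ι)) :
    (∀ w, Trv (ψ.comp φ : L →+* K) w → Trv (ψ : M →+* K) w) ∧
      ∀ f, IsAlgebraic (ψ.comp φ).fieldRange (ψ f) := by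
  let _ : Algebra L M := (φ : L →+* M).toAlgebra
  have : IsScalarTower ℂ L M := .of_algebraMap_eq fun c => (φ.commutes c).symm
  have := Pb.fin_of_ff (Sp.rf_ff hz) hM
  exact ⟨fun w k => Sp.trv_alg (L := L) _ k, fun f =>
    (Algebra.IsAlgebraic.isAlgebraic (R := L) f).ringHom_of_comp_eq
      ((ψ.comp φ).equivFieldRange : L →+* _) (ψ : M →+* K) (RingHom.injective _) rfl⟩

/-- one of the summands has a small order -/
theorem small {φ : L →ₐ[ℂ] M} {Q : Pl M} {v : Pl L} (l : Lies (φ : L →+* M) Q v) {r k : ℕ}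
    {f : Fin r → M} {e : Fin r → L} (he : ∀ i, e i ∈ v.ring)
    (h : φ v.t ^ k = ∑ i, f i * φ (e i)) : ∃ i, f i ≠ 0 ∧ Q.ord (f i) ≤ k * Q.ord (φ v.t) := by
  by_contra! x
  have t0 : φ v.t ^ k ≠ 0 := pow_ne_zero _ ((_root_.map_ne_zero _).2 v.t_ne)
  have : φ v.t ^ k ∈ Q.sub (-(k * Q.ord (φ v.t) + 1 : ℤ)) := h ▸ sum_mem fun i _ => by
    rw [mul_comm (f i)]
    refine sub_mul ((l _).1 (he i)) (or_iff_not_imp_left.2 fun f0 => ?_)
    have : ((k * Q.ord (φ v.t) + 1 : ℤ) : ℝ) ≤ Q.ord (f i) := Int.cast_le.2 (x i f0)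
    linarith
  have := this.resolve_left t0
  rw [Pl.ord_pow] at this
  push_cast at this
  linarith

end Jn

open Jn

/-- **SJN** -/
theorem sjn : SJN := fun pw ge n K _ _ hK L ι _ _ _ c N Λ Γ s₀ R₀ z φ T₀ e d h1 h2 h3 C h4 h5 h6 N0
    d1 h7 h8 => by
  let ψ := (fld (mx s₀)).val.comp φ
  have nh : ¬ Hor (fld (mx s₀)) R₀ := fun k => C.li.not_trv k.trv
  have io : ∀ a ∈ Icl (im φ z), (a : K) ∈ Oz s₀ R₀ := fun a ha =>
    (C.loc a).2 ⟨a, ha, 1, one_mem _, one_ne_zero, by simp, by simp⟩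
  obtain ⟨tr, al⟩ := alg φ (fld (mx s₀)).val C.rf C.ff
  have N1 : (0 : ℝ) < N := Nat.cast_pos.2 N0
  obtain ⟨J, j1, j2⟩ := gens _ (ge L _ ι z φ C.rf C.ff).1 (Iw (Icl (im φ z)) (inc _)
    (fun w => Ov s₀ R₀ w ∧ ¬ Trv (ψ : L →+* K) w) (fun w o a ha => io a ha w o.1)
    fun w => pb (ψ : L →+* K) (kq z + 1) w - N * (pb (ψ : L →+* K) (kq z + 1) w - ld (n + 1) Γ w))
  have dn : ∀ Q, ∃ v, Lies (φ : L →+* _) Q v := fun Q => (C.ff.ok φ Q).resolve_left fun k =>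
    Pl.ring_ne_top Q.toPlace (eq_top_iff.2 fun a _ =>
      (alg φ (AlgHom.id ℂ _) C.rf C.ff).1 Q k a)
  have key : ∀ Q v, Ge (im φ z) T₀ Q → Lies (φ : L →+* _) Q v → Nz J ∧
      d * Q.ord (φ v.t) ≤ psi (im φ z) J (N : ℝ)⁻¹ Q := fun Q v g l => by
    have fv : Fi z v := fun i => (l _).2 (g.1 i)
    have a0 : 0 ≤ N * (kq z v + 1 - d) :=
      mul_nonneg N1.le (by linarith [kq_nonneg (Sp.rf_ff C.rf) rfl fv])
    obtain ⟨r, f, b, m1, m2, m3, m4⟩ := pw n K hK L ι z ψ Λ Γ s₀ R₀ e d N ⌊N * (kq z v + 1 - d)⌋₊ v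
      C.rf nh h1 h2 h3 h4 h5 h6 (fun i => io _ (mem_icl _ i)) (fun a => (φ a).2)
      (fun f hf => al ⟨f, hf⟩) fv N0
      (fun w k => h7 w (On.cle_of_hor hK (smp_mx s₀) (fun a ha => tr w k ⟨a, ha⟩) _))
      (fun w o k => by
        obtain ⟨Q, lQ⟩ := (hK.ok_sub (fld (mx s₀)) w).resolve_left fun x =>
          k.not_trv (x.comp (φ : L →+* _))
        exact h8 w Q v o lQ (lQ.of_comp k)) (Nat.lt_floor_add_one _)
    obtain ⟨i, f0, fl⟩ := small l (f := fun i => ⟨f i, oz_le hK (m1 i)⟩) m2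
      ((inc _).injective (by simp only [map_sum, map_mul, map_pow]; exact m3))
    obtain ⟨a, ha, b, hb, b0, b1, ab⟩ := (C.loc ⟨f i, oz_le hK (m1 i)⟩).1 (m1 i)
    have a1 : a ≠ 0 := fun x => f0 (by rw [ab, x, zero_div])
    have b2 : Q.ord b = 0 := le_antisymm (not_lt.1 fun x => (g.2 b hb x).ne' b1)
      (Pl.ord_nonneg_of_mem _ (icl_mem g.1 b hb))
    obtain ⟨nz, k⟩ := j2 ⟨a, ha⟩ (fun w o => .inr (by
      have k := m4 i w o.1 o.2 fun x => f0 (Subtype.ext x)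
      have u : w.ord (b : K) = 0 := Pl.ord_unit _ (io b hb w o.1)
        ((C.loc b⁻¹).2 ⟨1, one_mem _, b, hb, b0, b1, inv_eq_one_div b⟩ w o.1)
      rw [show f i = (a : K) / b from congrArg Subtype.val ab, Pl.ord_div _
        (fun x => a1 (Subtype.ext x)) (fun x => b0 (Subtype.ext x)), u, sub_zero] at k
      change _ ≤ (w.ord (a : K) : ℝ) + (_ - _)
      linarith)) a1
    refine ⟨nz, ?_⟩
    have k := k Q (icl_mem g.1)
    rw [ab, Pl.ord_div _ a1 b0, b2, sub_zero] at fl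
    have e0 : (0 : ℝ) ≤ Q.ord (φ v.t) := Int.cast_nonneg_iff.2 l.e_pos.le
    have fl' : (Q.ord a : ℝ) ≤ N * (kq z v + 1 - d) * Q.ord (φ v.t) :=
      le_trans (by exact_mod_cast fl) (mul_le_mul_of_nonneg_right (Nat.floor_le a0) e0)
    have := mul_le_mul_of_nonneg_left (show -(N * (kq z v + 1 - d) * Q.ord (φ v.t)) ≤ mx J Q by
      linarith) (inv_pos.2 N1).le
    simp only [psi, Pi.add_apply, Pi.one_apply, Pi.smul_apply, smul_eq_mul, kq_im C.rf C.ff l]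
    rw [mul_neg, mul_assoc, inv_mul_cancel_left₀ N1.ne'] at this
    linarith
  refine ⟨J, fun f hf => ?_, fun Q v g l => (key Q v g l).2, fun w Q o l => ?_⟩
  · obtain ⟨a, -, rfl⟩ := j1 f hf
    exact a.2
  obtain ⟨v₀, l₀⟩ := dn T₀
  obtain ⟨g, hg, g0, eg⟩ := Q.exists_mz (key T₀ v₀ ⟨fun i => (C.li _).2
    (io _ (mem_icl _ i) R₀ (CLe.refl _ _)), fun _ _ k => k⟩ l₀).1
  obtain ⟨a, ha, rfl⟩ := j1 g hg
  obtain ⟨v, lv⟩ := dn Q
  have k := (ha w ⟨o, (l.comp lv).not_trv⟩).resolve_left ((_root_.map_ne_zero _).2 g0)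
  have p : pb (ψ : L →+* K) (kq z + 1) w = w.ord (Q.t : K) * (kq (im φ z) Q + 1) := by
    rw [kq_im C.rf C.ff lv, ← mul_assoc, ← Int.cast_mul]
    exact ((l.comp lv).pb _).trans (congrArg (fun x : ℤ => (x : ℝ) * _) (l.ord (φ v.t)))
  rw [l.ord] at k
  simp only [p] at k
  simp only [psi, Pi.add_apply, Pi.one_apply, Pi.smul_apply, smul_eq_mul, mx_apply, eg]
  have := mul_le_mul_of_nonneg_left k (inv_pos.2 N1).le
  rw [mul_add, mul_sub, inv_mul_cancel_left₀ N1.ne'] at this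
  push_cast at this ⊢
  rw [div_eq_inv_mul]
  change _ ≤ _ * ((w.ord (Q.t : K) : ℝ) * _) + _ at this
  linarith

end Vale.Agent.P283B.Lm
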