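import Vale.Agent.P283B.LM.Tw
import Vale.Agent.P283B.LS.Key

/-!
# P283B, block LM: the key step of the tower on a finite chart
-/

set_option linter.unusedSectionVars false
set_option linter.unusedVariables false

open Set Filter Polynomial

noncomputable section

namespace Vale.Agent.P283B.Lm.Ky

open Mono Ls Ls.Ky

variable {Ω A I : Type} [Field Ω] [Algebra ℂ Ω] [IsAlgClosed Ω] [CommRing A]
  {w : AbsoluteValue Ω ℝ} {E : Subfield Ω} {t : Ω} {n : ℕ} {u : Fin n → Ω} {Z : Sd Ω A I n}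

theorem gen_id [IsNoetherianRing A] (I : Ideal A) : ∃ G : Polynomial A,
    (∀ k : ℕ, G.eval (k : A) ∈ I) ∧ I ≤ Ideal.span (range G.coeff) := by
  obtain ⟨L, s, hs⟩ := Submodule.fg_iff_exists_fin_generating_family.1 (IsNoetherian.noetherian I)
  refine ⟨∑ i, monomial i.1 (s i), fun k => ?_, ?_⟩
  · rw [eval_finsetSum]
    refine I.sum_mem fun i _ => ?_
    rw [eval_monomial]
    exact I.mul_mem_right _ (hs ▸ Submodule.subset_span ⟨i, rfl⟩)
  · rw [← hs]
    refine Submodule.span_mono (range_subset_iff.2 fun i => ⟨i.1, ?_⟩)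
    rw [finsetSum_coeff, Finset.sum_eq_single i (fun j _ h => ?_) (by simp), coeff_monomial_same]
    exact coeff_monomial_of_ne _ fun e => h (Fin.ext e.symm)

theorem gen_h (v : VS w E) (φ : A →+* Ω) (hφ : ∀ p, w (φ p) ≤ 1) (G : Polynomial A) :
    ∀ᶠ k : ℕ in cofinite, ∀ g ∈ Ideal.span (range G.coeff), w (φ g) ≤ w (φ (G.eval k)) := by
  filter_upwards [gen_p v (G.map φ)] with k hk g hg
  rw [eval_natCast_map] at hk
  induction hg using Submodule.span_induction with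
  | mem x hx => obtain ⟨i, rfl⟩ := hx; simpa using hk i
  | zero => simp
  | add x y _ _ a b => rw [map_add]; exact (v.na _ _).trans (max_le a b)
  | smul a x _ b =>
    rw [smul_eq_mul, map_mul, map_mul]
    exact (mul_le_of_le_one_left (w.nonneg _) (hφ a)).trans b

theorem aa_ge {η : Fin n → Ω} (h : Op w η) (c : ℕ) : vl w t ≤ aa w t c η :=
  le_add_of_nonneg_right (Finset.sum_nonneg fun j _ => vl_nn (h j).le)

/-- the characteristic polynomial of `H` -/
def Ch (w : AbsoluteValue Ω ℝ) (t : Ω) (Z : Sd Ω A I n) (X : (Fin n → Ω) → Multiset I) (H : A)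
    (χ : Polynomial (Pn n)) : Prop := ∀ η, Op w η → ∃ B : Multiset Ω, (∀ β ∈ B, w β = 1) ∧
  χ.map (ev t η) = ((((X η).map fun ξ => Z.va ξ H) + B).map
    fun β => Polynomial.X - Polynomial.C β).prod

variable {X : (Fin n → Ω) → Multiset I} {H : A} {χ : Polynomial (Pn n)}

theorem Ch.eval (hw : IsNonarchimedean w) (h : Ch w t Z X H χ) {η : Fin n → Ω} (k : Op w η) {θ : Ω}
    (θ1 : w θ < 1) : w (χ.eval₂ (ev t η) θ) = w ((X η).map fun x => θ - Z.va x H).prod := by
  obtain ⟨B, b, e⟩ := h η k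
  rw [← eval_map, e, eval_multiset_prod, Multiset.map_map, Multiset.map_add, Multiset.prod_add,
    map_mul, Multiset.map_map, map_multiset_prod w (B.map _), Multiset.prod_eq_one (s := (B.map _).map w),
    mul_one]
  · simp
  intro x hx
  simp only [Multiset.map_map, Multiset.mem_map, Function.comp] at hx
  obtain ⟨β, hβ, rfl⟩ := hx
  rw [eval_sub, eval_X, eval_C, w.map_sub, na_sub_lt hw (b β hβ ▸ θ1), b β hβ]

theorem Ch.norm (hw : IsNonarchimedean w) (h : Ch w t Z X H χ) {η : Fin n → Ω} (k : Op w η) :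
    w (ev t η (χ.coeff 0)) = ((X η).map fun x => w (Z.va x H)).prod := by
  rw [← eval₂_at_zero, h.eval hw k (by simp), map_multiset_prod, Multiset.map_map]
  simp

theorem sheet (np : NP0) (hE : EV) (S : Se w E t u) (h : Ch w t Z X H χ) {c : Fin n}
    {η : Fin n → Ω} (o : Op w η) (m : ∀ j, η j ∈ Lv E u c) (N0 : (sub c (χ.coeff 0)).map c0 ≠ 0)
    {θ : Ω} (hθ : θ ∈ E) (θ0 : θ ≠ 0) (θ1 : w θ < 1) {y y' : Ω} (hy : w y < 1) (hy' : w y' < 1) :
    ∃ B : Multiset Ω, B.card = ((sub c (χ.coeff 0)).map c0).natTrailingDegree ∧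
      (∀ β ∈ B, β ∈ Lv E u c) ∧
      fv w Z (X (Function.update η c y)) H (vl w θ) = (B.map fun β => vl w (y - β)).sum ∧
      fv w Z (X (Function.update η c y')) H (vl w θ) = (B.map fun β => vl w (y' - β)).sum := by
  obtain ⟨q, -, q1, -, hq⟩ := hE n Ω w E t u S η o
  obtain ⟨θ', a1, a2, a3⟩ := gen_th S.vs hθ θ0
    ((X (Function.update η c y) + X (Function.update η c y')).map fun x => Z.va x H)
  let f := χ.eval₂ ((mapRingHom (ev t η)).comp (sub c)) (C θ')
  have co : ∀ i, f.coeff i = ∑ j ∈ Finset.range (χ.natDegree + 1),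
      ev t η ((sub c (χ.coeff j)).coeff i) * θ' ^ j := fun i => by
    simp only [f, eval₂_eq_sum_range, finsetSum_coeff, ← C_pow, coeff_mul_C, RingHom.comp_apply,
      coe_mapRingHom, coeff_map]
  have sp : ∀ i, ∃ z, w z < 1 ∧ f.coeff i = ev t η ((sub c (χ.coeff 0)).coeff i) + z := fun i => by
    rw [co, Finset.sum_range_succ', pow_zero, mul_one]
    refine ⟨_, na_sum_lt S.vs.na _ _ one_pos fun j _ => ?_, add_comm _ _⟩
    rw [map_mul, map_pow, a2]
    exact mul_lt_one_of_nonneg_of_lt_one_right (hq _).1 (by positivity)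
      (pow_lt_one₀ (w.nonneg _) θ1 j.succ_ne_zero)
  have top : w (f.coeff ((sub c (χ.coeff 0)).map c0).natTrailingDegree) = 1 := by
    obtain ⟨z, z1, e⟩ := sp _
    have := (hq _).2.1 ((coeff_map c0 _).symm.trans_ne (trailingCoeff_nonzero_iff_nonzero.2 N0))
    rw [e, na_add_lt S.vs.na (this ▸ z1), this]
  obtain ⟨B, b1, b2, b3⟩ := np Ω w f _ S.vs.na (fun i => by
    obtain ⟨z, z1, e⟩ := sp i
    exact e ▸ (S.vs.na _ _).trans (max_le (hq _).1 z1.le)) (fun i hi => by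
    obtain ⟨z, z1, e⟩ := sp i
    have := (hq _).2.2 1 (by
      rw [pow_one, RingHom.mem_ker, ← coeff_map]; exact coeff_eq_zero_of_lt_natTrailingDegree hi)
    exact e ▸ (S.vs.na _ _).trans_lt (max_lt (this.trans_lt (by rwa [pow_one])) z1)) top
  have key : ∀ y, w y < 1 → (∀ x ∈ X (Function.update η c y),
      w (θ' - Z.va x H) = max (w (Z.va x H)) (w θ)) →
      fv w Z (X (Function.update η c y)) H (vl w θ) = (B.map fun β => vl w (y - β)).sum := by
    intro y hy k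
    have e : w (f.eval y) = _ := (congrArg w (hom_eval₂ χ _ (evalRingHom y) _)).trans (by
      rw [← RingHom.comp_assoc, ev_sub, coe_evalRingHom, eval_C,
        h.eval S.vs.na (op_up o c hy) (a2 ▸ θ1)])
    have z : ((X (Function.update η c y)).map fun x => θ' - Z.va x H).prod ≠ 0 :=
      Multiset.prod_ne_zero fun k' => by
      obtain ⟨x, hx, k'⟩ := Multiset.mem_map.1 k'
      exact absurd (k x hx) (by rw [k', map_zero]; exact (lt_max_of_lt_right (w.pos θ0)).ne)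
    have e' : w (f.eval y) = w (B.map fun β => y - β).prod := by
      rw [b3 y hy, map_multiset_prod, Multiset.map_map]; rfl
    have := vl_prod (w := w) (w.pos_iff.1 (e' ▸ e ▸ w.pos z))
    rw [Multiset.map_map, vl, ← e', e, ← vl, vl_prod z, Multiset.map_map] at this
    refine Eq.trans (congrArg Multiset.sum (Multiset.map_congr rfl fun x hx => ?_)) this
    rw [mv, exp_vl θ0, ← k x hx]; rfl
  refine ⟨B, b1, fun β hβ => (lv_cl u c).root (fun k => by simp [k] at top) (fun i => ?_)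
    (b2 β hβ).2, key y hy fun x hx => a3 _ ?_, key y' hy' fun x hx => a3 _ ?_⟩
  · exact co i ▸ sum_mem fun j _ => mul_mem (ev_in S (le_lv u c) m _) (pow_mem (le_lv u c a1) _)
  · exact Multiset.mem_map_of_mem _ (Multiset.mem_add.2 (.inl hx))
  · exact Multiset.mem_map_of_mem _ (Multiset.mem_add.2 (.inr hx))

variable {Ψ : I → ℝ} {ε : ℝ} {c : Fin n} {d μ : ℕ}

theorem mass (hE : EV) (S : Se w E t u) (B : Bg w E t u Z Ψ ε) (hX : Cor w t Z c d X) {m : ℕ}
    (m0 : 0 < m) : ∃ η r, Op w η ∧ 0 < r ∧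
      (∀ x ∈ X η, ∃ g, Lw w E t u Z Ψ c m g ∧ r ≤ w (Z.va x g)) ∧ ∀ H χ, Ch w t Z X H χ →
      (∀ x ∈ X η, r ≤ w (Z.va x H)) → (sub c (χ.coeff 0)).map c0 ≠ 0 ∧
        ((sub c (χ.coeff 0)).map c0).natTrailingDegree ≤ d * (m * (n + 2)) := by
  have D0 : (0 : ℝ) < (d * (m * (n + 2)) : ℕ) := Nat.cast_pos.2 (by have := hX.pos; positivity)
  obtain ⟨b, hb, b0, b1, b2⟩ := ex_val S (div_pos (vl_pos S.t0 S.t1) D0)
  have b3 := lt_one b0 b1
  have u1 : ∀ z j, w (z * u j) = w z := fun z j => by rw [map_mul, (S.tw j).one, mul_one]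
  let γ := Function.update (fun _ : Fin n => t) c b
  have P : Pt w E u (fun j => γ j * u j) γ := ⟨tri_mon fun j => by
    rcases eq_or_ne j c with rfl | e
    · simpa [γ] using ⟨hb, b0⟩
    · simpa [γ, e] using ⟨S.tE, S.t0⟩, fun j =>
      (u1 _ j).trans_lt (op_up (fun _ => S.t1) c b3 j)⟩
  have gc : w (γ c * u c) = w b := by simp [γ, u1]
  refine ⟨_, w b ^ (m * (n + 2)), op_cut P.op c, pow_pos (w.pos b0) _, fun x hx => ?_,
    fun H χ h k => ?_⟩
  · have x2 := hX.mem _ (op_cut P.op c) x hx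
    obtain ⟨g, g1, g2⟩ := B.lu c m _ _ ((n + 1) * vl w b) m0 P (by positivity)
      (by simp only [aa, vl, u1, sub_self]; exact mul_nonneg (by positivity) b1.le)
      (fun y γ' p e => by
        have := B.ber y γ' c p
        have v : ∀ j, c ≤ j → vl w (Z.co y j) = vl w (γ j) := fun j l => by rw [e j l, vl, u1, vl]
        have s : aa w t c γ ≤ vl w t + ∑ i, vl w (Z.co y i) := add_le_add_right (by
          rw [← Finset.sum_congr rfl fun j l => v j (by simpa using l)]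
          exact Finset.sum_le_univ_sum_of_nonneg fun i => vl_nn (p.op i).le) _
        rw [v c le_rfl, show γ c = b by simp [γ]] at this
        linarith) x fun j l => (x2 j l).trans (if_pos l)
    refine ⟨g, g1, le_trans ?_ g2⟩
    have : (1 : ℝ) ≤ m := Nat.one_le_cast.2 m0
    rw [vl, vl, gc, ← vl, ← exp_vl b0, ← Real.exp_nat_mul, Real.exp_le_exp]
    push_cast
    nlinarith
  have lo : w b ^ (d * (m * (n + 2))) ≤ w (ev t (cut c fun j => γ j * u j) (χ.coeff 0)) := by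
    rw [h.norm S.vs.na (op_cut P.op c), mul_comm d, pow_mul]
    refine (pow_le_pow_of_le_one (by positivity) (pow_le_one₀ (w.nonneg _) b3.le)
      (hX.card _ (op_cut P.op c))).trans ?_
    rw [← Multiset.prod_replicate, ← Multiset.map_const']
    exact Multiset.prod_map_le_prod_map₀ _ _ (fun _ _ => by positivity) k
  obtain ⟨q, -, -, q1, hq⟩ := hE n Ω w E t u S _ (op_cut P.op (c + 1))
  have q2 : q < w b ^ (d * (m * (n + 2))) := (q1 (w t) le_rfl fun j => by
    rw [cut]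
    split_ifs with l
    · rw [u1, show γ j = t from Function.update_of_ne (fun e => by simp [e] at l) _ _]
    · simp).trans_lt (by
    rw [← exp_vl S.t0, ← exp_vl b0, ← Real.exp_nat_mul, Real.exp_lt_exp]
    linarith [(lt_div_iff₀' D0).1 b2])
  have : ∃ i ≤ d * (m * (n + 2)), ((sub c (χ.coeff 0)).map c0).coeff i ≠ 0 := by
    by_contra! hn
    refine absurd lo (not_le.2 ?_)
    rw [← up_cut, ← ev_sub, RingHom.comp_apply, RingHom.comp_apply, coe_evalRingHom,
      coe_mapRingHom, eval_eq_sum_range]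
    refine na_sum_lt S.vs.na _ _ (pow_pos (w.pos b0) _) fun i _ => ?_
    rw [map_mul, map_pow, gc, coeff_map]
    rcases le_or_gt i (d * (m * (n + 2))) with l | l
    · have := (hq _).2.2 1 (by rw [pow_one, RingHom.mem_ker, ← coeff_map]; exact hn i l)
      exact (mul_le_of_le_one_right (w.nonneg _) (pow_le_one₀ (w.nonneg _) b3.le)).trans_lt
        (this.trans_lt (by rwa [pow_one]))
    · exact (mul_le_of_le_one_left (by positivity) (hq _).1).trans_lt
        (pow_lt_pow_right_of_lt_one₀ (w.pos b0) b3 l)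
  obtain ⟨i, i1, i2⟩ := this
  exact ⟨fun e => i2 (by simp [e]), (natTrailingDegree_le_of_ne_zero i2).trans i1⟩

/-- general members of the ideals, tested at a second point `η` -/
def Dat (w : AbsoluteValue Ω ℝ) (E : Subfield Ω) (t : Ω) (u : Fin n → Ω) (Z : Sd Ω A I n)
    (Ψ : I → ℝ) (c : Fin n) (x γ : Fin n → Ω) (s κ : ℝ) (d : ℕ) (X : (Fin n → Ω) → Multiset I) :
    Prop := ∀ (m : ℕ) η γ' φ, 0 < m → Pt w E u η γ' → (∀ j, c < j → η j = x j) → 0 ≤ φ →
  aa w t c γ' - aa w t c η ≤ φ →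
  (∀ y γ'', Pt w E u (Z.co y) γ'' → (∀ j, c ≤ j → Z.co y j = η j) → aa w t c γ' - Ψ y ≤ φ) →
  ∃ H χ, Ch w t Z X H χ ∧ (sub c (χ.coeff 0)).map c0 ≠ 0 ∧
    ((sub c (χ.coeff 0)).map c0).natTrailingDegree ≤ d * (m * (n + 2)) ∧
    (∀ y ∈ X (Function.update (cut (c + 1) x) c (η c)),
      Real.exp (-(m * φ + vl w (η c))) ≤ w (Z.va y H)) ∧
    ∀ l₁ l₂, 0 ≤ l₁ → l₁ ≤ l₂ → l₂ ≤ m * (aa w t c γ - s) - aa w t c γ → κ * d * (l₂ - l₁) ≤
      fv w Z (X (Function.update (cut (c + 1) x) c (x c))) H l₂ -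
        fv w Z (X (Function.update (cut (c + 1) x) c (x c))) H l₁

theorem ex_gen (S : Se w E t u) (K : Ct w t Z μ) (Ψ : I → ℝ) (c m : ℕ) :
    ∃ G : Polynomial A, (∀ k : ℕ, Lw w E t u Z Ψ c m (G.eval (k : A))) ∧
      ∀ g, Lw w E t u Z Ψ c m g → g ∈ Ideal.span (range G.coeff) :=
  have := K.noe
  gen_id
    { carrier := {g | Lw w E t u Z Ψ c m g}
      add_mem' := fun a b x γ p => by
        rw [map_add]; exact (S.vs.na _ _).trans (max_le (a x γ p) (b x γ p))
      zero_mem' := fun x γ p => by simp [Real.exp_nonneg]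
      smul_mem' := fun a g b x γ p => by
        rw [smul_eq_mul, map_mul, map_mul]
        exact (mul_le_of_le_one_left (w.nonneg _) (K.le x a)).trans (b x γ p) }

theorem dat (hE : EV) (S : Se w E t u) (K : Ct w t Z μ) (B : Bg w E t u Z Ψ ε) {x γ : Fin n → Ω}
    (P : Pt w E u x γ) {s κ : ℝ} (h : ∀ D : Set A, D.Countable → D ⊆ Z.U → ∃ x' γ' d X,
      Pt w E u (Z.co x') γ' ∧ (∀ j : Fin n, c.1 ≤ j.1 → Z.co x' j = x j) ∧ Ψ x' ≤ s ∧
      Cor w t Z c d X ∧ ∀ H ∈ D, Gd w Z (X (cut c x)) (κ * d) x' H) :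
    ∃ d X, Cor w t Z c d X ∧ Dat w E t u Z Ψ c x γ s κ d X := by
  choose G G1 G2 using ex_gen S K Ψ c
  obtain ⟨e₀, e1, e2⟩ := K.adm
  choose F hF using e2
  obtain ⟨x', γ', d, X, p, e, s', hX, g⟩ := h _ (countable_range fun z : ℕ × ℕ × ℕ =>
    (G z.1).eval (z.2.1 : A) + F ((G z.1).eval (z.2.1 : A)) z.2.2 * e₀ ^ z.2.2)
    (range_subset_iff.2 fun z => hF _ _)
  refine ⟨d, X, hX, fun m η γ'' φ m0 P' e' φ0 φ1 hφ => ?_⟩
  obtain ⟨η₀, r, o, r0, hr, hm⟩ := mass hE S B hX m0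
  have o' := op_up (op_cut P.op (c + 1)) c (P'.op c)
  obtain ⟨k, hk⟩ := ((eventually_all_finite
    (X η₀ + X (Function.update (cut (c + 1) x) c (η c))).finite_toSet).2 fun y hy =>
      gen_h S.vs (Z.va y) (K.le y) (G m)).exists
  obtain ⟨ρ, ρ0, ρ1, ρ2, ρ3⟩ : ∃ ρ, 0 < ρ ∧ ρ ≤ r ∧ ρ ≤ Real.exp (-(m * φ + vl w (η c))) ∧
      ρ ≤ Real.exp (-(m * (aa w t c γ - s) - aa w t c γ)) :=
    ⟨min r (min _ _), lt_min r0 (lt_min (Real.exp_pos _) (Real.exp_pos _)), min_le_left _ _,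
      (min_le_right _ _).trans (min_le_left _ _), (min_le_right _ _).trans (min_le_right _ _)⟩
  obtain ⟨M, hM⟩ := ((eventually_all_finite
    (x' ::ₘ (X η₀ + X (Function.update (cut (c + 1) x) c (η c)))).finite_toSet).2 fun y hy =>
      (tendsto_pow_atTop_nhds_zero_of_lt_one (w.nonneg _) (e1 y)).eventually
        (gt_mem_nhds ρ0)).exists
  have sm : ∀ y ∈ x' ::ₘ (X η₀ + X (Function.update (cut (c + 1) x) c (η c))),
      w (Z.va y (F ((G m).eval (k : A)) M * e₀ ^ M)) < ρ := fun y hy => by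
    rw [map_mul, map_mul, map_pow, map_pow]
    exact (mul_le_of_le_one_left (by positivity) (K.le y _)).trans_lt (hM y hy)
  have lo : ∀ y ∈ X η₀ + X (Function.update (cut (c + 1) x) c (η c)), ∀ g r, ρ ≤ r →
      Lw w E t u Z Ψ c m g → r ≤ w (Z.va y g) →
      r ≤ w (Z.va y ((G m).eval (k : A) + F ((G m).eval (k : A)) M * e₀ ^ M)) :=
    fun y hy g r a l b => by
      have := b.trans (hk y hy g (G2 m g l))
      rwa [map_add, na_add_lt S.vs.na ((sm y (Multiset.mem_cons_of_mem hy)).trans_le (a.trans this))]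
  obtain ⟨χ, hχ⟩ := hX.chi _ (hF ((G m).eval (k : A)) M)
  obtain ⟨a1, a2⟩ := hm _ χ hχ fun y hy =>
    let ⟨g, l, b⟩ := hr y hy
    lo y (Multiset.mem_add.2 (.inl hy)) g r ρ1 l b
  refine ⟨_, χ, hχ, a1, a2, fun y hy => ?_, fun l₁ l₂ l0 l l' => ?_⟩
  · have y2 := hX.mem _ o' y hy
    obtain ⟨g, g1, g2⟩ := B.lu c m η γ'' φ m0 P' φ0 φ1 hφ y fun j l => by
      rw [y2 j l]
      rcases l.eq_or_lt with rfl | l
      · simp
      · rw [Function.update_of_ne l.ne', e' j l]; exact if_pos l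
    exact lo y (Multiset.mem_add.2 (.inr hy)) g _ ρ2 g1 g2
  · have a : aa w t c γ' = aa w t c γ := congrArg (vl w t + ·) (Finset.sum_congr rfl
      fun j hj => congrArg _ (tri_uniq S P.tri p.tri (e j (by simpa using hj))))
    have := g _ ⟨(m, k, M), rfl⟩ l₁ l₂ l0 l (by
      rw [map_add]
      exact (S.vs.na _ _).trans (max_le ((G1 m k x' γ' p).trans (Real.exp_le_exp.2 (by
        rw [a]; nlinarith [(Nat.cast_nonneg m : (0 : ℝ) ≤ m)])))
        ((sm _ (Multiset.mem_cons_self _ _)).le.trans (ρ3.trans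
          (Real.exp_le_exp.2 (neg_le_neg l'))))))
    rwa [← up_cut] at this

/-! ### the three statements -/

theorem exp_fv (T : Multiset I) (H : A) (l : ℝ) : Real.exp (-fv w Z T H l) =
    (T.map fun x => max (w (Z.va x H)) (Real.exp (-l))).prod := by
  rw [fv, ← Multiset.sum_map_neg, Real.exp_multiset_sum, Multiset.map_map]
  refine congrArg _ (Multiset.map_congr rfl fun x _ => ?_)
  simp only [Function.comp, mv, neg_neg]
  exact Real.exp_log (lt_max_of_lt_right (Real.exp_pos _))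

theorem fv_eq {T : Multiset I} {l l₁ l₂ : ℝ}
    (h : ∀ y ∈ T, Real.exp (-l) ≤ w (Z.va y H)) (a : l ≤ l₁) (b : l ≤ l₂) :
    fv w Z T H l₁ = fv w Z T H l₂ := congrArg Multiset.sum (Multiset.map_congr rfl fun y hy => by
  rw [mv, mv, max_eq_left ((Real.exp_le_exp.2 (neg_le_neg a)).trans (h y hy)),
    max_eq_left ((Real.exp_le_exp.2 (neg_le_neg b)).trans (h y hy))])

variable {x γ : Fin n → Ω} {s κ : ℝ}

theorem one (np : NP0) (hE : EV) (S : Se w E t u) (K : Ct w t Z μ) (B : Bg w E t u Z Ψ ε) (P : Pt w E u x γ)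
    (hX : Cor w t Z c d X) (D : Dat w E t u Z Ψ c x γ s κ d X) (hs : 2 * s ≤ vl w t) :
    κ * vl w t ≤ 4 * (n + 2) * vl w (γ c) := by
  have m := vl_pos S.t0 S.t1
  have r := rad_pos S P c
  have a := le_aa S P c
  obtain ⟨H, χ, h, N0, N1, -, g⟩ := D 4 x γ (aa w t c γ) (by norm_num) P (fun _ _ => rfl)
    (by linarith) (sub_le_self _ (m.le.trans (aa_ge P.op c)))
    fun y γ' p _ => sub_le_self _ (B.lc y γ' p)
  obtain ⟨T, b1, b2, b3, -⟩ := sheet np hE S h (op_cut P.op (c + 1)) (cut_mem P.tri c) N0 S.tE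
    S.t0 S.t1 (P.op c) (P.op c)
  have k := g 0 (vl w t) le_rfl m.le (by push_cast; linarith)
  have z : 0 ≤ fv w Z (X (Function.update (cut (c + 1) x) c (x c))) H 0 :=
    Multiset.sum_nonneg fun z hz => by
      obtain ⟨y, hy, rfl⟩ := Multiset.mem_map.1 hz
      simp [mv, K.le y H]
  have s := sum_le (T := T) (f := fun β => vl w (x c - β)) (g := fun _ => 0) (r := vl w (γ c))
    fun β hβ => (vl_le (P.tri.ne c) (tri_dist S P.tri c (b2 β hβ) ▸ le_max_left _ _)).trans_eq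
      (zero_add _).symm
  have d0 : (0 : ℝ) < d := Nat.cast_pos.2 hX.pos
  have N2 : (T.card : ℝ) ≤ d * (4 * (n + 2)) := by exact_mod_cast b1 ▸ N1
  rw [Multiset.map_const', Multiset.sum_replicate, smul_zero, ← b3] at s
  refine le_of_mul_le_mul_left ?_ d0
  nlinarith

theorem two (np : NP0) (hE : EV) (S : Se w E t u) (K : Ct w t Z μ) (B : Bg w E t u Z Ψ ε) (P : Pt w E u x γ)
    (hX : Cor w t Z c d X) (D : Dat w E t u Z Ψ c x γ s κ d X) (hs : 0 < s) (κ0 : 0 < κ) {C : ℝ}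
    (hC : 1 + (n + 2) / κ ≤ C) {a b : Ω} (ha : a ∈ Lv E u c) (hb : b ∈ E) (b0 : b ≠ 0)
    (a1 : w a < 1) (b1 : w b < 1) : 0 ≤ vl w (γ c) + vl w b - 2 * mv w (x c - a) (vl w b) ∧
    (2 * s + C * (vl w (γ c) + vl w b - 2 * mv w (x c - a) (vl w b)) ≤ vl w t →
    ∃ x' γ', Pt w E u (Z.co x') γ' ∧ (∀ j, c < j → Z.co x' j = x j) ∧ Z.co x' c = a + b * u c ∧
      Ψ x' ≤ 2 * s + C * (vl w (γ c) + vl w b - 2 * mv w (x c - a) (vl w b))) := by
  rw [mv, exp_vl b0]
  have r1 : w (γ c) ≤ max (w (x c - a)) (w b) :=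
    le_max_of_le_left (tri_dist S P.tri c ha ▸ le_max_left _ _)
  have r2 : w (a + b * u c - x c) ≤ max (w (x c - a)) (w b) := by
    have := na_sub S.vs.na (b * u c) (x c - a)
    rwa [map_mul, (S.tw c).one, mul_one, max_comm,
      show b * u c - (x c - a) = a + b * u c - x c by ring] at this
  have r3 := Real.log_le_log (w.pos (P.tri.ne c)) r1
  have r4 := Real.log_le_log (w.pos b0) (le_max_right (w (x c - a)) _)
  generalize max (w (x c - a)) (w b) = r at *
  have r5 : 0 ≤ vl w (γ c) + Real.log r := by rw [vl]; linarith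
  have r6 : 0 ≤ vl w b + Real.log r := by rw [vl]; linarith
  have r7 : w b ≤ r := by
    rwa [Real.log_le_log_iff (w.pos b0) ((w.pos (P.tri.ne c)).trans_le r1)] at r4
  refine ⟨by linarith, fun ht => by_contra fun hn => ?_⟩
  push Not at hn
  obtain ⟨e, he, e0, e1, e2⟩ := ex_val S (show 0 < s / (2 * (n + 1)) by positivity)
  obtain ⟨η, γ', p, p1, p2, p3, p4⟩ := new_pt S P c ha hb b0 a1 b1 he e0 (lt_one e0 e1)
  obtain ⟨η', rfl⟩ := K.ex η p.op
  have k1 := (hn η' γ' p p1 p2).trans_le ((B.up η' γ' p).trans p4)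
  generalize Z.co η' = η at p p1 p2
  rw [lt_div_iff₀ (by positivity)] at e2
  obtain ⟨m, hm⟩ := exists_nat_gt ((aa w t c γ + vl w (η c) + 2) / (s / 2))
  rw [div_lt_iff₀ (by positivity)] at hm
  have k2 := vl_nn (p.op c).le
  have k3 := le_aa S P c
  have k4 := rad_pos S P c
  have k5 := vl_pos S.t0 S.t1
  have m0 : (0 : ℝ) < m := pos_of_mul_pos_right (by linarith) (half_pos hs).le
  generalize hδ : vl w (γ c) + vl w b - 2 * -Real.log r = δ at hn k1 ht
  obtain ⟨φ, hφ⟩ : ∃ φ, φ = aa w t c γ' - (2 * s + C * δ) + s / 2 := ⟨_, rfl⟩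
  have φ0 : 0 ≤ φ := by linarith
  obtain ⟨H, χ, h, N0, N1, lo, g⟩ := D m η γ' φ (Nat.cast_pos.1 m0) p p1 φ0
    (by linarith [aa_ge (t := t) p.op c]) fun y γ'' q k => by
    have := hn y γ'' q (fun j l => (k j l.le).trans (p1 j l)) ((k c le_rfl).trans p2)
    linarith
  obtain ⟨θ₁, t1, t2, t3, t4⟩ := ex_val S (lt_add_one (m * φ + vl w (η c)))
  obtain ⟨θ₂, t5, t6, t7, t8⟩ := ex_val S (sub_one_lt (m * (aa w t c γ - s) - aa w t c γ))
  have δ0 : 0 ≤ δ := by linarith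
  have k6 : m * ((n + 2) / κ * δ) < vl w θ₂ - vl w θ₁ := by
    have := mul_le_mul_of_nonneg_right hC δ0
    have : (n + 2) / κ * δ ≤ vl w (γ c) - vl w b + C * δ := by linarith
    have := mul_le_mul_of_nonneg_left this m0.le
    rw [hφ, p3] at t4
    linarith
  have k7 : 0 ≤ m * ((n + 2) / κ * δ) := by positivity
  have k8 : 0 < vl w θ₁ := by linarith [mul_nonneg m0.le φ0]
  obtain ⟨T, b2, b3, b4, b5⟩ := sheet np hE S h (op_cut P.op (c + 1)) (cut_mem P.tri c) N0 t1 t2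
    (lt_one t2 k8) (P.op c) (p.op c)
  obtain ⟨T', b6, b7, b8, b9⟩ := sheet np hE S h (op_cut P.op (c + 1)) (cut_mem P.tri c) N0 t5 t6
    (lt_one t6 (by linarith)) (P.op c) (p.op c)
  have l1 : ∀ β ∈ Lv E u c, w (γ c) ≤ w (x c - β) := fun β k =>
    tri_dist S P.tri c k ▸ le_max_left _ _
  have l2 : ∀ β ∈ Lv E u c, w b ≤ w (η c - β) := fun β k =>
    p2 ▸ dist S ha hb b0 k ▸ le_max_left _ _
  have s1 := sum_le (T := T') fun β k => pw S.vs (P.tri.ne c) b0 (l1 β (b7 β k)) (l2 β (b7 β k))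
    r1 (p2 ▸ r2)
  have s2 := sum_le (T := T) fun β k => pw S.vs b0 (P.tri.ne c) (l2 β (b3 β k)) (l1 β (b3 β k))
    r7 (by rw [w.map_sub, p2]; exact r2)
  have s3 := g (vl w θ₁) (vl w θ₂) k8.le (by linarith) t8.le
  have s4 := fv_eq lo t3.le (show _ ≤ vl w θ₂ by linarith)
  have d0 : (0 : ℝ) < d := Nat.cast_pos.2 hX.pos
  have N2 : (T.card : ℝ) ≤ d * (m * (n + 2)) := by exact_mod_cast b2 ▸ N1
  rw [← b8, ← b9, b6, ← b2] at s1
  rw [← b4, ← b5] at s2
  have s5 := mul_le_mul_of_nonneg_right N2 δ0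
  have s6 := mul_lt_mul_of_pos_left k6 (mul_pos κ0 d0)
  have : κ * d * (m * ((n + 2) / κ * δ)) = d * (m * (n + 2)) * δ := by field_simp
  have := congrArg ((T.card : ℝ) * ·) hδ
  linarith

open Classical in
theorem three (np : NP0) (hE : EV) (aw : AW) (S : Se w E t u) (K : Ct w t Z μ) (B : Bg w E t u Z Ψ ε)
    (P : Pt w E u x γ) (hX : Cor w t Z c d X) (D : Dat w E t u Z Ψ c x γ s κ d X) (hs : 0 < s)
    (κ0 : 0 < κ) (h3 : 3 * s ≤ vl w (γ c)) : ∃ b ∈ E, b ≠ 0 ∧ w b < 1 ∧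
      vl w (γ c) - 3 * s ≤ vl w b ∧ vl w b ≤ vl w (γ c) ∧ ∃ (W : Polynomial (Pn n)) (k : ℕ),
        Dis W ∧ 0 < k ∧ κ / (6 * (n + 2)) * W.natDegree ≤ k ∧
        k ≤ ((W.map (ev t (cut (c + 1) x))).roots.filter
          fun β => w (β - (x c - γ c * u c)) ≤ w b).card := by
  obtain ⟨b, hb, b0, b1, b2⟩ := ex_val S (show vl w (γ c) - 3 * s < vl w (γ c) - 2 * s by linarith)
  have b3 := lt_one b0 (by linarith)
  have g1 := (rad_le S P c).trans_lt (P.op c)
  have a1 : w (x c - γ c * u c) < 1 := (na_sub S.vs.na _ _).trans_lt (max_lt (P.op c) (by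
    rwa [map_mul, (S.tw c).one, mul_one]))
  obtain ⟨η, γ', p, p1, p2, p3, -⟩ := new_pt S P c (P.tri.cen c) hb b0 a1 b3 S.tE S.t0 S.t1
  have k3 := le_aa S P c
  have k4 := rad_pos S P c
  have k5 := vl_pos S.t0 S.t1
  obtain ⟨m, hm⟩ := exists_nat_gt ((4 * aa w t c γ + 2) / s)
  rw [div_lt_iff₀ hs] at hm
  have m0 : (0 : ℝ) < m := pos_of_mul_pos_right (by linarith) hs.le
  have φ0 : 0 ≤ aa w t c γ' := by linarith
  obtain ⟨H, χ, h, N0, N1, lo, g⟩ := D m η γ' _ (Nat.cast_pos.1 m0) p p1 φ0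
    (sub_le_self _ (k5.le.trans (aa_ge p.op c))) fun y γ' p _ => sub_le_self _ (B.lc y γ' p)
  obtain ⟨θ, t1, t2, t3, t4⟩ := ex_val S (lt_add_one (m * aa w t c γ' + vl w (η c)))
  have l1 := fun β => tri_dist S P.tri c (β := β)
  have l2 : ∀ β ∈ Lv E u c, w (η c - β) = _ := fun β k => p2 ▸ dist S (P.tri.cen c) hb b0 k
  have l3 : w (γ c) ≤ w b := by
    rw [← exp_vl b0, ← exp_vl (P.tri.ne c), Real.exp_le_exp]; linarith
  have k6 : vl w (η c) ≤ vl w b := vl_le b0 (by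
    have := l2 0 (zero_mem _)
    rw [sub_zero] at this
    exact this ▸ le_max_left _ _)
  have k7 : m * s / 2 ≤ m * (aa w t c γ - s) - aa w t c γ - vl w θ := by
    have := mul_le_mul_of_nonneg_left b2.le m0.le
    rw [p3] at t4
    linarith
  have o := op_cut P.op (c + 1)
  obtain ⟨T, -, b4, b5, b6⟩ := sheet np hE S h o (cut_mem P.tri c) N0 t1 t2
    (lt_one t2 (by linarith [mul_nonneg m0.le φ0, vl_nn (p.op c).le])) (P.op c) (p.op c)
  have ne : ∀ β ∈ Lv E u c, x c - β ≠ 0 ∧ η c - β ≠ 0 := fun β k =>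
    ⟨w.pos_iff.1 (l1 β k ▸ lt_max_of_lt_left (w.pos (P.tri.ne c))),
      w.pos_iff.1 (l2 β k ▸ lt_max_of_lt_left (w.pos b0))⟩
  have s1 := Multiset.sum_map_le_sum_map (s := T) (fun β => vl w (η c - β))
    (fun β => vl w (x c - β)) fun β k => vl_le (ne β (b4 β k)).1 (by
      rw [l1 β (b4 β k), l2 β (b4 β k)]; exact max_le_max_right _ l3)
  have s2 := g (vl w θ) _ (by linarith [mul_nonneg m0.le φ0, vl_nn (p.op c).le])
    (by linarith [mul_pos m0 hs]) le_rfl
  rw [← b5, ← b6] at s1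
  have n1 := h.norm S.vs.na (op_up o c (P.op c))
  have n2 := h.norm S.vs.na (op_up o c (p.op c))
  rw [← ev_sub] at n1 n2
  have n3 := n1.trans_le ((Multiset.prod_map_le_prod_map₀ _ _ (fun _ _ => w.nonneg _)
    fun _ _ => le_max_left _ _).trans_eq (exp_fv _ H (m * (aa w t c γ - s) - aa w t c γ)).symm)
  have n4 := n2.trans ((congrArg Multiset.prod (Multiset.map_congr rfl fun y hy => (max_eq_left
    ((Real.exp_le_exp.2 (neg_le_neg t3.le)).trans (lo y hy))).symm)).trans (exp_fv _ H _).symm)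
  generalize fv w Z _ H (m * (aa w t c γ - s) - aa w t c γ) = F₂ at s2 n3
  generalize fv w Z (X (Function.update _ c (η c))) H _ = F₁ at s1 n4
  obtain ⟨W, w1, w2, w3⟩ := prep hE aw S o N0 (lt_min (Real.exp_pos (-F₂)) (Real.exp_pos (-F₁)))
  refine ⟨b, hb, b0, b3, b1.le, by linarith, W, _, w1, and_assoc.1 ⟨?_, le_rfl⟩⟩
  have mo := w1.1.map (ev t (cut (c + 1) x))
  have rt := (lv_cl u c).roots (f := W.map (ev t (cut (c + 1) x))) fun i => by
    rw [coeff_map]; exact ev_in S (le_lv u c) (cut_mem P.tri c) _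
  have pr : ∀ y, (∀ β ∈ Lv E u c, y - β ≠ 0) → (W.map (ev t (cut (c + 1) x))).eval y ≠ 0 ∧
      vl w ((W.map (ev t (cut (c + 1) x))).eval y) =
        ((W.map (ev t (cut (c + 1) x))).roots.map fun β => vl w (y - β)).sum := fun y k => by
    rw [(IsAlgClosed.splits _).eval_eq_prod_roots, mo.leadingCoeff, one_mul]
    have z : ((W.map (ev t (cut (c + 1) x))).roots.map fun β => y - β).prod ≠ 0 :=
      Multiset.prod_ne_zero fun e => by
        obtain ⟨β, hβ, e⟩ := Multiset.mem_map.1 e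
        exact k β (rt β hβ) e
    exact ⟨z, by rw [vl_prod z, Multiset.map_map]; rfl⟩
  obtain ⟨v1, v2⟩ := pr _ fun β k => (ne β k).1
  obtain ⟨-, v3⟩ := pr _ fun β k => (ne β k).2
  obtain ⟨z, z', z1, z2, z3⟩ := w3 _ (P.op c)
  obtain ⟨y, y', y1, y2, y3⟩ := w3 _ (p.op c)
  have v4 : F₂ ≤ vl w ((W.map (ev t (cut (c + 1) x))).eval (x c)) := by
    have := (na_sub S.vs.na _ z').trans (max_le n3 (z2.trans_le (min_le_left _ _)).le)
    have := Real.log_le_log (w.pos v1) ((mul_one _).symm.trans_le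
      (z1 ▸ (map_mul w _ _).symm.trans_le ((congrArg w z3).trans_le this)))
    rw [Real.log_exp] at this
    rw [vl]
    linarith
  have v5 : vl w ((W.map (ev t (cut (c + 1) x))).eval (η c)) = F₁ := by
    have := (congrArg w y3).trans ((na_sub_lt S.vs.na
      ((y2.trans_le (min_le_right _ _)).trans_eq n4.symm)).trans n4)
    rw [map_mul, y1, mul_one] at this
    rw [vl, this, Real.log_exp, neg_neg]
  generalize (W.map (ev t (cut (c + 1) x))).roots = R at *
  rw [← R.filter_add_not fun β => w (β - (x c - γ c * u c)) ≤ w b, Multiset.map_add,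
    Multiset.sum_add] at v2 v3
  have s3 := sum_le (T := R.filter fun β => w (β - (x c - γ c * u c)) ≤ w b)
    (f := fun β => vl w (x c - β)) (g := fun β => vl w (η c - β)) (r := 3 * s) fun β k => by
      obtain ⟨k, k'⟩ := Multiset.mem_filter.1 k
      have := vl_le (w := w) (P.tri.ne c) (l1 β (rt β k) ▸ le_max_left _ _)
      have e : vl w (η c - β) = vl w b := by rw [vl, l2 β (rt β k), max_eq_left k', vl]
      linarith
  have s4 := congrArg Multiset.sum (Multiset.map_congr (f := fun β => vl w (x c - β))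
    (g := fun β => vl w (η c - β)) (rfl : R.filter (fun β => ¬ w (β - (x c - γ c * u c)) ≤ w b) = _)
    fun β k => by
      obtain ⟨k, k'⟩ := Multiset.mem_filter.1 k
      rw [vl, vl, l1 β (rt β k), l2 β (rt β k), max_eq_right (not_le.1 k').le,
        max_eq_right (l3.trans (not_le.1 k').le)])
  generalize (R.filter fun β => w (β - (x c - γ c * u c)) ≤ w b).card = k at *
  have d0 : (0 : ℝ) < d := Nat.cast_pos.2 hX.pos
  have s5 : κ * d * m ≤ 6 * k := le_of_mul_le_mul_right (by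
    linarith [mul_le_mul_of_nonneg_left k7 (mul_pos κ0 d0).le]) hs
  have N2 : (W.natDegree : ℝ) ≤ d * (m * (n + 2)) := by exact_mod_cast w2 ▸ N1
  refine ⟨Nat.cast_pos.1 (show (0 : ℝ) < k by linarith [mul_pos (mul_pos κ0 d0) m0]),
    (mul_le_mul_of_nonneg_left N2 (by positivity)).trans ?_⟩
  rw [show κ / (6 * (n + 2)) * (d * (m * (n + 2))) = κ * d * m / 6 by field_simp]
  linarith

end Ky

open Ls Ls.Ky Ky in
theorem keys : KEYS := fun np hE aw n μ c ⟨C, κ, σ, hC, κ0, σ0, h⟩ => by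
  have k0 : 0 ≤ (n + 2 : ℝ) / κ := by positivity
  refine ⟨3 * C + (1 + (n + 2) / κ), κ / (6 * (n + 2)),
    min σ (min (1 / (2 * C)) (κ / (6 * (n + 2)) / (3 * C))), by linarith, by positivity,
    by positivity, fun Ω _ _ _ w E t u S A I _ Z Ψ ε K B x γ s P s0 hs hσ => ?_⟩
  have m := vl_pos S.t0 S.t1
  have l : ∀ {a}, min σ (min (1 / (2 * C)) (κ / (6 * (n + 2)) / (3 * C))) ≤ a → s ≤ a * vl w t :=
    fun k => hσ.trans (mul_le_mul_of_nonneg_right k m.le)
  obtain ⟨d, X, hX, D⟩ := dat hE S K B P fun D hD hU =>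
    h Ω w E t u S A I Z Ψ ε D K B hD hU x γ s P s0 hs (l (min_le_left _ _))
  have l1 := l ((min_le_right _ _).trans (min_le_left _ _))
  have l2 := l ((min_le_right _ _).trans (min_le_right _ _))
  rw [div_mul_eq_mul_div, le_div_iff₀ (by positivity)] at l1 l2
  have a := one np hE S K B P hX D (by linarith)
  have a' : κ / (6 * (n + 2)) * vl w t ≤ vl w (γ c) := by
    rw [div_mul_eq_mul_div, div_le_iff₀ (by positivity)]
    nlinarith [rad_pos S P c, (Nat.cast_nonneg n : (0 : ℝ) ≤ n)]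
  have s1 : 0 < C * s := by positivity
  refine ⟨a', fun a ha b hb b0 a1 b1 ht => ?_, ?_⟩
  · obtain ⟨k, k'⟩ := two np hE S K B P hX D s1 κ0 le_rfl ha hb b0 a1 b1
    have i : 2 * (C * s) + (1 + (n + 2) / κ) * (vl w (γ c) + vl w b -
        2 * mv w (Z.co x c - a) (vl w b)) ≤ (3 * C + (1 + (n + 2) / κ)) *
        (s + vl w (γ c) + vl w b - 2 * mv w (Z.co x c - a) (vl w b)) := by
      nlinarith [mul_nonneg (zero_le_one.trans hC) k]
    obtain ⟨x', γ', p, p1, p2, p3⟩ := k' (i.trans ht)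
    exact ⟨x', γ', p, p1, p2, p3.trans i⟩
  · obtain ⟨b, hb, b0, b1, b2, b3⟩ := three np hE aw S K B P hX D s1 κ0 (by linarith)
    exact ⟨b, hb, b0, b1, by nlinarith, b3⟩

end Vale.Agent.P283B.Lm
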