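import Vale.Agent.P283B.LM.St
import Vale.Agent.P283B.LS.Sl1
import Vale.Agent.P287D.Pr.Lr

/-!
# P283B, block LM: a klt pair whose boundary contains a given divisor of the base
-/

set_option linter.unusedVariables false

open Set
open Vale.Agent.P287D Vale.Agent.P287D.Cb
open Vale.Agent.P297Z

noncomputable section

namespace Vale.Agent.P283B.Lm

open Ls Ls.Sl

/-- **PERT** -/
theorem pert : PERT := fun n K _ _ hK Λ s₀ R₀ D ft nh hD D0 => by
  obtain ⟨Γ, c, k, b, ne, bg⟩ := ft.ex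
  have nz : Nz s₀ := by_contra fun z => nh (by
    rw [mx_of_not z, fld_prn hK (zero_mem _)]
    rintro _ ⟨c, rfl⟩
    exact R₀.con c)
  obtain ⟨g, hg, ch⟩ := On.exists_ch nz R₀
  have hB : ∀ b : On.Bf s₀ g, (b : K) ∈ Oz s₀ R₀ := fun b Q o =>
    (ch.of_cle o).mem _ (On.Bf_le ch.ne b.2)
  have a1 : IsAlgebraic (IntermediateField.adjoin ℂ ((· / g) '' s₀)) D⁻¹ :=
    On.alg_mono Subtype.val_injective Subtype.val_injective (fun r => ⟨⟨r, rts_le_iff.2
      (fun a ha b hb => by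
        rw [← div_div_div_cancel_right₀ ch.ne]
        exact div_mem (IntermediateField.subset_adjoin _ _ ⟨a, ha, rfl⟩)
          (IntermediateField.subset_adjoin _ _ ⟨b, hb, rfl⟩)) r.2⟩, rfl⟩)
      ((mem_fld_mx hK).1 (inv_mem (oz_le hK hD)))
  obtain ⟨a, a0, i⟩ := (IntermediateField.isAlgebraic_adjoin_iff.1 a1).exists_integral_multiple
  have a2 : (a : K) ≠ 0 := fun z => a0 (Subtype.ext z)
  obtain ⟨m, hm⟩ := On.Bf_le ch.ne a.2 ch.sec
  have r := hm.rep (mul_ne_zero a2 (pow_ne_zero m ch.ne))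
  set G := dv (a * g ^ m) + (m : ℝ) • mx s₀
  obtain ⟨t, t0, ht⟩ := Pr.klt_open hK (Γ := Γ) (F := G)
    (by simpa using sub_mem (Submodule.smul_mem _ c (mx_mem_Car s₀)) ne.car)
    (add_mem (dv_mem_Car _) (Submodule.smul_mem _ _ (mx_mem_Car _))) k
  have pr : (c + t * m) • mx s₀ - (Γ + t • G) - (c • mx s₀ - Γ) ∈ Prn K := by
    rw [show (c + t * m) • mx s₀ - (Γ + t • G) - (c • mx s₀ - Γ) =
      -(t • (G - (m : ℝ) • mx s₀)) by module]
    exact neg_mem (Submodule.smul_mem _ _ r.2)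
  refine ⟨Γ + t • G, c + t * m, t, t0, ht t (abs_of_pos t0).le, fun P o => ?_, ne.congr pr,
    bg.congr pr, fun w Q o ov l p => ?_⟩
  · rw [Pr.dsc_add_smul]
    linarith [b P o, mul_nonneg t0.le (r.1 P)]
  · have e : G w = w.ord a := (ch.of_cle ov).val a2 m
    have h1 := Pl.ord_nonneg_of_mem _ (int_mem (P := w) (fun a => hB a w ov) i)
    rw [show a • D⁻¹ = a / D from (div_eq_mul_inv _ _).symm, Pl.ord_div _ a2 D0] at h1
    have h2 : w.ord a = _ := l.ord ⟨a, oz_le hK (hB a)⟩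
    have h3 := le_mul_of_one_le_right l.e_pos.le
      ((l.ord_pos_iff ⟨a, oz_le hK (hB a)⟩).1 (show 0 < w.ord a by omega))
    rw [← h2, ← Int.cast_le (R := ℝ)] at h3
    rw [ld, Pr.dsc_add_smul, e]
    linarith [b w o, mul_le_mul_of_nonneg_left h3 t0.le]

end Vale.Agent.P283B.Lm
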