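import Vale.Agent.P283B.LM.St
import Vale.Agent.P283B.MONO.Br
import Vale.Agent.P283B.LS.Slm

/-!
# P283B, block LM: the ramification index is at most the number of sheets
-/

set_option linter.unusedVariables false
set_option linter.unusedSectionVars false

open Set Polynomial
open Vale.Agent.P287D Vale.Agent.P287D.Cb
open Vale.Agent.P297Z

noncomputable section

namespace Vale.Agent.P283B.Lm

open Mb Ls

namespace Ra

variable {K L Ω : Type} [Field K] [Algebra ℂ K] [Field L] [Algebra ℂ L] [Field Ω] {n : ℕ}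

section ev

variable {φ : K →+* L} {u : Pl L} {v : Pl K}

/-- the value of a polynomial over the valuation ring -/
abbrev eV {L : Type} [Field L] (φ : K →+* L) (v : Pl K) (x : L) (p : v.ring[X]) : L :=
  p.eval₂ (φ.comp v.ring.subtype) x

theorem eV_eq (l : Lies φ u v) {x : L} (hx : x ∈ u.ring) (p : v.ring[X]) :
    eV φ v x p = (p.map (Pb.rh l)).eval (⟨x, hx⟩ : u.ring) := by
  rw [eval_map]
  exact (hom_eval₂ p (Pb.rh l) u.ring.subtype ⟨x, hx⟩).symm

theorem eV_mem (l : Lies φ u v) {x : L} (hx : x ∈ u.ring) (p : v.ring[X]) :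
    eV φ v x p ∈ u.ring := eV_eq l hx p ▸ Subtype.prop _

theorem rd_eV (l : Lies φ u v) {x : L} (hx : x ∈ u.ring) (p : v.ring[X]) :
    u.rd (eV φ v x p) = (p.map (Gm.rdA v)).eval₂ l.κ (u.rd x) := by
  rw [eV_eq l hx, rd_of (Subtype.prop _), eval_map, eval₂_map, rd_of hx]
  exact hom_eval₂ p (Pb.rh l) (Gm.rdA u) ⟨x, hx⟩

theorem eV_add (l : Lies φ u v) {x y : L} (hx : x ∈ u.ring) (hy : y ∈ u.ring) (p : v.ring[X]) :
    ∃ c ∈ u.ring, eV φ v (x + y) p = c * y ^ 2 + eV φ v x p.derivative * y + eV φ v x p := by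
  obtain ⟨c, e⟩ := exists_mul_sq_add_linear_part_eq_eval_add (p.map (Pb.rh l)) ⟨x, hx⟩ ⟨y, hy⟩
  refine ⟨c, c.2, ?_⟩
  rw [eV_eq l (add_mem hx hy), eV_eq l hx, eV_eq l hx, ← derivative_map]
  exact (congrArg Subtype.val e).symm

theorem ord_one {a b : L} (h : u.ord a = 1) (k : b / u.t ^ 2 ∈ u.ring) : u.ord (b + a) = 1 := by
  have a0 : a ≠ 0 := fun e => by simp [e] at h
  by_cases b0 : b = 0
  · rwa [b0, zero_add]
  have := Pl.ord_nonneg_of_mem _ k
  rw [Pl.ord_div _ b0 (pow_ne_zero _ u.t_ne), Pl.ord_pow, u.ord_t] at this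
  rw [add_comm, Pl.ord_add_eq_of_lt _ a0 b0 (by omega), h]

end ev

variable [Algebra K L] [IsScalarTower ℂ K L] [FiniteDimensional K L] {u : Pl L} {v : Pl K}

theorem exists_gen (hK : FF K (n + 1)) (l : Lies (algebraMap K L) u v) :
    ∃ (ρ : L) (g : v.ring[X]), (∀ Q, Lies (algebraMap K L) Q v → ρ ∈ Q.ring) ∧
      u.ord (eV (algebraMap K L) v ρ g) = 1 ∧
      (∀ Q, Lies (algebraMap K L) Q v → Mx Q (eV (algebraMap K L) v ρ g) → Q = u) ∧
      Irreducible (g.map (Gm.rdA v)) ∧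
      (∀ p, Mx u (eV (algebraMap K L) v ρ p) → g.map (Gm.rdA v) ∣ p.map (Gm.rdA v)) ∧
      ∀ a ∈ u.ring, ∃ p, Mx u (a - eV (algebraMap K L) v ρ p) := by
  let _ : Algebra v.κ u.κ := l.κ.toAlgebra
  have : IsScalarTower ℂ v.κ u.κ := .of_algebraMap_eq fun c => by
    rw [← rd_const, ← rd_const, IsScalarTower.algebraMap_apply ℂ K L]
    exact (l.isRd _ (v.con c)).symm
  have := Pb.fin_of_ff (Gm.ff_κ v hK) (Gm.ff_κ u (ff_up hK))
  have : CharZero v.κ := charZero_of _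
  obtain ⟨α, hα⟩ := Field.exists_primitive_element v.κ u.κ
  have ai : IsIntegral v.κ α := .of_finite _ _
  obtain ⟨g, hg⟩ := map_surjective _ (Gm.rdA_surj v) (minpoly v.κ α)
  obtain ⟨r₀, m₀, e₀⟩ := rd_surj α
  have z : ∀ x ∈ u.ring, u.rd x = α → ∀ p, Mx u (eV (algebraMap K L) v x p) ↔
      aeval α (p.map (Gm.rdA v)) = 0 := fun x hx e p => by
    rw [← rd_eq_zero (eV_mem l hx p), rd_eV l hx, e]
    rfl
  have ad : ∀ x ∈ u.ring, u.rd x = α → ∀ y, Mx u y → u.rd (x + y) = α := fun x hx e y hy => by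
    rw [rd_add hx hy.mem, e, (rd_eq_zero hy.mem).2 hy, add_zero]
  obtain ⟨r₁, m₁, e₁, o₁⟩ : ∃ r ∈ u.ring, u.rd r = α ∧ u.ord (eV (algebraMap K L) v r g) = 1 := by
    by_cases o : u.ord (eV (algebraMap K L) v r₀ g) = 1
    · exact ⟨r₀, m₀, e₀, o⟩
    have t1 : Mx u u.t := mul_one u.t ▸ mx_t (one_mem _)
    refine ⟨r₀ + u.t, add_mem m₀ (t_mem u), ad _ m₀ e₀ _ t1, ?_⟩
    obtain ⟨c, hc, e⟩ := eV_add l m₀ (t_mem u) g
    have d : ¬ Mx u (eV (algebraMap K L) v r₀ g.derivative) := by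
      rw [z _ m₀ e₀, ← derivative_map, hg]
      exact (Algebra.IsSeparable.isSeparable v.κ α).aeval_derivative_ne_zero (minpoly.aeval _ _)
    rw [mx_iff, not_or, not_lt] at d
    rw [e, add_right_comm]
    refine ord_one (by
      rw [Pl.ord_mul _ d.1 u.t_ne, u.ord_t,
        le_antisymm d.2 (Pl.ord_nonneg_of_mem _ (eV_mem l m₀ _)), zero_add]) ?_
    rw [add_div, mul_div_cancel_right₀ _ (pow_ne_zero _ u.t_ne)]
    refine add_mem hc ?_
    rcases mx_iff.1 ((z _ m₀ e₀ g).2 (hg ▸ minpoly.aeval _ _)) with k | k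
    · simp [k]
    refine mem_ord ?_
    rw [Pl.ord_div _ (fun e => by simp [e] at k) (pow_ne_zero _ u.t_ne), Pl.ord_pow, u.ord_t]
    omega
  have fS : {Q | Lies (algebraMap K L) Q v ∧ Q ≠ u}.Finite := (Pb.fin_above v).subset fun _ h => h.1
  obtain ⟨a, a1, a2⟩ := Wp.wk u fS fun h => h.2 rfl
  obtain ⟨c, hc⟩ : ∃ c : ℂ, (minpoly v.κ α).eval (algebraMap ℂ v.κ c) ≠ 0 := by
    by_contra! k
    exact minpoly.ne_zero ai (eq_zero_of_infinite_isRoot _ (infinite_of_injective_forall_mem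
      (algebraMap ℂ v.κ).injective k))
  obtain ⟨N, hN⟩ := (fS.image fun Q => (Q.ord (r₁ - algebraMap ℂ L c)).natAbs).bddAbove
  have a0 : a ≠ 0 := fun e => by simp [e] at a1
  have b0 : a ^ (N + 2) ≠ 0 := pow_ne_zero _ a0
  have u1 : 2 ≤ u.ord (a ^ (N + 2)) := by rw [Pl.ord_pow]; push_cast; nlinarith
  have s0 : 1 + a ^ (N + 2) ≠ 0 := fun e => by
    rw [eq_neg_of_add_eq_zero_right e] at u1
    simp at u1
  have u2 : u.ord (1 + a ^ (N + 2)) = 0 := by
    rw [Pl.ord_add_eq_of_lt _ one_ne_zero b0 (by rw [Pl.ord_one]; omega), Pl.ord_one]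
  let y := (algebraMap ℂ L c - r₁) * (a ^ (N + 2) / (1 + a ^ (N + 2)))
  have y2 : y / u.t ^ 2 ∈ u.ring := by
    rw [mul_div_assoc]
    refine mul_mem (sub_mem (u.con c) m₁) (mem_ord ?_)
    rw [Pl.ord_div _ (div_ne_zero b0 s0) (pow_ne_zero _ u.t_ne), Pl.ord_div _ b0 s0, u2,
      Pl.ord_pow _ u.t, u.ord_t]
    omega
  have y1 : Mx u y := by
    have := mul_mem y2 (t_mem u)
    rwa [sq, div_mul_eq_div_div, div_mul_cancel₀ _ u.t_ne] at this
  have q : ∀ Q, Lies (algebraMap K L) Q v → Q ≠ u → Mx Q (r₁ + y - algebraMap ℂ L c) :=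
    fun Q lQ ne => by
      rw [show r₁ + y - algebraMap ℂ L c = (r₁ - algebraMap ℂ L c) / (1 + a ^ (N + 2)) by
        simp only [y]; field_simp; ring]
      by_cases e : r₁ - algebraMap ℂ L c = 0
      · simpa [e] using mx_zero
      have := hN (mem_image_of_mem _ ⟨lQ, ne⟩)
      have := a2 Q ⟨lQ, ne⟩
      have k : Q.ord (a ^ (N + 2)) < -N := by rw [Pl.ord_pow]; push_cast; nlinarith
      refine mx_iff.2 (.inr ?_)
      rw [Pl.ord_div _ e s0, add_comm, Pl.ord_add_eq_of_lt _ b0 one_ne_zero (by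
        rw [Pl.ord_one]; omega)]
      omega
  have m₂ := add_mem m₁ y1.mem
  have e₂ := ad _ m₁ e₁ _ y1
  have qm : ∀ Q, Lies (algebraMap K L) Q v → r₁ + y ∈ Q.ring := fun Q lQ => by
    by_cases e : Q = u
    · exact e ▸ m₂
    · simpa using add_mem (q Q lQ e).mem (Q.con c)
  refine ⟨r₁ + y, g, qm, ?_, fun Q lQ k => by_contra fun ne => hc ?_,
    hg ▸ minpoly.irreducible ai, fun p k => hg ▸ minpoly.dvd _ _ ((z _ m₂ e₂ p).1 k),
    fun b hb => ?_⟩
  · obtain ⟨c', hc', e⟩ := eV_add l m₁ y1.mem g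
    rw [e]
    refine ord_one o₁ ?_
    rw [show (c' * y ^ 2 + eV (algebraMap K L) v r₁ g.derivative * y) / u.t ^ 2 =
      (c' * y + eV (algebraMap K L) v r₁ g.derivative) * (y / u.t ^ 2) by ring]
    exact mul_mem (add_mem (mul_mem hc' y1.mem) (eV_mem l m₁ _)) y2
  · have e : Q.rd (r₁ + y) = lQ.κ (algebraMap ℂ v.κ c) := by
      rw [← sub_add_cancel (r₁ + y) (algebraMap ℂ L c), rd_add (q Q lQ ne).mem (Q.con c),
        (rd_eq_zero (q Q lQ ne).mem).2 (q Q lQ ne), zero_add, ← rd_const,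
        IsScalarTower.algebraMap_apply ℂ K L]
      exact (lQ.isRd _ (v.con c)).symm
    rw [← rd_eq_zero (eV_mem lQ (qm Q lQ) g), rd_eV lQ (qm Q lQ), hg, e, eval₂_at_apply] at k
    exact (_root_.map_eq_zero _).1 k
  · have : u.rd b ∈ Algebra.adjoin v.κ {α} := by
      rw [← IntermediateField.adjoin_simple_toSubalgebra_of_isAlgebraic ai.isAlgebraic, hα]
      trivial
    rw [Algebra.adjoin_singleton_eq_range_aeval] at this
    obtain ⟨p, hp⟩ := this
    obtain ⟨p, rfl⟩ := map_surjective _ (Gm.rdA_surj v) p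
    refine ⟨p, (rd_eq_zero (sub_mem hb (eV_mem l m₂ p))).1 ?_⟩
    rw [rd_sub hb (eV_mem l m₂ p), rd_eV l m₂, e₂]
    exact sub_eq_zero.2 hp.symm

open Classical in
/-- **the ramification index is at most the number of embeddings with the same reduction** -/
theorem ram_core [Algebra K Ω] [Algebra L Ω] [IsScalarTower K L Ω] [IsAlgClosed Ω]
    {w : AbsoluteValue Ω ℝ} (hK : FF K (n + 1)) (l : Lies (algebraMap K L) u v)
    (hw : IsNonarchimedean w) (h : Pw w (algebraMap L Ω) u) :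
    ∃ T : Finset (L →ₐ[K] Ω), u.ord (algebraMap K L v.t) ≤ T.card ∧
      ∀ σ ∈ T, ∀ a ∈ u.ring, w (σ a - algebraMap L Ω a) < 1 := by
  obtain ⟨ρ, g, m, o, un, ir, dv, gen⟩ := exists_gen hK l
  have : CharZero K := charZero_of _
  have hv : Pw w (algebraMap K Ω) v := IsScalarTower.algebraMap_eq K L Ω ▸ h.of l
  have up : ∀ σ : L →ₐ[K] Ω, ∃ Q, Pw w (σ : L →+* Ω) Q ∧ Lies (algebraMap K L) Q v := fun σ => by
    have : Pw w ((σ : L →+* Ω).comp (algebraMap K L)) v := σ.comp_algebraMap ▸ hv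
    obtain ⟨Q, hQ⟩ := exists_up hw this
    exact ⟨Q, hQ, hQ.lies this⟩
  let V := vr hw (RingHom.id Ω)
  let j : v.ring →+* V := Pb.rh (φ := algebraMap K Ω) hv
  have rs : ∀ a : V, IsLocalRing.residue V a = 0 ↔ w a < 1 := fun a => by
    rw [IsLocalRing.residue_eq_zero_iff, ← ValuationSubring.coe_mem_nonunits_iff,
      ValuationSubring.mem_nonunits_iff_or]
    change _ ∨ ¬ w _ ≤ 1 ↔ _
    by_cases a0 : (a : Ω) = 0
    · simp [a0]
    · simp [a0, one_lt_inv₀ (w.pos a0)]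
  have ev : ∀ (σ : L →ₐ[K] Ω) (hs : σ ρ ∈ V) (p : v.ring[X]),
      σ (eV (algebraMap K L) v ρ p) = (p.map j).eval ⟨σ ρ, hs⟩ := fun σ hs p => by
    rw [eval_map]
    refine (hom_eval₂ p _ (σ : L →+* Ω) ρ).trans (.trans ?_ (hom_eval₂ p j V.subtype _).symm)
    rw [← RingHom.comp_assoc, σ.comp_algebraMap]
    rfl
  have sm : ∀ σ : L →ₐ[K] Ω, σ ρ ∈ V := fun σ => let ⟨Q, a, b⟩ := up σ; (a _).1 (m Q b)
  let ι := IsScalarTower.toAlgHom K L Ω
  have cg : ∀ σ : L →ₐ[K] Ω, w (σ ρ - ι ρ) < 1 → ∀ p,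
      w (σ (eV (algebraMap K L) v ρ p) - ι (eV (algebraMap K L) v ρ p)) < 1 := fun σ k p => by
    obtain ⟨c, hc⟩ := sub_dvd_eval_sub (⟨σ ρ, sm σ⟩ : V) ⟨ι ρ, sm ι⟩ (p.map j)
    rw [ev σ (sm σ), ev ι (sm ι), ← AddSubgroupClass.coe_sub, hc, MulMemClass.coe_mul, map_mul]
    exact mul_lt_one_of_nonneg_of_lt_one_left (w.nonneg _) k c.2
  have ad : ∀ a b, w a < 1 → w b < 1 → w (a + b) < 1 := fun a b x y => (hw a b).trans_lt (max_lt x y)
  have g1 : w (ι (eV (algebraMap K L) v ρ g)) < 1 := h.lt (mx_iff.2 (.inr (o ▸ one_pos)))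
  refine ⟨Finset.univ.filter fun σ => w (σ ρ - ι ρ) < 1, ?_, fun σ hσ a ha => ?_⟩
  swap
  · have k := (Finset.mem_filter.1 hσ).2
    obtain ⟨Q, a1, a2⟩ := up σ
    obtain rfl : Q = u := un Q a2 (a1.mx (by simpa using ad _ _ (cg σ k g) g1))
    obtain ⟨p, hp⟩ := gen a ha
    have := ad _ _ (ad _ _ (a1.lt hp) (cg σ k p)) (w.map_neg _ ▸ h.lt hp)
    simpa [ι] using this
  have ri : IsIntegral K ρ := .of_finite _ _
  have rt : ∀ β ∈ (minpoly K ρ).aroots Ω, ∃ σ : L →ₐ[K] Ω, σ ρ = β := fun β hβ =>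
    (Algebra.IsAlgebraic.range_eval_eq_rootSet_minpoly Ω ρ).ge (Multiset.mem_toFinset.2 hβ)
  obtain ⟨R, hR⟩ : ∃ R : Multiset V, R.map Subtype.val = (minpoly K ρ).aroots Ω :=
    CanLift.prf _ fun β hβ => let ⟨σ, e⟩ := rt β hβ; e ▸ sm σ
  have e1 : (R.map fun β => X - C β).prod.map V.subtype = (minpoly K ρ).map (algebraMap K Ω) := by
    rw [(IsAlgClosed.splits ((minpoly K ρ).map (algebraMap K Ω))).eq_prod_roots_of_monic
      ((minpoly.monic ri).map _), ← aroots_def, ← hR, Polynomial.map_multiset_prod]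
    simp
  obtain ⟨f, hf⟩ : minpoly K ρ ∈ lifts v.ring.subtype := (lifts_iff_coeff_lifts _).2 fun i =>
    ⟨⟨(minpoly K ρ).coeff i, (hv _).2 (by
      rw [← coeff_map, ← e1, coeff_map]; exact Subtype.prop (p := (· ∈ V)) _)⟩, rfl⟩
  have e2 : f.map j = (R.map fun β => X - C β).prod := map_injective _ V.subtype_injective (by
    rw [e1, ← show f.map _ = _ from hf, map_map, map_map]; rfl)
  have fm : f.Monic := monic_of_injective v.ring.subtype_injective
    ((show f.map _ = _ from hf) ▸ minpoly.monic ri)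
  obtain ⟨k, r, nd, hk⟩ := WfDvdMonoid.max_power_factor (fm.map (Gm.rdA v)).ne_zero ir
  obtain ⟨r, rfl⟩ := map_surjective _ (Gm.rdA_surj v) r
  obtain ⟨b, hb⟩ : C (⟨v.t, Gm.t_mem v⟩ : v.ring) ∣ f - g ^ k * r :=
    (C_dvd_iff_dvd_coeff _ _).2 fun i => by
      have x : Gm.rdA v ((f - g ^ k * r).coeff i) = 0 := by
        rw [← coeff_map, Polynomial.map_sub, Polynomial.map_mul, Polynomial.map_pow, hk, sub_self,
          coeff_zero]
      exact ⟨⟨_, (rd_eq_zero ((f - g ^ k * r).coeff i).2).1 ((rd_of _).trans x)⟩,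
        Subtype.ext (mul_div_cancel₀ _ v.t_ne).symm⟩
  have le1 : u.ord (algebraMap K L v.t) ≤ k := by
    have x := congrArg (eV (algebraMap K L) v ρ) hb
    have f0 : eV (algebraMap K L) v ρ f = 0 := by
      rw [eV, ← eval₂_map, show f.map _ = _ from hf]; exact minpoly.aeval K ρ
    have r0 := mt (dv r) nd
    rw [mx_iff, not_or, not_lt] at r0
    have g0 : eV (algebraMap K L) v ρ g ≠ 0 := fun e => by simp [e] at o
    simp only [eV, eval₂_sub, eval₂_mul, eval₂_pow, eval₂_C] at x f0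
    rw [f0, zero_sub] at x
    change _ = algebraMap K L v.t * _ at x
    have b0 : eV (algebraMap K L) v ρ b ≠ 0 := fun e => mul_ne_zero (pow_ne_zero k g0) r0.1
      (neg_eq_zero.1 (x.trans (mul_eq_zero_of_right _ e)))
    have y := congrArg u.ord x
    rw [Pl.ord_neg, Pl.ord_mul _ (pow_ne_zero k g0) r0.1, Pl.ord_pow, o,
      Pl.ord_mul _ ((_root_.map_ne_zero _).2 v.t_ne) b0] at y
    have := Pl.ord_nonneg_of_mem _ (eV_mem l (m u l) b)
    linarith [r0.2]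
  let π := IsLocalRing.residue V
  have e3 : ((R.map π).map fun β => X - C β).prod = ((g.map j).map π) ^ k * (r.map j).map π := by
    have x := congrArg (fun p => (Polynomial.map j p).map π) hb
    have t0 : π (j ⟨v.t, Gm.t_mem v⟩) = 0 := (rs _).2 (hv.lt (mx_iff.2 (.inr (v.ord_t.symm ▸ one_pos))))
    simp only [Polynomial.map_sub, Polynomial.map_mul, Polynomial.map_pow, map_C, t0, map_zero,
      zero_mul, sub_eq_zero] at x
    rw [← x, e2, Polynomial.map_multiset_prod]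
    simp
  have le2 : k ≤ (R.map π).count (π ⟨ι ρ, sm ι⟩) := by
    rw [← roots_multiset_prod_X_sub_C (R.map π), count_roots,
      le_rootMultiplicity_iff (monic_multiset_prod_of_monic _ _ fun _ _ => monic_X_sub_C _).ne_zero,
      e3]
    refine (pow_dvd_pow_of_dvd (dvd_iff_isRoot.2 ?_) k).mul_right _
    rw [IsRoot, eval_map, eval₂_at_apply, rs, ← ev ι (sm ι)]
    exact g1
  have nd : R.Nodup := Multiset.Nodup.of_map Subtype.val (by
    rw [hR]; exact nodup_roots (Separable.map (Algebra.IsSeparable.isSeparable K ρ)))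
  rw [Multiset.count_map, ← Multiset.toFinset_card_of_nodup (nd.filter _)] at le2
  refine le1.trans (Int.ofNat_le.2 (le2.trans (Finset.card_le_card_of_surjOn
    (fun σ => (⟨σ ρ, sm σ⟩ : V)) fun β hβ => ?_)))
  obtain ⟨b1, b2⟩ := Multiset.mem_filter.1 (Multiset.mem_toFinset.1 hβ)
  obtain ⟨σ, e⟩ := rt β (hR ▸ Multiset.mem_map_of_mem _ b1)
  refine ⟨σ, Finset.mem_coe.2 (Finset.mem_filter.2 ⟨Finset.mem_univ _, ?_⟩), Subtype.ext e⟩
  rw [e]
  exact (rs (β - ⟨ι ρ, sm ι⟩)).1 (by rw [map_sub, sub_eq_zero]; exact b2.symm)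

theorem icl_mem {ι : Type} {y : ι → L} {P : Pl L} (h : Fi y P) {a : L} (ha : a ∈ Icl y) :
    a ∈ P.ring := Sl.int_mem (fun b => adj_mem (range_subset_iff.2 h) b.2) ha

end Ra

/-- **RAM** -/
theorem ram : RAM := fun L M ι _ _ _ _ _ z φ hz hM c T P v hc ge l => by
  let _ : Algebra L M := (φ : L →+* M).toAlgebra
  have : IsScalarTower ℂ L M := .of_algebraMap_eq fun c => (φ.commutes c).symm
  have hL := Sl.rf_ff hz
  have := Pb.fin_of_ff hL hM
  obtain ⟨k, hk⟩ := Ba.ff_succ hL v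
  obtain ⟨w, hw, h, -⟩ := exists_w (Ω := AlgebraicClosure M) P
  obtain ⟨S, h1, h2⟩ := Ra.ram_core (hk ▸ hL) l hw h
  let j : (M →ₐ[L] AlgebraicClosure M) ↪ (M →ₐ[ℂ] AlgebraicClosure M) :=
    ⟨fun σ => σ.restrictScalars ℂ, AlgHom.restrictScalars_injective ℂ⟩
  refine h1.trans (Int.ofNat_le.2 ((Finset.card_map j).ge.trans (hc _ w
    (IsScalarTower.toAlgHom ℂ M _) P _ hw ge h fun τ hτ => ?_)))
  obtain ⟨σ, hσ, rfl⟩ := Finset.mem_map.1 hτ
  exact ⟨fun i => σ.commutes (z i), fun a ha => h2 σ hσ a (Ra.icl_mem ge.1 ha)⟩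

end Vale.Agent.P283B.Lm
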