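import Vale.Agent.P283B.LM.Tw
import Vale.Agent.P283B.LS.Rnd

/-!
# P283B, block LM: the rounds on a finite chart
-/

open Set Polynomial

noncomputable section

namespace Vale.Agent.P283B.Lm

open Mono Ls Ls.Rn

namespace Rn

/-- the invariant of the rounds -/
def Rd (n m c : ℕ) (ε σ τ : ℝ) : Prop := ForE n fun Ω _ _ w E t u =>
  ∀ (A S : Type) [CommRing A] (Z : Sd Ω A S n) Ψ, Ct w t Z m → Bg w E t u Z Ψ ε →
    ∀ ξ γ, Pt w E u (Z.co ξ) γ → Ψ ξ ≤ τ * vl w t → ∃ (ξ' γ' : _) (N : ℕ),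
      Pt w E u (Z.co ξ') γ' ∧ 0 < N ∧ Ψ ξ' ≤ σ * (vl w t / N) ∧
        VG w (Kc t c (Z.co ξ')) (vl w t / N)

theorem base (n m : ℕ) (ε σ : ℝ) : Rd n m n ε σ σ := by
  intro Ω _ _ _ w E t u S A T _ Z Ψ _ _ x γ hx h
  refine ⟨x, γ, 1, hx, one_pos, by simpa using h, fun z hz => ?_⟩
  have l : Kc t n (Z.co x) ≤ Subfield.closure (((algebraMap ℂ Ω).fieldRange : Set Ω) ∪ {t}) :=
    Kc.le (fun a => Subfield.subset_closure (Or.inl ⟨a, rfl⟩))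
      (Subfield.subset_closure (Or.inr rfl)) fun j hj => absurd j.2 (not_lt.2 hj)
  have := vg_t S.vs.na (K := (algebraMap ℂ Ω).fieldRange) (by
    rintro z ⟨a, rfl⟩ z0
    exact S.c1 a fun h => z0 (by simp [h])) S.t0 S.t1 z (l hz)
  simpa using this

theorem step (mu : MULT) {n m : ℕ} (c : Fin n) (ke : KEY n m c) (ε σ : ℝ) (hσ : 0 < σ)
    (σ1 : σ ≤ 1) : ∃ σ', 0 < σ' ∧ σ' ≤ 1 ∧ ∀ τ, Rd n m (c + 1) ε σ' τ → Rd n m c ε σ τ := by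
  obtain ⟨C, θ, σK, hC, hθ, hK, ke⟩ := ke
  have C0 : 0 < C := by linarith
  obtain ⟨η, η0, η1, η2⟩ : ∃ η : ℝ, 0 < η ∧ 3 * C * η ≤ σ / 2 ∧ η ≤ θ / 4 :=
    ⟨min (σ / (6 * C)) (θ / 4), by positivity, by
      have := min_le_left (σ / (6 * C)) (θ / 4)
      rw [le_div_iff₀ (by positivity)] at this
      linarith, min_le_right _ _⟩
  obtain ⟨M, hM⟩ := dir 1 η η0
  obtain ⟨σ', s0, s1, s2, s3⟩ := consts C0 hθ (lt_min hK one_pos) hσ M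
  refine ⟨σ', s0, s1.trans (min_le_right _ _), fun τ R => ?_⟩
  replace s1 := s1.trans (min_le_left _ _)
  intro Ω _ _ _ w E t u S A T _ Z Ψ ct B x₀ γ₀ h₀ p₀
  obtain ⟨x, γ, N, hx, N0, hΨ, hV⟩ := R Ω w E t u S A T Z Ψ ct B x₀ γ₀ h₀ p₀
  have μ0 : 0 < vl w t := vl_pos S.t0 S.t1
  have N1 : (1 : ℝ) ≤ N := by exact_mod_cast N0
  have g1 : vl w t / N ≤ vl w t := div_le_self μ0.le N1
  have g0 : 0 < vl w t / N := by positivity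
  obtain ⟨k1, k2, b, bE, b0, b1, b2, b3, W, k, hW, k0, kθ, kr⟩ :=
    ke Ω w E t u S A T Z Ψ ε ct B x γ (σ' * (vl w t / N)) hx (mul_pos s0 g0) hΨ
      (mul_le_mul s1 g1 g0.le hK.le)
  obtain ⟨KL, a', aL, a1, xa, ν, ν0, νθ, hν⟩ := cen mu S hx b0 b1 b3 hθ hW k0 kθ kr
  obtain ⟨k', z, k'0, k'M, hz⟩ := hM fun _ => vl w b / (vl w t / (N * ν : ℕ))
  have hz := hz 0
  have p0 : 0 < N * ν * k' := by positivity
  obtain ⟨b', b'E, b'0, hb'⟩ := exists_val S.vs S.t0 (z 0) p0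
  have k'2 : (k' : ℝ) ≤ M + 1 := by exact_mod_cast k'M.trans (Nat.le_succ M)
  have g3 : vl w t / ((N * ν * k' : ℕ) : ℝ) ≤ vl w t := div_le_self μ0.le (by exact_mod_cast p0)
  have g2 : 0 < vl w t / ((N * ν * k' : ℕ) : ℝ) := by positivity
  have e1 : vl w t / N = ν * k' * (vl w t / ((N * ν * k' : ℕ) : ℝ)) := by push_cast; field_simp
  have e2 : vl w b - vl w b' = (k' * (vl w b / (vl w t / ((N * ν : ℕ) : ℝ))) - z 0) *
      (vl w t / ((N * ν * k' : ℕ) : ℝ)) := by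
    rw [hb']; push_cast; field_simp
  suffices h : ∃ x' γ', Pt w E u (Z.co x') γ' ∧ Ψ x' ≤ σ * (vl w t / ((N * ν * k' : ℕ) : ℝ)) ∧
      VG w (Kc t c (Z.co x')) (vl w t / ((N * ν * k' : ℕ) : ℝ)) by
    obtain ⟨x', γ', a, b, c⟩ := h
    exact ⟨x', γ', _, a, p0, b, c⟩
  generalize vl w t / ((N * ν * k' : ℕ) : ℝ) = g at *
  obtain ⟨e3, e4⟩ : -(η * g) ≤ vl w b - vl w b' ∧ vl w b - vl w b' ≤ η * g := by
    rw [← abs_le, e2, abs_mul, abs_of_pos g2]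
    exact mul_le_mul_of_nonneg_right hz g2.le
  have b'1 : w b' < 1 := lt_one b'0 (num2 C0 hθ s0 η0 μ0 η2 s2 g1 g3 k1 b2 e4)
  rw [e1] at k2 b2 hV
  have q := num C0 hθ s0 g2 (Nat.cast_nonneg _) η1 s3 νθ k'2 b2 e3
    (mv_ge b0 xa (mul_pos η0 g2).le e4)
  obtain ⟨x', γ', hx', xj, xc, hΨ'⟩ := k2 a' aL b' b'E b'0 a1 b'1
    (q.trans ((mul_le_of_le_one_left g2.le σ1).trans g3))
  exact ⟨x', γ', hx', hΨ'.trans q, vg_new S KL aL b'E b'0 ν0 hV hν hb' xj xc⟩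

end Rn

theorem rounds : ROUNDS := fun mu ke n m ε hε => by
  have : ∀ k c, k + c = n → ∀ σ, 0 < σ → σ ≤ 1 → ∃ τ, 0 < τ ∧ Rn.Rd n m c ε σ τ := fun k => by
    induction k with
    | zero =>
      intro c h σ hσ _
      obtain rfl : c = n := by omega
      exact ⟨σ, hσ, Rn.base _ _ _ _⟩
    | succ k ih =>
      intro c h σ hσ σ1
      obtain ⟨σ', s0, s1, s⟩ := Rn.step mu ⟨c, by omega⟩ (ke n m _) ε σ hσ σ1
      obtain ⟨τ, τ0, R⟩ := ih (c + 1) (by omega) σ' s0 s1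
      exact ⟨τ, τ0, s τ R⟩
  obtain ⟨τ, τ0, R⟩ := this n 0 rfl (min (ε / 2) 1) (by positivity) (min_le_right _ _)
  refine ⟨τ, τ0, fun Ω _ _ _ w E t u S A T _ Z Ψ ct B x γ hx => ?_⟩
  by_contra h
  obtain ⟨x', γ', N, hx', N0, hΨ, hV⟩ := R Ω w E t u S A T Z Ψ ct B x γ hx (not_le.1 h).le
  have g0 : 0 < vl w t / N := div_pos (vl_pos S.t0 S.t1) (by exact_mod_cast N0)
  have := B.ms x' γ' _ hx' g0 fun p _ =>
    hV _ (ev_Kc _ _ _ _ (fun j => Kc.xm _ _ (Nat.zero_le _)) p)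
  have := mul_le_mul_of_nonneg_right (min_le_left (ε / 2) 1) g0.le
  nlinarith

end Vale.Agent.P283B.Lm
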