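import Vale.Agent.P283B.LM.Ram

/-!
# P283B, block LM: the leaf `SLM`
-/

set_option linter.unusedVariables false
set_option linter.unusedSectionVars false

open Set Polynomial
open Vale.Agent.P287D Vale.Agent.P287D.Cb
open Vale.Agent.P297Z

noncomputable section

namespace Vale.Agent.P283B.Lm

open Wp Ls

namespace Sm

section

variable {L M ι : Type} [Field L] [Algebra ℂ L] [Field M] [Algebra ℂ M] {y : ι → M}
  {T P Q : Pl M} {c : ℕ}

theorem adj_icl {a : M} (h : a ∈ Algebra.adjoin ℂ (range y)) : a ∈ Icl y :=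
  (isIntegral_algebraMap (A := M) (x := (⟨a, h⟩ : Algebra.adjoin ℂ (range y))) :)

theorem ge_trans (h : Ge y T P) (k : Ge y P Q) : Ge y T Q :=
  ⟨k.1, fun a ha z => h.2 a ha (k.2 a ha z)⟩

theorem cnt_mono (h : Cnt c y T) (k : Ge y T P) : Cnt c y P :=
  fun Ω _ _ w τ Q S a b => h Ω w τ Q S a (ge_trans k b)

theorem ge_ind {σ : Type} (f : σ → ι) (fi : Fi y T) (h : Ge y T P)
    (hi : AlgebraicIndependent ℂ fun b => T.rd (y (f b))) :
    AlgebraicIndependent ℂ fun b => P.rd (y (f b)) :=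
  algebraicIndependent_iff.2 fun g hg => algebraicIndependent_iff.1 hi g (by
    have k : MvPolynomial.aeval (fun b => y (f b)) g ∈ Icl y := adj_icl (Algebra.adjoin_mono
      (range_comp_subset_range f y) (by rw [Algebra.adjoin_range_eq_range_aeval]; exact ⟨g, rfl⟩))
    rw [← rd_aeval fun b => h.1 _, rd_eq_zero (Ra.icl_mem h.1 k), mx_iff] at hg
    rw [← rd_aeval fun b => fi _, rd_eq_zero (Ra.icl_mem fi k), mx_iff]
    exact hg.imp_right (h.2 _ k))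

theorem mx_le {J : Finset M} (h : ∀ f ∈ J, f ∈ P.ring) : mx J P ≤ 0 := by
  by_cases k : ∃ g ∈ J, g ≠ 0
  · obtain ⟨g, hg, -, e⟩ := Pb.mz_att P k
    rw [mx_apply, e]
    exact Int.cast_nonpos.2 (neg_nonpos.2 (Pl.ord_nonneg_of_mem _ (h g hg)))
  · rw [mx_apply, Pb.mz_eq_zero P fun g hg => by_contra fun g0 => k ⟨g, hg, g0⟩, Int.cast_zero]

theorem kq_hur [Fintype ι] {z : ι → L} {φ : L →ₐ[ℂ] M} (hz : Rf z) (hM : FF M (Fintype.card ι))
    {v : Pl L} (l : Lies (φ : L →+* M) P v) :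
    kq (im φ z) P + 1 = P.ord (φ v.t) * (kq z v + 1) :=
  hur (Sl.rf_ff hz) hM φ.commutes l (hz.ind.comp _ (Fintype.equivFin ι).symm.injective)

end

variable {K L ι : Type} [Field K] [Algebra ℂ K] [Field L] [Algebra ℂ L] [Fintype ι] {c : ℕ}
  {s₀ : Finset K} {R₀ w : Pl K} {z : ι → L} {φ : L →ₐ[ℂ] fld (mx s₀)} {T₀ Q : Pl (fld (mx s₀))}

theorem oz_of (h : Ch c s₀ R₀ z φ T₀) {a : fld (mx s₀)} (ha : a ∈ Icl (im φ z)) :
    (a : K) ∈ Oz s₀ R₀ := (h.loc a).2 ⟨a, ha, 1, one_mem _, one_ne_zero, by simp, by simp⟩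

theorem fi_of (h : Ch c s₀ R₀ z φ T₀) (o : Ov s₀ R₀ w) (l : Lies (inc _) w Q) : Fi (im φ z) Q :=
  fun i => (l _).2 (oz_of h (mem_icl _ i) w o)

theorem ge_of (h : Ch c s₀ R₀ z φ T₀) (o : Ov s₀ R₀ w) (l : Lies (inc _) w Q) :
    Ge (im φ z) T₀ Q := ⟨fi_of h o l, fun a ha k => by_contra fun x => by
  have a0 : a ≠ 0 := fun e => by simp [e] at k
  have := Pl.ord_nonneg_of_mem _ ((l a⁻¹).2 ((h.loc a⁻¹).2 ⟨1, one_mem _, a, ha, a0, le_antisymm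
    (not_lt.1 x) (Pl.ord_nonneg_of_mem _ (Ra.icl_mem (fi_of h (CLe.refl _ _) h.li) ha)),
    (one_div a).symm⟩ w o))
  rw [Pl.ord_inv] at this
  omega⟩

theorem ef_of (ra : RAM) (ov : OVR) {n N : ℕ} (hK : FF K (n + 1)) {Λ Γ Γ₁ Γ' : BD K}
    (r : Rel n Λ s₀ Γ) (h : Ch c s₀ R₀ z φ T₀) {D : fld (mx s₀)} (D1 : D ∈ Icl (im φ z))
    (D2 : ∀ P v, Fi (im φ z) P → Lies (φ : L →+* fld (mx s₀)) P v → P.ord D = 0 →
      P.ord (φ v.t) = 1) {δ t : ℝ}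
    (p1 : ∀ w Q, On n Λ w → Ov s₀ R₀ w → Lies (inc (fld (mx s₀))) w Q → 0 < w.ord (D : K) →
      ld (n + 1) Γ₁ w + δ * w.ord (inc (fld (mx s₀)) Q.t) ≤ 1) {J : Finset (fld (mx s₀))}
    (j1 : ∀ f ∈ J, f ∈ Icl (im φ z))
    (j3 : ∀ w Q, Ov s₀ R₀ w → Lies (inc (fld (mx s₀))) w Q →
      w.ord (Q.t : K) * psi (im φ z) J (N : ℝ)⁻¹ Q ≤
        ld (n + 1) Γ' w + w.ord (Q.t : K) * (kq (im φ z) Q + 1) / N)
    (lG : ∀ w, ld (n + 1) Γ' w = (1 - t) * ld (n + 1) Γ w + t * ld (n + 1) Γ₁ w) (t1 : 0 < t)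
    (t4 : 0 < 1 - t) (N0 : 0 < N) (a5 : (c : ℝ) / N ≤ t * δ) {v : Pl L} (g : Ge (im φ z) T₀ Q)
    (l : Lies (φ : L →+* fld (mx s₀)) Q v) (k : kq z v = 0) : psi (im φ z) J (N : ℝ)⁻¹ Q ≤ 1 := by
  have e := kq_hur h.rf h.ff l
  rw [k, zero_add, mul_one] at e
  by_cases x : Q.ord D = 0
  · have := mul_nonpos_of_nonneg_of_nonpos (by positivity : (0 : ℝ) ≤ (N : ℝ)⁻¹)
      (mx_le fun f hf => Ra.icl_mem g.1 (j1 f hf))
    rw [D2 Q v g.1 l x] at e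
    simp only [psi, Pi.add_apply, Pi.one_apply, Pi.smul_apply, smul_eq_mul, e]
    push_cast
    linarith
  obtain ⟨w, w1, w2, w3⟩ := ov n K hK L _ c Λ s₀ R₀ z φ T₀ Q v r.pr.smp r.pr.big r.ft.des h g l k
  have a1 := p1 w Q w1 w2 w3 ((w3.ord_pos_iff D).2
    (lt_of_le_of_ne (Pl.ord_nonneg_of_mem _ (Ra.icl_mem g.1 D1)) (Ne.symm x)))
  have a2 := j3 w Q w2 w3
  have a3 : (Q.ord (φ v.t) : ℝ) ≤ c := by
    exact_mod_cast ra _ _ _ z φ h.rf h.ff c T₀ Q v h.cnt g l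
  have a4 : (1 : ℝ) ≤ w.ord (Q.t : K) := by exact_mod_cast w3.e_pos
  have a6 : ld (n + 1) Γ w ≤ 1 := by have := r.pr.bdy w w1; rw [ld]; linarith
  rw [e, lG, mul_div_assoc] at a2
  have a7 := mul_le_mul_of_nonneg_left ((div_le_div_of_nonneg_right a3
    (by positivity : (0 : ℝ) ≤ N)).trans a5) (zero_le_one.trans a4)
  have a8 := mul_le_mul_of_nonneg_left a1 t1.le
  have a9 := mul_le_mul_of_nonneg_left a6 t4.le
  change t * (_ + δ * w.ord (Q.t : K)) ≤ _ at a8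
  refine le_of_mul_le_mul_left ?_ (zero_lt_one.trans_le a4)
  linarith

end Sm

open Sm

/-- **SLM** -/
theorem slm : SLM := fun jn sp ra df pe ov et c n ms ε q e0 q0 => by
  classical
  obtain ⟨δ, d0, H⟩ := ms ε q e0 q0
  obtain ⟨d, d1, d2, d3⟩ : ∃ d : ℝ, 0 < d ∧ d ≤ 1 ∧ 2 * (d * c) ≤ δ := by
    refine ⟨min 1 (δ / (2 * (c + 1))), by positivity, min_le_left _ _, ?_⟩
    have := (le_div_iff₀ (by positivity)).1 (min_le_right 1 (δ / (2 * (c + 1))))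
    have : 0 < min 1 (δ / (2 * (c + 1))) := by positivity
    linarith
  choose τ t0 G using fun m => et m c d d1
  obtain ⟨m₀, -, hτ⟩ := exists_min_image _ τ (finite_le_nat n) ⟨0, Nat.zero_le n⟩
  refine ⟨τ m₀, t0 _, fun K _ _ hK Λ Γ s₀ R₀ r sm nh cf el => ?_⟩
  obtain ⟨L, σ, _, _, _, m, z, φ, T₀, p, hm, h, hi, hp⟩ := sp n K hK c s₀ R₀ sm nh
  obtain ⟨Q, hQ⟩ : ∃ Q : Fin (m + 1) → fld (mx s₀),
    ∀ i, ey (fun b => φ (z (.inl b))) (φ (z (.inr i))) (p i) = Q i := ⟨_, fun _ => rfl⟩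
  have Q1 : ∀ i, 0 < R₀.ord (Q i : K) := fun i => (h.li.ord_pos_iff _).2 (hQ i ▸ (hp i).2)
  have Q0 : ∀ i, (Q i : K) ≠ 0 := fun i z => by simpa [z] using Q1 i
  have QO : ∀ i, (Q i : K) ∈ Oz s₀ R₀ := fun i => oz_of h (adj_icl (Algebra.adjoin_mono
    (insert_subset (mem_range_self (f := im φ z) (.inr i))
      (range_comp_subset_range Sum.inl (im φ z))) (hQ i ▸ Sl.ey_adj _ _ _)))
  refine ⟨Finset.univ.image fun i => (Q i : K), by simp, fun f hf => ?_, fun P o => ?_⟩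
  · obtain ⟨i, -, rfl⟩ := Finset.mem_image.1 hf
    exact ⟨Q0 i, (Q i).2, QO i, Q1 i⟩
  obtain ⟨S, hS⟩ : ∃ S, mx (Finset.univ.image fun i => (Q i : K)) P = S := ⟨_, rfl⟩
  have mq : ∀ i, -(P.ord (Q i : K) : ℝ) ≤ S := fun i => by
    have := Pb.le_mz P (Finset.mem_image_of_mem (fun i => (Q i : K)) (Finset.mem_univ i)) (Q0 i)
    rw [← hS, mx_apply]
    exact_mod_cast this
  rw [hS]
  have l0 : ∀ w, Ov s₀ R₀ w → 0 < ld (n + 1) Γ w := fun w o => e0.trans_le (el w o)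
  by_cases pos : ∀ i, 0 < P.ord (Q i : K)
  swap
  · obtain ⟨i, hi⟩ := not_forall.1 pos
    have : (P.ord (Q i : K) : ℝ) ≤ 0 := by exact_mod_cast not_lt.1 hi
    exact add_nonneg (l0 P o).le (mul_nonneg (t0 _).le (by linarith [mq i]))
  obtain ⟨T, lT⟩ := (hK.ok_sub (fld (mx s₀)) P).resolve_left fun k => (pos 0).ne' (k.ord _)
  have eT : (0 : ℝ) < P.ord (T.t : K) := by exact_mod_cast lT.e_pos
  have gT := ge_of h o lT
  obtain ⟨c₀, nc⟩ := r.nef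
  obtain ⟨D, D1, D0, D2⟩ := df _ _ _ z φ h.rf h.ff
  obtain ⟨Γ₁, c₁, δ₁, p0, k0, b0, n0, g0, p1⟩ := pe n K hK Λ s₀ R₀ D r.ft nh (oz_of h D1)
    fun e => D0 (Subtype.ext e)
  obtain ⟨N₀, N1, N2⟩ : ∃ N₀ : ℕ, 0 < N₀ ∧ 2 * c / δ₁ ≤ N₀ :=
    ⟨⌈2 * c / δ₁⌉₊ + 1, by omega, (Nat.le_ceil _).trans (by simp)⟩
  obtain ⟨A, hA⟩ : ∃ A, P.ord (T.t : K) * (kq (im φ z) T + 1) = A := ⟨_, rfl⟩
  have key : ∀ N : ℕ, 0 < N → -(τ m₀ * S) - ld (n + 1) Γ P ≤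
      ((ld (n + 1) Γ₁ P - ld (n + 1) Γ P) / 2 + A / N₀) / N := fun N N0 => by
    have N3 : (1 : ℝ) ≤ N := by exact_mod_cast N0
    obtain ⟨t, t1, t2, t3⟩ : ∃ t : ℝ, 0 < t ∧ t ≤ 1 / 2 ∧ t = 1 / 2 / N :=
      ⟨_, by positivity, div_le_self (by norm_num) N3, rfl⟩
    obtain ⟨Γ', hΓ⟩ : ∃ Γ', Γ' = (1 - t) • Γ + t • Γ₁ := ⟨_, rfl⟩
    have lG : ∀ w, ld (n + 1) Γ' w = (1 - t) * ld (n + 1) Γ w + t * ld (n + 1) Γ₁ w := fun w => by
      simp only [ld, dsc, hΓ, Pi.add_apply, Pi.sub_apply, Pi.smul_apply, smul_eq_mul]; ring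
    have l1 : ∀ w, 0 < t * ld (n + 1) Γ₁ w := fun w =>
      mul_pos t1 (by have := k0 w; rw [ld]; linarith)
    have eG : ((1 - t) * c₀ + t * c₁) • mx s₀ - Γ' =
        t • (c₁ • mx s₀ - Γ₁) + (1 - t) • (c₀ • mx s₀ - Γ) := by
      rw [hΓ]; module
    have t4 : 0 < 1 - t := by linarith
    obtain ⟨J, j1, j2, j3⟩ := jn n K hK L _ c (N₀ * N) Λ Γ' s₀ R₀ z φ T₀ _ d r.pr.smp r.pr.big
      r.ft.des h (fun w a => by
        have := lG w
        have := mul_nonneg t4.le (neg_nonneg.2 (r.pr.bdy w a))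
        have := mul_nonneg t1.le (neg_nonneg.2 (b0 w a))
        simp only [ld] at *
        linarith)
      (eG ▸ (n0.smul t1.le).add (nc.smul t4.le)) (eG ▸ (g0.smul t1).add_nef (nc.smul t4.le))
      (Nat.mul_pos N1 N0) d2 (fun w o => lG w ▸ add_pos (mul_pos t4 (l0 w o)) (l1 w))
      fun w U v o l l' => by
        have a := H K hK Λ Γ s₀ w U r l (fun P a b => cf P a (CLe.trans o b))
          fun P b => el P (CLe.trans o b)
        have b : (0 : ℝ) ≤ w.ord (inc _ U.t) := by exact_mod_cast l.e_pos.le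
        have e : (w.ord (φ v.t : K) : ℝ) ≤ w.ord (inc _ U.t) * c := by
          exact_mod_cast (l.ord (φ v.t)).trans_le (mul_le_mul_of_nonneg_left
            (ra _ _ _ z φ h.rf h.ff c T₀ U v h.cnt (ge_of h o l) l') l.e_pos.le)
        have := mul_le_mul_of_nonneg_left e d1.le
        have := mul_le_mul_of_nonneg_right d3 b
        have := mul_le_mul_of_nonneg_right t2 (l0 w o).le
        rw [lG]
        linarith [l1 w]
    obtain ⟨i, hi⟩ := G m _ _ σ z φ T J ((N₀ * N : ℕ) : ℝ)⁻¹ p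
      ⟨h.rf, h.ff, gT.1, by positivity, j1, fun U v g l => j2 U v (ge_trans gT g) l,
        fun U v g l k => ef_of ra ov hK r h D1 D2 p1 j1 j3 lG t1 t4 (Nat.mul_pos N1 N0) (by
          rw [div_le_iff₀ p0] at N2
          rw [t3, div_le_iff₀ (by positivity)]
          push_cast
          field_simp
          linarith) (ge_trans gT g) l k⟩
      (cnt_mono h.cnt gT) (ge_ind (y := im φ z) .inl (fi_of h (CLe.refl _ _) h.li) gT hi)
      fun i => ⟨(hp i).1, by rw [hQ]; exact (lT.ord_pos_iff _).1 (pos i)⟩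
    have a := (mul_le_mul_of_nonneg_left hi eT.le).trans (j3 P T o lT)
    have b : P.ord (Q i : K) = P.ord (T.t : K) * _ := lT.ord (Q i)
    rw [hQ, mul_left_comm, ← Int.cast_mul, ← b, hA, lG, t3] at a
    have q1 : (0 : ℝ) ≤ P.ord (Q i : K) := by exact_mod_cast (pos i).le
    have q2 := mul_le_mul_of_nonneg_right (hτ m hm) q1
    have q3 := mul_le_mul_of_nonneg_left (mq i) (t0 m₀).le
    refine le_trans (by linarith) ((sub_le_sub_right a (ld (n + 1) Γ P)).trans_eq ?_)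
    push_cast
    field_simp
    ring
  have := ge_of_tendsto (tendsto_const_div_atTop_nhds_zero_nat _)
    (Filter.eventually_atTop.2 ⟨1, key⟩)
  linarith

end Vale.Agent.P283B.Lm
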