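import Vale.Agent.P283B.LM.St
import Vale.Agent.P283B.LS.Sl1
import Vale.Agent.P283B.LS.Eta

/-!
# P283B, block LM: coordinates adapted to the point
-/

set_option linter.unusedVariables false
set_option linter.unusedSectionVars false

open Set Polynomial
open Vale.Agent.P287D Vale.Agent.P287D.Cb
open Vale.Agent.P297Z

noncomputable section

namespace Vale.Agent.P283B.Lm

open Ls Ls.Sl Mb

namespace Sp

variable {K M ι : Type} [Field K] [Algebra ℂ K] [Field M] [Algebra ℂ M] {n c : ℕ} {y : ι → K}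
  {P : Pl K} {s₀ : Finset K}

theorem icl_iff {a : K} : a ∈ Icl y ↔ ∃ F, F.Monic ∧ ey y a F = 0 := by
  refine ⟨fun ⟨p, m, r⟩ => ?_, fun ⟨F, m, r⟩ => th_int m r⟩
  let ψ := (MvPolynomial.aeval y : MvPolynomial ι ℂ →ₐ[ℂ] K).codRestrict
    (Algebra.adjoin ℂ (range y)) fun p => by
      rw [Algebra.adjoin_range_eq_range_aeval]; exact ⟨p, rfl⟩
  obtain ⟨F, rfl, -, k⟩ := lifts_and_degree_eq_and_monic (f := ψ.toRingHom)
    (map_surjective _ (fun ⟨b, hb⟩ => by
      obtain ⟨x, e⟩ := (Algebra.adjoin_range_eq_range_aeval ℂ y).le hb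
      exact ⟨x, Subtype.ext e⟩) p) m
  exact ⟨F, k, by rwa [eval₂_map] at r⟩

theorem icl_map (ψ : M →ₐ[ℂ] K) (y : ι → M) (a : M) :
    ψ a ∈ Icl (fun i => ψ (y i)) ↔ a ∈ Icl y := by
  simp only [icl_iff, ← ey_map, map_eq_zero]

theorem icl_ring (h : Fi y P) {a : K} (k : a ∈ Icl y) : a ∈ P.ring :=
  int_mem (fun b => adj_mem (range_subset_iff.2 h) b.2) k

theorem nu_iff {Ω : Type} [Field Ω] {w : AbsoluteValue Ω ℝ} (h : IsNonarchimedean w) (a : Ω) :
    a ∈ (vr h (RingHom.id Ω)).nonunits ↔ w a < 1 := by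
  rw [ValuationSubring.mem_nonunits_iff_or]
  change _ ∨ ¬ w a⁻¹ ≤ 1 ↔ _
  by_cases a0 : a = 0
  · simp [a0]
  · rw [or_iff_right a0, map_inv₀, inv_le_one₀ (w.pos a0), not_le]

theorem icl_oz (h : Fc c (Oz s₀ P) P y) {a : K} (k : a ∈ Icl y) : a ∈ Oz s₀ P :=
  (h.loc a).2 ⟨a, k, 1, one_mem _, one_ne_zero, Pl.ord_one _, (div_one a).symm⟩

theorem frac (h : Fc c (Oz s₀ P) P y) (hK : FF K n) (nh : ¬ Hor (fld (mx s₀)) P) {f : K}
    (hf : f ∈ fld (mx s₀)) : ∃ a ∈ Icl y, ∃ b ∈ Icl y, f = a / b := by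
  obtain ⟨a, ha, b, hb, rfl⟩ := le_oz hK nh hf
  obtain ⟨a, a1, a', a2, -, -, rfl⟩ := (h.loc a).1 ha
  obtain ⟨b, b1, b', b2, -, -, rfl⟩ := (h.loc b).1 hb
  exact ⟨_, mul_mem a1 b2, _, mul_mem a2 b1, div_div_div_eq _ _ _ _⟩

theorem alg (h : Fc c (Oz s₀ P) P y) (hK : FF K n) (nh : ¬ Hor (fld (mx s₀)) P) {f : K}
    (hf : f ∈ fld (mx s₀)) : IsAlgebraic (IntermediateField.adjoin ℂ (range y)) f := by
  obtain ⟨a, ha, b, hb, rfl⟩ := frac h hK nh hf
  exact div_eq_mul_inv a b ▸ (IntermediateField.isAlgebraic_adjoin_iff.2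
    (IsIntegral.isAlgebraic ha)).mul
      (IntermediateField.isAlgebraic_adjoin_iff.2 (IsIntegral.isAlgebraic hb)).inv

theorem ren {ι' : Type} {O : Subalgebra ℂ K} (h : Fc c O P y) (e : ι' ≃ ι) : Fc c O P (y ∘ e) := by
  have k : range (y ∘ e) = range y := e.surjective.range_comp y
  have k' : Icl (y ∘ e) = Icl y :=
    congrArg (fun s => (integralClosure (Algebra.adjoin ℂ s) K).restrictScalars ℂ) k
  refine ⟨h.ind.comp _ e.injective, by rw [k]; exact h.fin, k' ▸ h.mem, k' ▸ h.loc, ?_⟩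
  rw [k, k']
  exact h.cnt

theorem chart [Fintype ι] (h : Fc c (Oz s₀ P) P y) (hK : FF K n) (nh : ¬ Hor (fld (mx s₀)) P) :
    ∃ (L : Type) (_ : Field L) (_ : Algebra ℂ L) (z : ι → L) (φ : L →ₐ[ℂ] fld (mx s₀))
      (T : Pl (fld (mx s₀))), (∀ i, (φ (z i) : K) = y i) ∧ Ch c s₀ P z φ T := by
  classical
  let F := fld (mx s₀)
  have le : ∀ a ∈ Icl y, a ∈ F := fun a k => oz_le hK (icl_oz h k)
  let Y : ι → F := fun i => ⟨y i, le _ (mem_icl y i)⟩
  have ind : AlgebraicIndependent ℂ Y := .of_comp F.val h.ind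
  have ic : ∀ a : F, (a : K) ∈ Icl y ↔ a ∈ Icl Y := icl_map F.val Y
  obtain ⟨T, l⟩ := (hK.ok_sub F P).resolve_left fun k => nh fun f hf => k ⟨f, hf⟩
  have o0 : ∀ b : F, T.ord b = 0 ↔ P.ord b = 0 := fun b => by
    rw [show P.ord (b : K) = _ from l.ord b, mul_eq_zero, or_iff_right l.e_pos.ne']
  have fr : ∀ f : F, ∃ a ∈ Icl Y, ∃ b ∈ Icl Y, f = a / b := fun f =>
    let ⟨a, a1, b, b1, e⟩ := frac h hK nh f.2
    ⟨⟨a, le a a1⟩, (ic _).1 a1, ⟨b, le b b1⟩, (ic _).1 b1, Subtype.ext e⟩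
  refine ⟨IntermediateField.adjoin ℂ (range Y), _, _, Gm.Un.gn Y, IntermediateField.val _, T,
    fun _ => rfl, ⟨.of_comp (IntermediateField.val _) ind, Gm.Un.gn_top Y⟩, ?_, l, ?_,
    fun f => (h.loc f).trans ⟨?_, ?_⟩⟩
  · obtain ⟨r, -, k⟩ := Gm.ff_sub hK F
    have : Algebra.IsAlgebraic (Algebra.adjoin ℂ (range Y)) F := ⟨fun f => by
      obtain ⟨a, a1, b, b1, rfl⟩ := fr f
      exact div_eq_mul_inv a b ▸ (IsIntegral.isAlgebraic a1).mul (IsIntegral.isAlgebraic b1).inv⟩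
    have e := (ind.isTranscendenceBasis_iff_isAlgebraic.2 this).cardinalMk_eq_trdeg
    rw [k.trdeg, Cardinal.mk_fintype, Nat.cast_inj] at e
    exact e ▸ k
  · intro Ω _ _ w τ₀ Q S na g hw hS
    let j : Icl y →ₐ[ℂ] F := (Icl y).val.codRestrict F.toSubalgebra fun a => le a a.2
    have jm : ∀ a, j a ∈ Icl Y := fun a => (ic _).1 a.2
    have i : Function.Injective fun τ : F →ₐ[ℂ] Ω => τ.comp j := fun τ τ' e => AlgHom.ext fun f => by
      obtain ⟨a, a1, b, b1, rfl⟩ := fr f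
      rw [map_div₀, map_div₀]
      exact congrArg₂ _ (DFunLike.congr_fun e ⟨a, (ic a).2 a1⟩)
        (DFunLike.congr_fun e ⟨b, (ic b).2 b1⟩)
    rw [← Finset.card_image_of_injective S i]
    refine h.cnt Ω (vr na (RingHom.id Ω)) (τ₀.comp j) _ (fun a => ⟨(hw _).1 (icl_ring g.1 (jm a)),
      fun k => or_iff_not_imp_left.2 fun a0 => ?_⟩) fun ξ k a => ?_
    · have a1 : j a ≠ 0 := fun e => a0 (Subtype.ext (congrArg (fun x : F => (x : K)) e))
      refine (l.ord_pos_iff (j a)).2 (g.2 _ (jm a) (lt_of_le_of_ne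
        (Pl.ord_nonneg_of_mem _ (icl_ring g.1 (jm a))) fun e => ?_))
      exact ((nu_iff na _).1 k).ne (Pw.unit (φ := (τ₀ : F →+* Ω)) hw a1 e.symm)
    · obtain ⟨τ, t, rfl⟩ := Finset.mem_image.1 k
      refine ⟨fun ⟨i, e⟩ => ?_, (nu_iff na _).2 ((hS τ t).2 _ (jm a))⟩
      exact show τ (j a) = τ₀ (j a) from (Subtype.ext e : Y i = j a) ▸ (hS τ t).1 i
  · rintro ⟨a, a1, b, b1, b0, b2, e⟩
    exact ⟨⟨a, le a a1⟩, (ic _).1 a1, ⟨b, le b b1⟩, (ic _).1 b1,
      fun k => b0 (congrArg Subtype.val k), (o0 _).2 b2, Subtype.ext e⟩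
  · rintro ⟨a, a1, b, b1, b0, b2, rfl⟩
    exact ⟨a, (ic _).2 a1, b, (ic _).2 b1, fun k => b0 (Subtype.ext k), (o0 _).1 b2, rfl⟩

/-- the splitting of the coordinates -/
theorem coo [Fintype ι] (h : AlgebraicIndependent ℂ y) (hy : Fi y P)
    (nh : ¬ Hor (IntermediateField.adjoin ℂ (range y)) P) :
    ∃ (σ : Type) (_ : Fintype σ) (m : ℕ) (E : σ ⊕ Fin (m + 1) ≃ ι)
      (q : Fin (m + 1) → (MvPolynomial σ ℂ)[X]),
      AlgebraicIndependent ℂ (fun b => P.rd (y (E (.inl b)))) ∧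
      ∀ i, Irreducible (q i) ∧ 0 < P.ord (ey (fun b => y (E (.inl b))) (y (E (.inr i))) (q i)) := by
  classical
  obtain ⟨S, hS⟩ := (toFinite {S : Set ι | AlgebraicIndepOn ℂ (fun i => P.rd (y i)) S}).exists_maximal
    ⟨∅, algebraicIndependent_empty_type⟩
  have ne : Fintype.card (Sᶜ : Set ι) ≠ 0 := fun z => nh fun f hf => by
    obtain rfl : S = univ := by
      rwa [Fintype.card_eq_zero_iff, isEmpty_coe_sort, compl_empty_iff] at z
    have hi : AlgebraicIndependent ℂ fun i => P.rd (y i) := AlgebraicIndepOn.univ.1 hS.prop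
    obtain ⟨a, ha, b, hb, rfl⟩ := IntermediateField.mem_adjoin_iff_div.1 hf
    by_cases b0 : b = 0
    · simp [b0]
    rw [div_eq_mul_inv]
    exact mul_mem (adj_mem (range_subset_iff.2 hy) ha) (inv_mem_of fun k => b0 (unit0 hy hi hb k))
  obtain ⟨m, hm⟩ := Nat.exists_eq_succ_of_ne_zero ne
  let g := (Fintype.equivFinOfCardEq hm).symm
  let E : S ⊕ Fin (m + 1) ≃ ι := ((Equiv.refl S).sumCongr g).trans (Equiv.Set.sumCompl S)
  have k : ∀ i, ∃ q, Irreducible q ∧ 0 < P.ord (ey (fun b : S => y b) (y (g i)) q) := fun i => by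
    have ni : ¬ AlgebraicIndependent ℂ fun o : Option S => P.rd (o.elim (y (g i)) fun b => y b) :=
      fun z => (g i).2 (hS.2 ((algebraicIndependent_equiv' (subtypeInsertEquivOption (g i).2)
        (funext fun j => by
          obtain ⟨j, rfl⟩ := (subtypeInsertEquivOption (g i).2).symm.surjective j
          rw [Function.comp, Equiv.apply_symm_apply]
          cases j <;> rfl)).2 z) (subset_insert _ _) (mem_insert _ _))
    obtain ⟨p, hp, p0⟩ := (RingHom.ker_isPrime (MvPolynomial.aeval (R := ℂ) fun o : Option S =>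
      P.rd (o.elim (y (g i)) fun b => y b))).exists_mem_prime_of_ne_bot fun z =>
        ni ((RingHom.injective_iff_ker_eq_bot _).2 z)
    have u : ∀ o : Option S, (o.elim (y (g i)) fun b => y b) ∈ P.ring := fun o => by
      cases o <;> exact hy _
    refine ⟨_, (MulEquiv.irreducible_iff (MvPolynomial.optionEquivLeft ℂ S)).2 p0.irreducible, ?_⟩
    rw [RingHom.mem_ker, ← rd_aeval u, ← ey_opt, rd_eq_zero (ey_mem (fun b => hy _) (hy _) _),
      mx_iff] at hp
    refine hp.resolve_left fun z => p0.ne_zero ?_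
    rw [ey_opt] at z
    refine algebraicIndependent_iff.1 ?_ p z
    have := h.comp (fun o : Option S => o.elim (g i : ι) fun b => b) (by
      rintro (_ | a) (_ | b) z
      · rfl
      · exact absurd (show (g i : ι) ∈ S from (show (g i : ι) = b from z) ▸ b.2) (g i).2
      · exact absurd (show (g i : ι) ∈ S from (show a = (g i : ι) from z) ▸ a.2) (g i).2
      · exact congrArg some (Subtype.ext z))
    convert this using 1
    funext o
    cases o <;> rfl
  choose q hq using k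
  exact ⟨S, inferInstance, m, E, q, hS.prop, hq⟩

end Sp

open Sp

/-- **SPLIT** -/
theorem split : SPLIT := fun n K _ _ hK c s₀ P ⟨e, y, h⟩ nh => by
  have hy : Fi y P := fun i => h.mem _ (mem_icl y i)
  obtain ⟨σ, _, m, E, q, h1, h2⟩ := coo h.ind hy fun k => nh fun f hf =>
    int_mem (fun a => k a.1 a.2) (alg h hK nh hf).isIntegral
  obtain ⟨L, _, _, z, φ, T, k, ch⟩ := chart (ren h E) hK nh
  have l := ch.li
  have fi : ∀ i, φ (z i) ∈ T.ring := fun i => (l _).2 (show (φ (z i) : K) ∈ _ from k i ▸ hy _)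
  refine ⟨L, σ, _, _, _, m, z, φ, T, q, ?_, ch, ?_, fun i => ⟨(h2 i).1, (l.ord_pos_iff _).1 ?_⟩⟩
  · have := h.ind.cardinalMk_le_trdeg
    rw [hK.trdeg, Cardinal.mk_fin, Nat.cast_le] at this
    have := Fintype.card_congr E
    simp only [Fintype.card_sum, Fintype.card_fin] at this
    omega
  · refine .of_comp (f := ⟨l.κ, fun a => ?_⟩) ?_
    · exact (congrArg l.κ (rd_const a).symm).trans ((l.isRd _ (T.con a)).trans (rd_const a))
    · convert h1 using 1
      exact funext fun b => (l.isRd _ (fi _)).trans (congrArg P.rd (k _))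
  · have := ey_map (fld (mx s₀)).val (fun b => φ (z (.inl b))) (φ (z (.inr i))) (q i)
    simp only [IntermediateField.coe_val, k] at this
    exact (congrArg P.ord this).symm ▸ (h2 i).2

end Vale.Agent.P283B.Lm
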