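import Vale.Agent.P283B.LM.Tw
import Vale.Agent.P283B.LS.Step

/-!
# P283B, block LM: the step of the descending induction on correspondences (STEP)
-/

open Set

noncomputable section

namespace Vale.Agent.P283B.Lm

open Mono Ls

variable {Ω A S : Type} [Field Ω] [CommRing A] {n : ℕ} {w : AbsoluteValue Ω ℝ}

theorem mv_mono (z : Ω) {l₁ l₂ : ℝ} (h : l₁ ≤ l₂) : mv w z l₁ ≤ mv w z l₂ :=
  neg_le_neg (Real.log_le_log (lt_max_of_lt_right (Real.exp_pos _))
    (max_le_max le_rfl (Real.exp_le_exp.2 (neg_le_neg h))))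

theorem Gd.mono {Z : Sd Ω A S n} {T : Multiset S} {r r' : ℝ} {ξ : S} {H : A}
    (h : Gd w Z T r ξ H) (k : r' ≤ r) : Gd w Z T r' ξ H := fun l₁ l₂ z a b =>
  le_trans (mul_le_mul_of_nonneg_right k (sub_nonneg.2 a)) (h l₁ l₂ z a b)

theorem gd_one {Z : Sd Ω A S n} {T : Multiset S} {ξ : S} (h : ξ ∈ T) (H : A) :
    Gd w Z T 1 ξ H := fun l₁ l₂ _ a b => by
  obtain ⟨T', rfl⟩ := Multiset.exists_cons_of_mem h
  have b' : w (Z.va ξ H) ≤ Real.exp (-l₁) := b.trans (Real.exp_le_exp.2 (neg_le_neg a))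
  have : fv w Z T' H l₁ ≤ fv w Z T' H l₂ :=
    Multiset.sum_map_le_sum_map _ _ fun ξ' _ => mv_mono _ a
  simp only [fv, Multiset.map_cons, Multiset.sum_cons, mv_of_le b, mv_of_le b'] at this ⊢
  linarith

theorem ss_zero (n m : ℕ) : SS n m 0 := by
  refine ⟨1, 1 / (m + 1), 1, le_rfl, by positivity, one_pos,
    fun Ω _ _ _ w E t u _ A S _ Z Ψ ε D ct _ _ _ ξ γ s hx _ h _ => ?_⟩
  obtain ⟨X, hX, hm⟩ := ct.cor
  have e : cut 0 (Z.co ξ) = Z.co ξ := funext fun j => if_pos (Nat.zero_le _)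
  refine ⟨ξ, γ, m, X, hx, fun _ _ => rfl, by rwa [one_mul], hX, fun H _ => ?_⟩
  rw [e]
  refine (gd_one (hm ξ) H).mono ?_
  rw [div_mul_eq_mul_div, one_mul, div_le_one (by positivity)]
  linarith

theorem step : STEP := fun co n m => ⟨ss_zero n m, fun c ⟨C₁, κ, σ₁, c1, κ0, σ1, hS⟩
    ⟨C₂, θ, σ₂, c2, θ0, σ2, hK⟩ => by
  classical
  have p : 1 ≤ C₂ * (1 + C₂) := by nlinarith
  have p0 : 0 < C₂ * (1 + C₂) := by linarith
  refine ⟨C₁ * (C₂ * (1 + C₂)), κ * θ, min σ₂ (min 1 σ₁ / (C₂ * (1 + C₂))), by nlinarith,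
    by positivity, lt_min σ2 (by positivity),
    fun Ω _ _ _ w E t u se A S _ Z Ψ ε D ct bg hD hU ξ γ s hx s0 h hs => ?_⟩
  have hw := se.vs.na
  have μ0 : 0 ≤ vl w t := neg_nonneg.2 (Real.log_nonpos (w.nonneg _) se.t1.le)
  obtain ⟨-, k2, b, bE, b0, b1, l1, l2, W, k, hW, k0, θk, hk⟩ := hK Ω w E t u se A S Z Ψ ε ct bg
    ξ γ s hx s0 h (hs.trans (mul_le_mul_of_nonneg_right (min_le_left _ _) μ0))
  have hs' : C₂ * (1 + C₂) * s ≤ min 1 σ₁ * vl w t := by
    have := hs.trans (mul_le_mul_of_nonneg_right (min_le_right _ _) μ0)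
    rwa [div_mul_eq_mul_div, le_div_iff₀ p0, mul_comm] at this
  have aM := hx.tri.cen c
  have g0 := hx.tri.ne c
  have g1 : w (γ c * u c) = w (γ c) := by rw [map_mul, (se.tw c).one, mul_one]
  have a1 : w (Z.co ξ c - γ c * u c) < 1 := by
    have := (se.tw c).lin hw (le_acl _ _ (hx.tri.mem c)) g0 (neg_mem aM)
    rw [show γ c * u c - -(Z.co ξ c - γ c * u c) = Z.co ξ c by ring, w.map_neg] at this
    exact (le_max_right _ _).trans_lt (this ▸ hx.op c)
  have em : mv w (Z.co ξ c - (Z.co ξ c - γ c * u c)) (vl w b) = vl w b := by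
    rw [sub_sub_cancel, mv_of_le (by
      rw [g1, ← exp_vl g0]
      exact Real.exp_le_exp.2 (neg_le_neg l2))]
  have le : C₂ * (s + vl w (γ c) + vl w b - 2 * vl w b) ≤ C₂ * (1 + C₂) * s := by nlinarith
  obtain ⟨ξ₁, γ₁, p1, e1, e2, h1⟩ := k2 _ aM b bE b0 a1 b1 (by
    rw [em]
    refine le.trans (hs'.trans ?_)
    simpa using mul_le_mul_of_nonneg_right (min_le_left 1 σ₁) μ0)
  rw [em] at h1
  obtain ⟨ξ', γ', d, X, p', e', h', hX, hG⟩ := hS Ω w E t u se A S Z Ψ ε D ct bg hD hU ξ₁ γ₁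
    (C₂ * (1 + C₂) * s) p1 (by positivity) (h1.trans le)
      (hs'.trans (mul_le_mul_of_nonneg_right (min_le_right _ _) μ0))
  obtain ⟨d', X', hX', hG'⟩ := co n Ω w E t u se A S Z c d k X (Z.co ξ) γ W _ b D hX hx hW k0 aM
    bE b0 a1 b1 hk hD hU
  have ec : cut c (Z.co ξ₁) = Function.update (cut (c + 1) (Z.co ξ)) c
      (Z.co ξ c - γ c * u c + b * u c) := by
    funext j
    rcases lt_trichotomy j c with l | rfl | l
    · rw [Function.update_of_ne l.ne, cut, cut, if_neg (not_le.2 (show j.1 < c.1 from l)),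
        if_neg (by have : j.1 < c.1 := l; omega)]
    · rw [Function.update_self, cut, if_pos le_rfl, e2]
    · rw [Function.update_of_ne l.ne', cut, cut, if_pos (show c.1 ≤ j.1 from l.le),
        if_pos (show c.1 + 1 ≤ j.1 from l), e1 j l]
  refine ⟨ξ', γ', d', X', p', fun j hj => (e' j (by omega)).trans (e1 j hj),
    by rwa [mul_assoc], hX', fun H hH => (hG' H hH κ ξ' κ0.le (ec ▸ hG H hH)).mono ?_⟩
  have d0 : 0 < W.natDegree := k0.trans_le (hk.trans ((Multiset.card_le_card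
    (Multiset.filter_le _ _)).trans ((Polynomial.card_roots' _).trans Polynomial.natDegree_map_le)))
  rw [mul_div_assoc]
  exact mul_le_mul_of_nonneg_right (mul_le_mul_of_nonneg_left
    ((le_div_iff₀ (Nat.cast_pos.2 d0)).2 θk) κ0.le) (Nat.cast_nonneg _)⟩

end Vale.Agent.P283B.Lm
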