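import Vale.Agent.P283B.LM.St
import Vale.Agent.P283B.LS.Sl1
import Vale.Agent.P283B.LS.BriA
import Vale.Agent.P287D.Sc.Sur
import Vale.Agent.P287D.Gm.Loc

/-!
# P283B, block LM: prime divisors over prime divisors of the chart (leaf OVR)
-/

set_option linter.unusedVariables false
set_option linter.unusedSectionVars false

open Set
open Vale.Agent.P297Z Vale.Agent.P287D Vale.Agent.P287D.Cb

noncomputable section

namespace Vale.Agent.P283B.Lm

open Wp hiding Cl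
open Ls Gm

namespace Vr

variable {K L ι : Type} [Field K] [Algebra ℂ K] [Field L] [Algebra ℂ L] {n : ℕ} {s : Finset K}
  {P R : Pl K} {a : K}

theorem ex_val {S : Set K} (h : a ∉ Cl S) :
    ∃ U : ValuationSubring K, (∀ b ∈ Cl S, b ∈ U) ∧ a ∉ U := by
  have : IsIntegrallyClosedIn (Cl S).toSubfield.toSubring K :=
    isIntegrallyClosedIn_iff.2 ⟨Subtype.val_injective, fun {x} k => ⟨⟨x, cl_le (S := Cl S)
      (fun _ => id) (mem_Cl.2 (On.alg_mono Subtype.val_injective Subtype.val_injective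
        (fun r => ⟨⟨r, Algebra.subset_adjoin r.2⟩, rfl⟩) k.isAlgebraic))⟩, rfl⟩⟩
  exact Subring.exists_le_valuationSubring_of_isIntegrallyClosedIn
    (R := (Cl S).toSubfield.toSubring) h

theorem af_mem (hK : FF K n) (h1 : 1 ∈ s) (hs : ∀ f ∈ s, f ∈ P.ring) {U : ValuationSubring P.κ}
    (hU : ∀ b ∈ Cl (P.rd '' s), b ∈ U) (h : a ∈ On.Af (mx s) 1) : a ∈ On.cmpV P U := by
  obtain ⟨p, m, r⟩ := On.int_Af hK h1 one_ne_zero a h
  have k : ∀ b ∈ On.Bf s 1, b ∈ On.cmpV P U := fun b hb => by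
    induction hb using Algebra.adjoin_induction with
    | mem x hx =>
      obtain ⟨g, hg, rfl⟩ := hx
      simp only [div_one]
      exact ⟨hs g hg, hU _ (sub_Cl ⟨g, hg, rfl⟩)⟩
    | algebraMap c => exact ⟨P.con c, hU _ (rd_const (P := P) c ▸ cl_cst ⟨c, rfl⟩ _)⟩
    | add x y _ _ a b => exact add_mem a b
    | mul x y _ _ a b => exact mul_mem a b
  obtain ⟨b, rfl⟩ := IsIntegrallyClosed.isIntegral_iff.1 (⟨p.map ((algebraMap (On.Bf s 1) K).codRestrict _
    fun b => k b b.2), m.map _, by rw [Polynomial.eval₂_map]; exact r⟩ :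
      IsIntegral (On.cmpV P U) a)
  exact b.2

/-- the residues of the local ring are algebraic over the residues of the system -/
theorem rd_cl (hK : FF K n) (h1 : 1 ∈ s) (hs : ∀ f ∈ s, f ∈ P.ring) (ha : a ∈ Oz s P) :
    P.rd a ∈ Cl (P.rd '' s) := by_contra fun z => by
  obtain ⟨U, hU, k⟩ := ex_val z
  have c : On.Ch (mx s) 1 P := On.ch_of h1 one_ne_zero fun g hg => by simpa using hs g hg
  have v : a ∉ On.cmpV P U := fun e => k e.2
  have m : a⁻¹ ∈ (Algebra.adjoin (On.Af (mx s) 1) {a⁻¹}).restrictScalars ℂ :=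
    Algebra.subset_adjoin (R := On.Af (mx s) 1) rfl
  have l : ∀ b ∈ On.Af (mx s) 1, b ∈ (Algebra.adjoin (On.Af (mx s) 1) {a⁻¹}).restrictScalars ℂ :=
    fun b z => (Algebra.adjoin (On.Af (mx s) 1) {a⁻¹}).algebraMap_mem ⟨b, z⟩
  obtain ⟨R, r1, r2⟩ := On.apx hK (On.cmpV P U)
    (On.fg_adj (On.fg_Af hK h1 one_ne_zero) (finite_singleton a⁻¹)) (fun b hb => by
      rw [Subalgebra.mem_restrictScalars] at hb
      induction hb using Algebra.adjoin_induction with
      | mem x hx => exact hx ▸ ((On.cmpV P U).mem_or_inv_mem a).resolve_left v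
      | algebraMap c => exact af_mem hK h1 hs hU c.2
      | add x y _ _ a b => exact add_mem a b
      | mul x y _ _ a b => exact mul_mem a b) ⟨_, m, by rwa [inv_inv]⟩
  refine v (inv_inv a ▸ (r2 _ m).1 ((inv_inv a).symm ▸ ha R (c.cle hK (carQ_mx s)
    (On.ch_of h1 one_ne_zero fun g hg => r1 _ (l _ (On.Bf_le one_ne_zero (On.mem_Bf hg))))
    fun b hb p => by_contra fun q => ?_)))
  have b0 : b ≠ 0 := fun e => by simp [e] at p
  have b1 : b⁻¹ ∈ P.ring := inv_mem_of fun e => (mx_iff.1 e).elim b0 q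
  have b2 : P.rd b ∈ Cl (P.rd '' s) := by_contra fun z =>
    let ⟨U, hU, k⟩ := ex_val z; k (af_mem hK h1 hs hU hb).2
  have := Pl.ord_nonneg_of_mem _ ((r2 b (l b hb)).2
    ⟨b1, hU _ (Bm.rd_inv P (c.mem b hb) b1 b0 ▸ inv_mem b2)⟩)
  rw [Pl.ord_inv] at this
  omega

theorem ov_of (hK : FF K n) (nh : ¬ Hor (fld (mx s)) R) (h : ∀ a ∈ Oz s R, a ∈ P.ring) :
    Ov s R P := by
  have nz : Nz s := by_contra fun z => nh (by
    rw [mx_of_not z, fld_prn hK (zero_mem _)]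
    rintro _ ⟨c, rfl⟩
    exact R.con c)
  obtain ⟨f, hf, c⟩ := On.exists_ch nz R
  refine c.cle hK (carQ_mx s) (On.ch_of hf c.ne fun g hg => h _ fun Q o =>
    (c.of_cle o).mem _ (On.Bf_le c.ne (On.mem_Bf hg))) fun b hb p => by_contra fun q => ?_
  have := Pl.ord_nonneg_of_mem _ (h b⁻¹ fun Q o => inv_mem_of fun e => (mx_iff.1 e).elim
    (fun e => by simp [e] at p) fun e => q (c.pos o b hb e))
  rw [Pl.ord_inv] at this
  omega

/-- a place over a prime divisor of the affine space is a prime divisor of the chart -/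
theorem sp_up [Fintype ι] {z : ι → L} {φ : L →ₐ[ℂ] K} {v : Pl L} (hz : Rf z)
    (hK : FF K (n + 1)) (c : Fintype.card ι = n + 1) (l : Lies (φ : L →+* K) P v) (f : Fi z v)
    (k : kq z v = 0) (x : P.κ) : x ∈ Cl (range fun i => P.rd (φ (z i))) := by
  have hL := Bi.rf_ff hz c
  let a := (Fintype.equivFinOfCardEq c).symm
  have sp : Sp v (range (z ∘ a)) := by_contra fun e => by
    have := one_le_kap hL (hz.ind.comp _ a.injective) (fun i => f _) e
    rw [← kq_eq hL a, k] at this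
    norm_num at this
  obtain ⟨j, hj⟩ := drop (ff_κ v hL) (w := fun i => v.rd (z (a i))) fun x => by
    have := (sp_iff.1 sp).2 x
    rwa [← range_comp] at this
  have := ind_ah (φ := l.κ) (fun c => by
    rw [← rd_const, l.isRd _ (v.con c), RingHom.coe_coe, φ.commutes, rd_const]) hj
  refine cl_le ?_ (cl_basis (ff_κ P hK) this (by simp) x)
  rintro _ ⟨i, rfl⟩
  exact sub_Cl ⟨_, (l.isRd _ (f _)).symm⟩

end Vr

open Vr in
theorem ovr : OVR := fun n K _ _ hK L ι _ _ _ c Λ s₀ R₀ z φ T₀ Q v hΛ bΛ d h g l k => by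
  have nh : ¬ Hor (fld (mx s₀)) R₀ := fun e => h.li.not_trv e.trv
  have ov : ∀ P, Lies (inc _) P Q → Ov s₀ R₀ P := fun P lP => ov_of hK nh fun a ha => by
    obtain ⟨b, b1, c, c1, c0, c2, e⟩ := (h.loc ⟨a, Sl.oz_le hK ha⟩).1 ha
    refine (lP ⟨a, Sl.oz_le hK ha⟩).1 ?_
    rw [e, div_eq_mul_inv]
    exact mul_mem (Sl.int_mem (fun b => adj_mem (range_subset_iff.2 g.1) b.2) b1)
      (inv_mem_of fun m => (mx_iff.1 m).elim c0 fun m => (g.2 c c1 m).ne' c2)
  obtain ⟨m, hm⟩ := Nat.exists_eq_add_one_of_ne_zero fun e => no_pl (e ▸ h.ff) Q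
  have hM : FF (fld (mx s₀)) (m + 1) := hm ▸ h.ff
  obtain ⟨Λ₀, a1, a2, a3⟩ := fld_down hK (smp_mx s₀)
  obtain ⟨s, s1, s2, s3⟩ := exists_sys₀ a1 Q.ring
  obtain ⟨P, lP⟩ := Pb.up (φ := inc (fld (mx s₀))) (fun _ => rfl) hK Q
  suffices o : On m Λ₀ Q by
    obtain ⟨w, w1, w2⟩ := exists_on_over hM hK (φ := inc _) (fun _ => rfl) hΛ bΛ a1 a2
      (d.congr (by simpa using neg_mem a3)) o
    exact ⟨w, w2, ov w w1, w1⟩
  refine (on_iff res' balg hM s1 s2 s3).2 fun x => cl_le ?_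
    (sp_up h.rf hM hm l (fun i => (l _).2 (g.1 i)) k x)
  rintro _ ⟨i, rfl⟩
  refine rd_cl hM s2 s3 fun R o => ?_
  obtain ⟨u, lu⟩ := Pb.up (φ := inc (fld (mx s₀))) (fun _ => rfl) hK R
  exact (lu _).2 ((h.loc _).2 ⟨_, mem_icl _ i, 1, one_mem _, one_ne_zero, by simp, by simp⟩ u
    ((ov P lP).trans (((cle_pb_iff hK (cld_fld _) lP lu).2 (s1.cle_iff.2 o)).congr a3)))

end Vale.Agent.P283B.Lm
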