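import Vale.Agent.P283B.LM.Tw
import Vale.Agent.P283B.LS.St
import Vale.Agent.P283B.BR.MlDf

/-!
# P283B, block LM: points of bounded multiplicity of the base (statements)

`L` is the field of the affine space, `M` the field of the base, finite over `L`.
-/

set_option linter.unusedVariables false

open Set MvPolynomial

noncomputable section

namespace Vale.Agent.P283B.Lm

open P287D Wp Ls

section defs

variable {L M ι : Type} [Field L] [Algebra ℂ L] [Field M] [Algebra ℂ M]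

theorem mem_icl (y : ι → M) (i : ι) : y i ∈ Icl y :=
  (isIntegral_algebraMap (A := M) (x := (⟨y i, Algebra.subset_adjoin ⟨i, rfl⟩⟩ :
    Algebra.adjoin ℂ (range y))) :)

/-- the coordinates in `M` -/
abbrev im (φ : L →ₐ[ℂ] M) (z : ι → L) : ι → M := fun i => φ (z i)

/-- the centre of `P` on the finite chart contains the centre of `T` -/
def Ge (y : ι → M) (T P : Pl M) : Prop := Fi y P ∧ ∀ a ∈ Icl y, 0 < P.ord a → 0 < T.ord a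

/-- at most `c` sheets pass through the geometric points near the centre of `T` -/
def Cnt (c : ℕ) (y : ι → M) (T : Pl M) : Prop := ∀ (Ω : Type) [Field Ω] [Algebra ℂ Ω]
  (w : AbsoluteValue Ω ℝ) (τ₀ : M →ₐ[ℂ] Ω) (P : Pl M) (S : Finset (M →ₐ[ℂ] Ω)),
  IsNonarchimedean w → Ge y T P → (∀ f, f ∈ P.ring ↔ w (τ₀ f) ≤ 1) →
  (∀ τ ∈ S, (∀ i, τ (y i) = τ₀ (y i)) ∧ ∀ a ∈ Icl y, w (τ a - τ₀ a) < 1) → S.card ≤ c

/-- an effective `ε`-lc pair near the centre of `T` -/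
structure Ep [Fintype ι] (ε : ℝ) (z : ι → L) (φ : L →ₐ[ℂ] M) (T : Pl M) (J : Finset M) (a : ℝ) :
    Prop where
  rf : Rf z
  ff : FF M (Fintype.card ι)
  fi : Fi (im φ z) T
  a0 : 0 ≤ a
  jm : ∀ f ∈ J, f ∈ Icl (im φ z)
  lo : ∀ P v, Ge (im φ z) T P → Lies (φ : L →+* M) P v → ε * P.ord (φ v.t) ≤ psi (im φ z) J a P
  ef : ∀ P v, Ge (im φ z) T P → Lies (φ : L →+* M) P v → kq z v = 0 → psi (im φ z) J a P ≤ 1

variable {Ω : Type} [Field Ω] [Algebra ℂ Ω] {n : ℕ}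

/-- the values of `ξ` are integral and the centre of `ξ` contains the centre of `T` -/
def Ct0 (w : AbsoluteValue Ω ℝ) {y : ι → M} (T : Pl M) (ξ : Icl y →ₐ[ℂ] Ω) : Prop :=
  ∀ a, w (ξ a) ≤ 1 ∧ (w (ξ a) < 1 → a = 0 ∨ 0 < T.ord a)

/-- the sheets through the centre of `T` -/
def Sh (w : AbsoluteValue Ω ℝ) (t : Ω) (y : Option (Fin n) → M) (T : Pl M) : Type :=
  {ξ : Icl y →ₐ[ℂ] Ω // ξ ⟨_, mem_icl y none⟩ = t ∧ (∀ j, w (ξ ⟨_, mem_icl y (some j)⟩) < 1) ∧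
    Ct0 w T ξ}

/-- the data of the tower -/
def sd (w : AbsoluteValue Ω ℝ) (t : Ω) (y : Option (Fin n) → M) (T : Pl M) (U : Set (Icl y)) :
    Sd Ω (Icl y) (Sh w t y T) n :=
  ⟨fun ξ j => ξ.1 ⟨_, mem_icl y (some j)⟩, fun ξ => ξ.1, U⟩

variable {K : Type} [Field K] [Algebra ℂ K]

/-- a finite chart of the base at the centre of `R₀` -/
structure Ch [Fintype ι] (c : ℕ) (s₀ : Finset K) (R₀ : Pl K) (z : ι → L)
    (φ : L →ₐ[ℂ] fld (mx s₀)) (T₀ : Pl (fld (mx s₀))) : Prop where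
  rf : Rf z
  ff : FF (fld (mx s₀)) (Fintype.card ι)
  li : Lies (inc (fld (mx s₀))) R₀ T₀
  cnt : Cnt c (im φ z) T₀
  loc : ∀ h : fld (mx s₀), (h : K) ∈ Oz s₀ R₀ ↔
    ∃ a ∈ Icl (im φ z), ∃ b ∈ Icl (im φ z), b ≠ 0 ∧ T₀.ord b = 0 ∧ h = a / b

end defs

/-- a statement for all finite charts -/
def ForC (A : ∀ (L M ι : Type) [Field L] [Algebra ℂ L] [Field M] [Algebra ℂ M] [Fintype ι],
    (ι → L) → (L →ₐ[ℂ] M) → Prop) : Prop :=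
  ∀ (L M ι : Type) [Field L] [Algebra ℂ L] [Field M] [Algebra ℂ M] [Fintype ι] (z : ι → L)
    (φ : L →ₐ[ℂ] M), Rf z → FF M (Fintype.card ι) → A L M ι z φ

/-! ### finite charts -/

/-- **GEN**: the chart is of finite type; it is an open part of a model -/
def GEN : Prop := ForC fun L M _ _ _ _ _ _ z φ => IsNoetherianRing (Icl (im φ z)) ∧
  (∀ f : M, ∃ a ∈ Icl (im φ z), ∃ p : MvPolynomial _ ℂ, p ≠ 0 ∧ f = a / aeval (im φ z) p) ∧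
  ∃ s : Finset M, 1 ∈ s ∧ (∀ i, φ (z i) ∈ s) ∧ (∀ f ∈ s, f ∈ Icl (im φ z)) ∧
    ∀ T P, Fi (im φ z) T → (CLe (mx s) T P ↔ Ge (im φ z) T P)

/-- **HART**: functions without poles on the prime divisors through the point -/
def HART : Prop := ForC fun L M _ _ _ _ _ _ z φ => ∀ (T : Pl M) (g : M), Fi (im φ z) T →
  (∀ P v, Ge (im φ z) T P → Lies (φ : L →+* M) P v → kq z v = 0 → g ∈ P.ring) →
  ∃ b ∈ Icl (im φ z), b ≠ 0 ∧ T.ord b = 0 ∧ b * g ∈ Icl (im φ z)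

/-- **RAM**: the ramification is bounded by the number of sheets -/
def RAM : Prop := ForC fun L M _ _ _ _ _ _ z φ => ∀ (c : ℕ) T P v, Cnt c (im φ z) T →
  Ge (im φ z) T P → Lies (φ : L →+* M) P v → P.ord (φ v.t) ≤ c

/-- **DIF**: a function which vanishes on the ramification locus -/
def DIF : Prop := ForC fun L M _ _ _ _ _ _ z φ => ∃ D ∈ Icl (im φ z), D ≠ 0 ∧
  ∀ P v, Fi (im φ z) P → Lies (φ : L →+* M) P v → P.ord D = 0 → P.ord (φ v.t) = 1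

/-- **CHART**: the sheets over the points of the open polydisc -/
def CHART : Prop := ∀ n c, ForE n fun Ω _ _ w E t u => ∀ (L M : Type) [Field L] [Algebra ℂ L]
  [Field M] [Algebra ℂ M] (z : Option (Fin n) → L) (φ : L →ₐ[ℂ] M) (T : Pl M), Rf z →
  FF M (Fintype.card (Option (Fin n))) → Ce (im φ z) T → Cnt c (im φ z) T →
  ∃ U, Ct w t (sd w t (im φ z) T U) c

/-! ### the pair on the chart -/

/-- **DIAG**: the component of the fibre power through the diagonal -/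
def DIAG : Prop := ∀ (L F σ ι : Type) [Field L] [Algebra ℂ L] [Field F] [Algebra ℂ F] [Fintype σ]
  [Fintype ι] (s : ℕ) (z : σ → L) (y : σ ⊕ ι → F) (φ : L →ₐ[ℂ] F), 0 < s → Rf z →
  AlgebraicIndependent ℂ y → FF F (Fintype.card (σ ⊕ ι)) → (∀ b, φ (z b) = y (.inl b)) →
  ∃ (E : Type) (_ : Field E) (_ : Algebra ℂ E) (φ' : L →ₐ[ℂ] E) (ψ : Fin s → F →ₐ[ℂ] E)
    (Y : σ ⊕ ι × Fin s → E) (B : Subalgebra ℂ E) (δ : B →ₐ[ℂ] F),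
    FF E (Fintype.card (σ ⊕ ι × Fin s)) ∧ AlgebraicIndependent ℂ Y ∧ (∀ j f, ψ j (φ f) = φ' f) ∧
    (∀ j i, ψ j (y i) = Y (cp j i)) ∧ (∀ j f, ∃ h : ψ j f ∈ B, δ ⟨_, h⟩ = f) ∧
    (∀ w : Pl E, ∑ j, pb (ψ j : F →+* E) (kq y + 1) w - (s - 1) * pb (φ' : L →+* E) (kq z + 1) w ≤
      kq Y w + 1) ∧
    (∀ g, (∀ w : Pl E, (∀ j, Trv (ψ j : F →+* E) w) → g = 0 ∨ 0 < kq Y w + 1 + w.ord g) → g ∈ B) ∧
    (∀ P : Pl F, ¬ Trv (φ : L →+* F) P → ∃ w : Pl E, (∀ j, Lies (ψ j : F →+* E) w P) ∧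
      kq Y w + 1 = ∑ j, pb (ψ j : F →+* E) (kq y + 1) w -
        (s - 1) * pb (φ' : L →+* E) (kq z + 1) w ∧
      ∀ g : B, δ g ≠ 0 → ∀ j, w.ord g ≤ w.ord (ψ j P.t) * P.ord (δ g)) ∧
    ∀ P : Pl F, Trv (φ : L →+* F) P → ∀ g : B, (∀ j (w : Pl E), Lies (ψ j : F →+* E) w P →
      w.ord (ψ j P.t) = 1 → kq Y w = kq y P → (∀ i, i ≠ j → Trv (ψ i : F →+* E) w) →
      (g : E) ∈ w.ring) → δ g ∈ P.ring

/-- **BERG**: functions with a lower bound at all places and an upper bound at a given point -/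
def BERG : Prop := ∀ (L₀ L M σ ι : Type) [Field L₀] [Algebra ℂ L₀] [Field L] [Algebra ℂ L]
  [Field M] [Algebra ℂ M] [Fintype σ] [Fintype ι] (z₀ : σ → L₀) (z : σ ⊕ ι → L)
  (φ₀ : L₀ →ₐ[ℂ] L) (φ : L →ₐ[ℂ] M) (T : Pl M) (J : Finset M) (a ε : ℝ) (s k : ℕ) (v : Pl L₀),
  Rf z₀ → (∀ b, φ₀ (z₀ b) = z (.inl b)) → Ep ε z φ T J a → 0 < ε → 0 < s → Fi z₀ v →
  (∀ P, Ge (im φ z) T P → Lies (φ.comp φ₀ : L₀ →+* M) P v →
    s * (pb (φ.comp φ₀ : L₀ →+* M) (kq z₀ + 1) P - psi (im φ z) J a P) <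
      (k + 1) * P.ord (φ (φ₀ v.t))) →
  ∀ (Ω : Type) [Field Ω] [Algebra ℂ Ω] (w : AbsoluteValue Ω ℝ) (ρ : L₀ →ₐ[ℂ] Ω)
    (ξ : Icl (im φ z) →ₐ[ℂ] Ω), IsNonarchimedean w → (∀ f, f ∈ v.ring ↔ w (ρ f) ≤ 1) →
    (∀ b, ξ ⟨_, mem_icl _ (.inl b)⟩ = ρ (z₀ b)) → Ct0 w T ξ → ∃ g : Icl (im φ z),
      (∀ P, Ge (im φ z) T P → ¬ Trv (φ.comp φ₀ : L₀ →+* M) P → g ≠ 0 →
        s * (pb (φ.comp φ₀ : L₀ →+* M) (kq z₀ + 1) P - psi (im φ z) J a P) -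
          pb (φ.comp φ₀ : L₀ →+* M) (kq z₀ + 1) P ≤ P.ord g) ∧ w (ρ v.t) ^ k ≤ w (ξ g)

/-- **S3**: closed points, general coordinates -/
def S3 : Prop := ∀ (n c : ℕ) (ε : ℝ), 0 < ε → ∃ τ : ℝ, 0 < τ ∧ ∀ (L M : Type) [Field L]
  [Algebra ℂ L] [Field M] [Algebra ℂ M] (z : Option (Fin n) → L) (φ : L →ₐ[ℂ] M) (T : Pl M)
  (J : Finset M) (a : ℝ), Ep ε z φ T J a → Cnt c (im φ z) T → Ce (im φ z) T →
  (∀ P j, Ge (im φ z) T P →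
    ∑ i, (P.ord (φ (z i)) : ℝ) - (n + 1) * P.ord (φ (z j)) ≤ psi (im φ z) J a P) →
  τ * T.ord (φ (z none)) ≤ psi (im φ z) J a T

/-- **S2**: closed points -/
def S2 : Prop := ∀ (n c : ℕ) (ε : ℝ), 0 < ε → ∃ τ : ℝ, 0 < τ ∧ ∀ (L M : Type) [Field L]
  [Algebra ℂ L] [Field M] [Algebra ℂ M] (z : Fin (n + 1) → L) (φ : L →ₐ[ℂ] M) (T : Pl M)
  (J : Finset M) (a : ℝ), Ep ε z φ T J a → Cnt c (im φ z) T → Ce (im φ z) T →
  ∃ i, τ * T.ord (φ (z i)) ≤ psi (im φ z) J a T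

/-- **ETA**: points which need not be closed -/
def ETA : Prop := ∀ (n c : ℕ) (ε : ℝ), 0 < ε → ∃ τ : ℝ, 0 < τ ∧ ∀ (L M σ : Type) [Field L]
  [Algebra ℂ L] [Field M] [Algebra ℂ M] [Fintype σ] (z : σ ⊕ Fin (n + 1) → L) (φ : L →ₐ[ℂ] M)
  (T : Pl M) (J : Finset M) (a : ℝ) (q : Fin (n + 1) → Polynomial (MvPolynomial σ ℂ)),
  Ep ε z φ T J a → Cnt c (im φ z) T → AlgebraicIndependent ℂ (fun b => T.rd (φ (z (.inl b)))) →
  (∀ i, Irreducible (q i) ∧ 0 < T.ord (ey (fun b => φ (z (.inl b))) (φ (z (.inr i))) (q i))) →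
  ∃ i, τ * T.ord (ey (fun b => φ (z (.inl b))) (φ (z (.inr i))) (q i)) ≤ psi (im φ z) J a T

/-! ### the fibration -/

/-- **SPLIT**: coordinates adapted to the point -/
def SPLIT : Prop := ForS fun n K _ _ => ∀ (c : ℕ) (s₀ : Finset K) (R₀ : Pl K), Mlt c K s₀ R₀ →
  ¬ Hor (fld (mx s₀)) R₀ → ∃ (L σ : Type) (_ : Field L) (_ : Algebra ℂ L) (_ : Fintype σ) (m : ℕ)
    (z : σ ⊕ Fin (m + 1) → L) (φ : L →ₐ[ℂ] fld (mx s₀)) (T₀ : Pl (fld (mx s₀)))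
    (q : Fin (m + 1) → Polynomial (MvPolynomial σ ℂ)), m ≤ n ∧ Ch c s₀ R₀ z φ T₀ ∧
    AlgebraicIndependent ℂ (fun b => T₀.rd (φ (z (.inl b)))) ∧
    ∀ i, Irreducible (q i) ∧ 0 < T₀.ord (ey (fun b => φ (z (.inl b))) (φ (z (.inr i))) (q i))

/-- **PERT**: a klt pair whose boundary contains the zeros of `D` -/
def PERT : Prop := ForS fun n K _ _ => ∀ (Λ : BD K) (s₀ : Finset K) (R₀ : Pl K) (D : K),
  FTo n Λ s₀ → ¬ Hor (fld (mx s₀)) R₀ → D ∈ Oz s₀ R₀ → D ≠ 0 → ∃ (Γ : BD K) (c δ : ℝ), 0 < δ ∧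
    Klt (n + 1) Γ ∧ Bdy n Λ Γ ∧ Nef (c • mx s₀ - Γ) ∧ Big (c • mx s₀ - Γ) ∧
    ∀ w Q, On n Λ w → Ov s₀ R₀ w → Lies (inc (fld (mx s₀))) w Q → 0 < w.ord D →
      ld (n + 1) Γ w + δ * w.ord (inc (fld (mx s₀)) Q.t) ≤ 1

/-- **OVR**: a prime divisor over a prime divisor of the chart -/
def OVR : Prop := ForS fun n K _ _ => ∀ (L ι : Type) [Field L] [Algebra ℂ L] [Fintype ι] (c : ℕ)
  (Λ : BD K) (s₀ : Finset K) (R₀ : Pl K) (z : ι → L) (φ : L →ₐ[ℂ] fld (mx s₀))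
  (T₀ Q : Pl (fld (mx s₀))) (v : Pl L), Smp Λ → Big Λ → Dsc Λ (mx s₀) → Ch c s₀ R₀ z φ T₀ →
  Ge (im φ z) T₀ Q → Lies (φ : L →+* fld (mx s₀)) Q v → kq z v = 0 →
  ∃ w, On n Λ w ∧ Ov s₀ R₀ w ∧ Lies (inc (fld (mx s₀))) w Q

/-- **JN**: an ideal on the base which approximates the discriminant -/
def JN : Prop := ForS fun n K _ _ => ∀ (L ι : Type) [Field L] [Algebra ℂ L] [Fintype ι] (c N : ℕ)
  (Λ Γ : BD K) (s₀ : Finset K) (R₀ : Pl K) (z : ι → L) (φ : L →ₐ[ℂ] fld (mx s₀))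
  (T₀ : Pl (fld (mx s₀))) (e d : ℝ), Smp Λ → Big Λ → Dsc Λ (mx s₀) → Ch c s₀ R₀ z φ T₀ →
  Bdy n Λ Γ → Nef (e • mx s₀ - Γ) → Big (e • mx s₀ - Γ) → 0 < N → d ≤ 1 →
  (∀ w, Ov s₀ R₀ w → 0 < ld (n + 1) Γ w) →
  (∀ w Q v, Ov s₀ R₀ w → Lies (inc (fld (mx s₀))) w Q → Lies (φ : L →+* fld (mx s₀)) Q v →
    d * w.ord (φ v.t : K) ≤ ld (n + 1) Γ w) →
  ∃ J : Finset (fld (mx s₀)), (∀ f ∈ J, f ∈ Icl (im φ z)) ∧
    (∀ Q v, Ge (im φ z) T₀ Q → Lies (φ : L →+* fld (mx s₀)) Q v →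
      d * Q.ord (φ v.t) ≤ psi (im φ z) J (N : ℝ)⁻¹ Q) ∧
    ∀ w Q, Ov s₀ R₀ w → Lies (inc (fld (mx s₀))) w Q →
      w.ord (Q.t : K) * psi (im φ z) J (N : ℝ)⁻¹ Q ≤
        ld (n + 1) Γ w + w.ord (Q.t : K) * (kq (im φ z) Q + 1) / N

/-- **LM**: the threshold of an ideal which is primary to the point -/
def LM (C : Bs) (n : ℕ) : Prop := ∀ (ε : ℝ) (q : ℕ), 0 < ε → 0 < q → ∃ τ : ℝ, 0 < τ ∧
  ForN n fun K _ _ => ∀ (Λ Γ : BD K) (s₀ : Finset K) (R₀ : Pl K), Rel n Λ s₀ Γ → C K s₀ R₀ →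
    ¬ Hor (fld (mx s₀)) R₀ → Cf n Λ Γ (Frq q) (Ov s₀ R₀) → ELc n ε Γ (Ov s₀ R₀) →
    ∃ s : Finset K, s.Nonempty ∧ (∀ f ∈ s, f ≠ 0 ∧ f ∈ fld (mx s₀) ∧ f ∈ Oz s₀ R₀ ∧ 0 < R₀.ord f) ∧
      ∀ P, Ov s₀ R₀ P → 0 ≤ ld (n + 1) Γ P + τ * mx s P

/-! ### the leaves -/

/-- leaf -/
def SCHART : Prop := GEN → CHART

/-- leaf -/
def SBERG : Prop := OT → DIAG → GEN → HART → BERG

/-- leaf -/
def BRI : Prop := TOWER → BERG → CHART → GEN → REAL → S3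

/-- leaf -/
def SBER : Prop := GEN → BERT → S3 → S2

/-- leaf -/
def SETA : Prop := S2 → ETA

/-- leaf -/
def SJN : Prop := PW → GEN → JN

/-- leaf -/
def SLM : Prop := JN → SPLIT → RAM → DIF → PERT → OVR → ETA → ∀ c n, MS n → LM (Mlt c) n

/-- leaf -/
def SLL : Prop := BERT → ∀ C n, LM C n → LL C n

theorem ll_of (tw : TOWER) (ot : OT) (re : REAL) (be : BERT) (pw : PW) (ge : GEN) (ha : HART)
    (ra : RAM) (df : DIF) (di : DIAG) (sp : SPLIT) (pe : PERT) (ov : OVR) (ch : SCHART)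
    (sb : SBERG) (br : BRI) (s2 : SBER) (et : SETA) (jn : SJN) (lm : SLM) (ll : SLL) (c n : ℕ)
    (ms : MS n) : LL (Mlt c) n :=
  ll be _ n (lm (jn pw ge) sp ra df pe ov
    (et (s2 ge be (br tw (sb ot di ge ha) (ch ge) ge re))) c n ms)

end Vale.Agent.P283B.Lm
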