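import Vale.Agent.P283B.LS.Tw

/-!
# P283B, block LM: the tower of discs on a finite chart (definitions and statements)

The points are sheets over the points of the open polydisc.
-/

open Set

noncomputable section

namespace Vale.Agent.P283B.Lm

open Mono Ls

/-- sheets: coordinates, values of the functions, the functions which are units on the sheets
which do not pass through the point -/
structure Sd (Ω : Type) [Field Ω] (A S : Type) [CommRing A] (n : ℕ) where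
  co : S → Fin n → Ω
  va : S → A →+* Ω
  U : Set A

section defs

variable {Ω A S : Type} [Field Ω] [Algebra ℂ Ω] [CommRing A] {n : ℕ}

/-- the lower bound (L) at all triangular points -/
def Lw (w : AbsoluteValue Ω ℝ) (E : Subfield Ω) (t : Ω) (u : Fin n → Ω) (Z : Sd Ω A S n)
    (Ψ : S → ℝ) (c s : ℕ) (g : A) : Prop := ∀ ξ γ, Pt w E u (Z.co ξ) γ →
  w (Z.va ξ g) ≤ Real.exp (-(s * (aa w t c γ - Ψ ξ) - aa w t c γ))

/-- what the tower uses about the pair -/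
structure Bg (w : AbsoluteValue Ω ℝ) (E : Subfield Ω) (t : Ω) (u : Fin n → Ω) (Z : Sd Ω A S n)
    (Ψ : S → ℝ) (ε : ℝ) : Prop where
  lc : ∀ ξ γ, Pt w E u (Z.co ξ) γ → 0 ≤ Ψ ξ
  up : ∀ ξ γ, Pt w E u (Z.co ξ) γ → Ψ ξ ≤ aa w t 0 γ
  ber : ∀ ξ γ (j : Fin n), Pt w E u (Z.co ξ) γ →
    vl w t + ∑ i, vl w (Z.co ξ i) - (n + 1) * vl w (Z.co ξ j) ≤ Ψ ξ
  ms : ∀ ξ γ (g : ℝ), Pt w E u (Z.co ξ) γ → 0 < g →
    (∀ p, p ≠ 0 → ∃ z : ℤ, vl w (ev t (Z.co ξ) p) = z * g) → ε * g ≤ Ψ ξ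
  lu : ∀ (c : Fin n) (s : ℕ) (η γ : Fin n → Ω) (φ : ℝ), 0 < s → Pt w E u η γ → 0 ≤ φ →
    aa w t c γ - aa w t c η ≤ φ →
    (∀ ξ γ', Pt w E u (Z.co ξ) γ' → (∀ j, c ≤ j → Z.co ξ j = η j) → aa w t c γ - Ψ ξ ≤ φ) →
    ∀ ξ, (∀ j, c ≤ j → Z.co ξ j = η j) → ∃ g, Lw w E t u Z Ψ c s g ∧
      Real.exp (-(s * φ + vl w (η c))) ≤ w (Z.va ξ g)

/-- a correspondence of degree at most `d` over the coordinates `j ≥ c` -/
structure Cor (w : AbsoluteValue Ω ℝ) (t : Ω) (Z : Sd Ω A S n) (c d : ℕ)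
    (X : (Fin n → Ω) → Multiset S) : Prop where
  pos : 0 < d
  card : ∀ η, Op w η → (X η).card ≤ d
  mem : ∀ η, Op w η → ∀ ξ ∈ X η, ∀ j : Fin n, c ≤ j.1 → Z.co ξ j = η j
  chi : ∀ H ∈ Z.U, ∃ χ : Polynomial (Pn n), ∀ η, Op w η → ∃ B : Multiset Ω, (∀ β ∈ B, w β = 1) ∧
    χ.map (ev t η) = ((((X η).map fun ξ => Z.va ξ H) + B).map
      fun β => Polynomial.X - Polynomial.C β).prod

/-- a chart with at most `m` sheets through the point -/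
structure Ct (w : AbsoluteValue Ω ℝ) (t : Ω) (Z : Sd Ω A S n) (m : ℕ) : Prop where
  noe : IsNoetherianRing A
  op : ∀ ξ, Op w (Z.co ξ)
  le : ∀ ξ a, w (Z.va ξ a) ≤ 1
  ex : ∀ η, Op w η → ∃ ξ, Z.co ξ = η
  adm : ∃ e, (∀ ξ, w (Z.va ξ e) < 1) ∧ ∀ (H : A) (M : ℕ), ∃ k : ℕ, H + k * e ^ M ∈ Z.U
  cor : ∃ X, Cor w t Z 0 m X ∧ ∀ ξ, ξ ∈ X (Z.co ξ)

/-- the truncated sum of the values of `H` on the sheets -/
def fv (w : AbsoluteValue Ω ℝ) (Z : Sd Ω A S n) (T : Multiset S) (H : A) (l : ℝ) : ℝ :=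
  (T.map fun ξ => mv w (Z.va ξ H) l).sum

/-- `r` sheets are as good as the sheet `ξ` -/
def Gd (w : AbsoluteValue Ω ℝ) (Z : Sd Ω A S n) (T : Multiset S) (r : ℝ) (ξ : S) (H : A) : Prop :=
  ∀ l₁ l₂, 0 ≤ l₁ → l₁ ≤ l₂ → w (Z.va ξ H) ≤ Real.exp (-l₂) →
    r * (l₂ - l₁) ≤ fv w Z T H l₂ - fv w Z T H l₁

end defs

/-- **TOWER** -/
def TOWER : Prop := ∀ (n m : ℕ) (ε : ℝ), 0 < ε → ∃ τ : ℝ, 0 < τ ∧ ForE n fun Ω _ _ w E t u =>
  ∀ (A S : Type) [CommRing A] (Z : Sd Ω A S n) Ψ, Ct w t Z m → Bg w E t u Z Ψ ε →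
    ∀ ξ γ, Pt w E u (Z.co ξ) γ → τ * vl w t ≤ Ψ ξ

open Classical in
/-- **COMP**: composition of correspondences -/
def COMP : Prop := ∀ n, ForE n fun Ω _ _ w E t u => ∀ (A S : Type) [CommRing A] (Z : Sd Ω A S n)
  (c : Fin n) (d k : ℕ) (X : (Fin n → Ω) → Multiset S) (x γ : Fin n → Ω) (W : Polynomial (Pn n))
  (a b : Ω) (D : Set A), Cor w t Z c d X → Pt w E u x γ → Dis W → 0 < k → a ∈ Lv E u c → b ∈ E →
  b ≠ 0 → w a < 1 → w b < 1 → k ≤ ((W.map (ev t (cut (c + 1) x))).roots.filter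
    fun β => w (β - a) ≤ w b).card → D.Countable → D ⊆ Z.U →
  ∃ d' X', Cor w t Z (c + 1) d' X' ∧ ∀ H ∈ D, ∀ (κ : ℝ) ξ, 0 ≤ κ →
    Gd w Z (X (Function.update (cut (c + 1) x) c (a + b * u c))) (κ * d) ξ H →
    Gd w Z (X' (cut (c + 1) x)) (κ * k / W.natDegree * d') ξ H

/-- **SS**: a correspondence with a fixed part of good sheets -/
def SS (n m c : ℕ) : Prop := ∃ C κ σ : ℝ, 1 ≤ C ∧ 0 < κ ∧ 0 < σ ∧ ForE n fun Ω _ _ w E t u =>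
  ∀ (A S : Type) [CommRing A] (Z : Sd Ω A S n) Ψ ε (D : Set A), Ct w t Z m → Bg w E t u Z Ψ ε →
    D.Countable → D ⊆ Z.U → ∀ ξ γ s, Pt w E u (Z.co ξ) γ → 0 < s → Ψ ξ ≤ s → s ≤ σ * vl w t →
    ∃ ξ' γ' d X, Pt w E u (Z.co ξ') γ' ∧ (∀ j : Fin n, c ≤ j.1 → Z.co ξ' j = Z.co ξ j) ∧
      Ψ ξ' ≤ C * s ∧ Cor w t Z c d X ∧ ∀ H ∈ D, Gd w Z (X (cut c (Z.co ξ))) (κ * d) ξ' H

open Classical in
/-- **KEY**: large radii, the Lipschitz property, many zeros near the disc -/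
def KEY (n m : ℕ) (c : Fin n) : Prop := ∃ C θ σ : ℝ, 1 ≤ C ∧ 0 < θ ∧ 0 < σ ∧
  ForE n fun Ω _ _ w E t u => ∀ (A S : Type) [CommRing A] (Z : Sd Ω A S n) Ψ ε, Ct w t Z m →
    Bg w E t u Z Ψ ε → ∀ ξ γ s, Pt w E u (Z.co ξ) γ → 0 < s → Ψ ξ ≤ s →
    s ≤ σ * vl w t → θ * vl w t ≤ vl w (γ c) ∧
    (∀ a ∈ Lv E u c, ∀ b ∈ E, b ≠ 0 → w a < 1 → w b < 1 →
      C * (s + vl w (γ c) + vl w b - 2 * mv w (Z.co ξ c - a) (vl w b)) ≤ vl w t →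
      ∃ ξ' γ', Pt w E u (Z.co ξ') γ' ∧ (∀ j, c < j → Z.co ξ' j = Z.co ξ j) ∧
        Z.co ξ' c = a + b * u c ∧
        Ψ ξ' ≤ C * (s + vl w (γ c) + vl w b - 2 * mv w (Z.co ξ c - a) (vl w b))) ∧
    ∃ b ∈ E, b ≠ 0 ∧ w b < 1 ∧ vl w (γ c) - C * s ≤ vl w b ∧ vl w b ≤ vl w (γ c) ∧
      ∃ (W : Polynomial (Pn n)) (k : ℕ), Dis W ∧ 0 < k ∧ θ * W.natDegree ≤ k ∧
        k ≤ ((W.map (ev t (cut (c + 1) (Z.co ξ)))).roots.filter
          fun β => w (β - (Z.co ξ c - γ c * u c)) ≤ w b).card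

/-- leaf -/
def KEYS : Prop := NP0 → EV → AW → ∀ n m (c : Fin n), SS n m c → KEY n m c

/-- leaf -/
def STEP : Prop := COMP → ∀ n m, SS n m 0 ∧ ∀ c : Fin n, SS n m c → KEY n m c → SS n m (c + 1)

/-- leaf -/
def ROUNDS : Prop := MULT → (∀ n m c, KEY n m c) → TOWER

theorem tower_of (np : NP0) (ev : EV) (aw : AW) (mu : MULT) (co : COMP) (ke : KEYS) (st : STEP)
    (ro : ROUNDS) : TOWER := by
  refine ro mu fun n m c => ke np ev aw n m c ?_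
  have : ∀ k, k ≤ n → SS n m k := fun k => by
    induction k with
    | zero => exact fun _ => (st co n m).1
    | succ k ih =>
      exact fun h => (st co n m).2 ⟨k, h⟩ (ih (Nat.le_of_succ_le h))
        (ke np ev aw n m ⟨k, h⟩ (ih (Nat.le_of_succ_le h)))
  exact this c c.2.le

end Vale.Agent.P283B.Lm
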